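import Vale.Agent.P208.Sep

/-!
# Rigidity and the gain along a column
-/

noncomputable section

open scoped InnerProductSpace

namespace Vale.Agent.P208

variable {P : Pm} {F : Type*} [NormedAddCommGroup F] [InnerProductSpace ℝ F]

/-- `f` expands no distance by more than `L` and contracts none. -/
def Bi (L : ℝ) (S : Set E) (f : E → F) : Prop :=
  ∀ p ∈ S, ∀ q ∈ S, ‖p - q‖ ≤ ‖f p - f q‖ ∧ ‖f p - f q‖ ≤ L * ‖p - q‖

/-- The left end. -/
def Pm.pL (P : Pm) (H : ℝ) : E := P.vert H bot 0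
/-- The right end. -/
def Pm.pR (P : Pm) (H : ℝ) : E := P.vert H bot P.L
/-- The middle of the bottom. -/
def Pm.pM (P : Pm) (H : ℝ) : E := P.vert H bot 4
/-- The middle of the top. -/
def Pm.pT (P : Pm) (H : ℝ) : E := P.vert H top 4

/-- Horizontal stretch bound of the whole node. -/
def Pm.FullLe (P : Pm) (f : E → F) (H T : ℝ) : Prop := ‖f (P.pR H) - f (P.pL H)‖ ≤ T * H

/-- Horizontal stretch bound of the two halves of a node. -/
def Pm.HalfLe (P : Pm) (f : E → F) (H T : ℝ) : Prop :=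
  ‖f (P.pM H) - f (P.pL H)‖ ≤ T * (H / 2) ∧ ‖f (P.pR H) - f (P.pM H)‖ ≤ T * (H / 2)

/-- The horizontal slope. -/
def Pm.Z (P : Pm) (f : E → F) (H : ℝ) : F := H⁻¹ • (f (P.pR H) - f (P.pL H))

/-- The squared vertical stretch. -/
def Pm.vst (P : Pm) (f : E → F) (H : ℝ) : ℝ := ‖f (P.pT H) - f (P.pM H)‖ ^ 2 / P.V ^ 2

/-- Saturation of a node. -/
def Pm.Sat (P : Pm) (f : E → F) (H L S : ℝ) : Prop :=
  (S ^ 2 - ‖P.Z f H‖ ^ 2) * H ^ 2 ≤ L ^ 2 * P.V ^ 2

/-- The map seen by a child. -/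
def Ch.pull (c : Ch) (N : ℕ) (f : E → F) : E → F := fun p => c.s⁻¹ • f (c.emb N p)

lemma bi_pull (ok : P.Ok) {n m : ℕ} {H L : ℝ} (hR : P.Rg m H) {i : Idx P.N}
    (hi : P.Valid m i) {f : E → F} (hf : Bi L (P.pts (n + 1) m H) f) :
    Bi L (P.pts n (P.child m H i).st (P.child m H i).Hc) ((P.child m H i).pull P.N f) := by
  intro p hp q hq
  have ho := child_orth ok hR hi
  obtain ⟨h1, h2⟩ := hf _ (P.child_mem hi hp) _ (P.child_mem hi hq)
  rw [Ch.norm_emb_sub _ ho] at h1 h2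
  have h : ‖(P.child m H i).pull P.N f p - (P.child m H i).pull P.N f q‖
      = (P.child m H i).s⁻¹
        * ‖f ((P.child m H i).emb P.N p) - f ((P.child m H i).emb P.N q)‖ := by
    rw [Ch.pull, Ch.pull, ← smul_sub, norm_smul, Real.norm_of_nonneg (inv_nonneg.2 ho.s_pos.le)]
  rw [h, inv_mul_eq_div]
  constructor
  · rw [le_div_iff₀ ho.s_pos]; linarith
  · rw [div_le_iff₀ ho.s_pos]; linarith

lemma vert_left (H : ℝ) (r : Row P.N) : P.vert H r 0 = (-(H / 2)) • e 0 + (0 : ℝ) • e 1 := by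
  simp [Pm.vert, xv_zero, amp_zero, Pm.yv]

lemma vert_right (H : ℝ) (r : Row P.N) : P.vert H r P.L = (H / 2) • e 0 + (0 : ℝ) • e 1 := by
  simp [Pm.vert, xv_end, amp_last (P := P) (show P.L ≤ P.L + 1 by omega), Pm.yv]

lemma vert_mid (H : ℝ) (i : Fin 4) :
    P.vert H (Sum.inl i) 4 = (0 : ℝ) • e 0 + P.ht (Sum.inl i) • e 1 := by
  have h : P.xv H 4 = 0 := by
    rw [show 4 = 4 + 3 * 0 by rfl, xv_mid H (Nat.zero_le _)]; simp
  rw [Pm.vert, h, yv_mid _ (by norm_num) (by unfold Pm.L; omega)]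
  simp [lift]

lemma emb_ends (C : Ch) (Hc : ℝ) :
    C.emb P.N (P.pL Hc) = C.pl (-(Hc / 2)) 0 ∧ C.emb P.N (P.pR Hc) = C.pl (Hc / 2) 0 ∧
    C.emb P.N (P.pM Hc) = C.pl 0 0 ∧ C.emb P.N (P.pT Hc) = C.pl 0 P.V := by
  refine ⟨?_, ?_, ?_, ?_⟩
  · rw [Pm.pL, vert_left, C.emb_planar]
  · rw [Pm.pR, vert_right, C.emb_planar]
  · rw [Pm.pM, bot, vert_mid, C.emb_planar]; rfl
  · rw [Pm.pT, top, vert_mid, C.emb_planar]; rfl

/-- The division points of the fillers of a segment. -/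
def Pm.node (P : Pm) (H : ℝ) (r : Row P.N) (k l : ℕ) : E :=
  P.vert H r k + (P.mu + (1 - 2 * P.mu) * ((l : ℝ) / P.nf)) • P.seg H r k

lemma fill_ends (ok : P.Ok) {m : ℕ} {H : ℝ} (hR : P.Rg m H) (r : Row P.N) {k l : ℕ}
    (hk : k < P.L) :
    (P.child m H (.fill r k l)).emb P.N (P.pL P.H₀) = P.node H r k l ∧
      (P.child m H (.fill r k l)).emb P.N (P.pR P.H₀) = P.node H r k (l + 1) := by
  obtain ⟨e1, e2, -, -⟩ := emb_ends (P := P) (P.child m H (.fill r k l)) P.H₀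
  have h0 := ok.H₀_pos.ne'
  have hnf : (P.nf : ℝ) ≠ 0 := by exact_mod_cast ok.hnf.ne'
  constructor
  · rw [e1, fill_pl ok hR r hk, mul_zero, zero_smul, add_zero, Pm.node, Pm.theta]
    congr 2; field_simp; ring
  · rw [e2, fill_pl ok hR r hk, mul_zero, zero_smul, add_zero, Pm.node, Pm.theta]
    congr 2; push_cast; field_simp; ring

lemma col_ends (ok : P.Ok) {m : ℕ} {H : ℝ} (hR : P.Rg m H) {c : Fin P.N} {r : Row P.N}
    (hn : isNode c r) (hr : r ≠ top) :
    let C := P.child m H (.col c r)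
    C.emb P.N (P.pL C.Hc) = P.vert H r (colk c - 1) ∧
      C.emb P.N (P.pR C.Hc) = P.vert H r (colk c + 1) ∧
      C.emb P.N (P.pM C.Hc) = P.vert H r (colk c) ∧
      C.emb P.N (P.pT C.Hc) = P.vert H r (colk c) + (1 - P.nu) • P.gap H c r := by
  intro C
  obtain ⟨e1, e2, e3, e4⟩ := emb_ends (P := P) C C.Hc
  have s0 : 0 < C.s := (col_orth ok H hn hr (m := m)).s_pos
  have hH : C.Hc = H / P.K / (2 * C.s) := rfl
  have hsH : C.s * (C.Hc / 2) = H / P.K / 4 := by rw [hH]; field_simp; ring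
  have key : ∀ t, C.pl t 0 = P.vert H r (colk c) + (C.s * t) • e 0 := by
    intro t; simp [C, Ch.pl, Pm.child, smul_smul]
  have hc := colk_lt (P := P) c
  have hc' : 7 ≤ colk c := by unfold colk; omega
  have hv : ∀ k, colk c - 1 ≤ k → k ≤ colk c + 1 →
      P.vert H r k = P.vert H r (colk c) + (P.xv H k - P.xv H (colk c)) • e 0 := by
    intro k h1 h2
    have : colk c + 4 ≤ P.L := by have := c.isLt; unfold colk Pm.L; omega
    rw [Pm.vert, Pm.vert, yv_mid r (by omega) (by omega), yv_mid r (by omega) (by omega),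
      amp_inner (by omega) (by omega), amp_inner (by omega) (by omega)]
    module
  obtain ⟨x1, x2⟩ : P.xv H (colk c - 1) - P.xv H (colk c) = -(H / P.K / 4) ∧
      P.xv H (colk c + 1) - P.xv H (colk c) = H / P.K / 4 := by
    obtain ⟨a, b⟩ := colk_x (P := P) H c
    rw [a, b, xv_colk]; constructor <;> ring
  refine ⟨?_, ?_, ?_, ?_⟩
  · rw [e1, key, hv (colk c - 1) le_rfl (by omega), x1, mul_neg, hsH]
  · rw [e2, key, hv (colk c + 1) (by omega) le_rfl, x2, hsH]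
  · rw [e3, key]; simp
  · rw [e4]
    simp only [C, Ch.pl, Pm.child, zero_smul, zero_add, smul_smul]
    obtain ⟨d1, d2, -, -⟩ := gap_norm ok H hn hr
    have hg : ‖P.gap H c r‖ ≠ 0 := by linarith
    have := ok.V_pos.ne'
    congr 2; field_simp

/-- What is assumed about the children of a node. -/
def Pm.KidsLe (P : Pm) (m : ℕ) (H : ℝ) (f : E → F) (T : ℝ) : Prop :=
  (∀ r k l, P.Valid m (.fill r k l) →
    P.FullLe ((P.child m H (.fill r k l)).pull P.N f) P.H₀ T) ∧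
  (∀ c r, P.Valid m (.col c r) →
    P.HalfLe ((P.child m H (.col c r)).pull P.N f) (P.child m H (.col c r)).Hc T)

lemma pull_norm (C : Ch) (hs : 0 < C.s) (f : E → F) (p q : E) :
    ‖f (C.emb P.N p) - f (C.emb P.N q)‖
      = C.s * ‖C.pull P.N f p - C.pull P.N f q‖ := by
  rw [Ch.pull, Ch.pull, ← smul_sub, norm_smul, Real.norm_of_nonneg (inv_nonneg.2 hs.le),
    ← mul_assoc, mul_inv_cancel₀ hs.ne', one_mul]

lemma filled_good (ok : P.Ok) {n m : ℕ} {H L T : ℝ} (hR : P.Rg m H) (hT : 0 ≤ T) {f : E → F}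
    (hf : Bi L (P.pts (n + 1) m H) f) (hk : P.KidsLe m H f T) (hL : 0 ≤ L) {r : Row P.N} {k : ℕ}
    (hkL : k < P.L) (hcan : P.Branch k → canon r)
    (hfree : ∀ c, P.Host m c r → k + 1 ≠ colk c ∧ k ≠ colk c) :
    ‖f (P.vert H r (k + 1)) - f (P.vert H r k)‖ ≤ (T + 2 * P.mu * L) * ‖P.seg H r k‖ := by
  have hv : ∀ l < P.nf, P.Valid m (.fill r k l) := fun l hl => ⟨hkL, hl, hcan, hfree⟩
  have hnf : (0 : ℝ) < P.nf := by exact_mod_cast ok.hnf
  set w := (1 - 2 * P.mu) * ‖P.seg H r k‖ / P.nf with hw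
  have hstep : ∀ l < P.nf,
      ‖f (P.node H r k (l + 1)) - f (P.node H r k l)‖ ≤ T * w ∧
      P.node H r k (l + 1) ∈ P.pts (n + 1) m H ∧ P.node H r k l ∈ P.pts (n + 1) m H := by
    intro l hl
    obtain ⟨a1, a2⟩ := fill_ends ok hR r hkL (m := m) (l := l)
    have s0 := (fill_orth ok hR r hkL (m := m) (l := l)).s_pos
    refine ⟨?_, ?_, ?_⟩
    · rw [← a1, ← a2, pull_norm _ s0]
      refine (mul_le_mul_of_nonneg_left (hk.1 r k l (hv l hl)) s0.le).trans_eq ?_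
      simp only [Pm.child, hw]
      have := ok.H₀_pos.ne'
      field_simp
    · rw [← a2]; exact P.child_mem (hv l hl) (P.vert_mem _ _ _ _ le_rfl)
    · rw [← a1]; exact P.child_mem (hv l hl) (P.vert_mem _ _ _ _ (Nat.zero_le _))
  have hsum : ∀ l ≤ P.nf, ‖f (P.node H r k l) - f (P.node H r k 0)‖ ≤ l * (T * w) := by
    intro l hl
    induction l with
    | zero => simp
    | succ l ih =>
      have h := norm_sub_le_norm_sub_add_norm_sub (f (P.node H r k (l + 1)))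
        (f (P.node H r k l)) (f (P.node H r k 0))
      have := (hstep l (by omega)).1
      have := ih (by omega)
      push_cast; linarith
  have h0m : P.node H r k 0 ∈ P.pts (n + 1) m H := (hstep 0 ok.hnf).2.2
  have hnm : P.node H r k P.nf ∈ P.pts (n + 1) m H := by
    have := (hstep (P.nf - 1) (by have := ok.hnf; omega)).2.1
    rwa [Nat.sub_add_cancel ok.hnf] at this
  have b1 := (hf _ (P.vert_mem (n + 1) m H r hkL) _ hnm).2
  have b2 := (hf _ h0m _ (P.vert_mem (n + 1) m H r hkL.le)).2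
  have d1 : ‖P.vert H r (k + 1) - P.node H r k P.nf‖ = P.mu * ‖P.seg H r k‖ := by
    have : P.vert H r (k + 1) - P.node H r k P.nf = P.mu • P.seg H r k := by
      rw [Pm.node, div_self hnf.ne', Pm.seg]; module
    rw [this, norm_smul, Real.norm_of_nonneg ok.hmu.le]
  have d2 : ‖P.node H r k 0 - P.vert H r k‖ = P.mu * ‖P.seg H r k‖ := by
    simp [Pm.node, norm_smul, abs_of_pos ok.hmu]
  rw [d1] at b1; rw [d2] at b2
  have h := hsum P.nf le_rfl
  have h1 := norm_sub_le_norm_sub_add_norm_sub (f (P.vert H r (k + 1))) (f (P.node H r k P.nf))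
    (f (P.vert H r k))
  have h2 := norm_sub_le_norm_sub_add_norm_sub (f (P.node H r k P.nf)) (f (P.node H r k 0))
    (f (P.vert H r k))
  have h3 : (P.nf : ℝ) * (T * w) = T * ((1 - 2 * P.mu) * ‖P.seg H r k‖) := by
    rw [hw]; field_simp
  rw [h3] at h
  linarith [mul_nonneg (mul_nonneg ok.hmu.le hT) (norm_nonneg (P.seg H r k))]

lemma branch_swap (H : ℝ) {r : Row P.N} (h : ¬ canon r) : ∃ q : Row P.N, canon q ∧
    ∀ k, k ≤ P.L → (k ≤ 1 ∨ P.L ≤ k + 1) → P.vert H r k = P.vert H q k := by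
  rcases r with i | ⟨⟨a, b⟩, hab⟩
  · exact absurd trivial h
  refine ⟨Sum.inr ⟨(b, a), fun g => hab g.symm⟩, lt_of_le_of_ne (not_lt.1 h) (fun g => hab g.symm),
    fun k _ hk => ?_⟩
  have hamp : P.amp k = 0 := if_neg (by omega)
  have hht : P.ht (Sum.inr ⟨(a, b), hab⟩ : Row P.N)
      = P.ht (Sum.inr ⟨(b, a), fun g => hab g.symm⟩ : Row P.N) := by
    simp only [Pm.ht, slot, min_comm a.val, max_comm a.val]
  simp [Pm.vert, hamp, Pm.yv, hht]

/-- Every segment of every row is stretched by at most the children's bound, up to margins. -/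
lemma seg_good (ok : P.Ok) {n m : ℕ} {H L T : ℝ} (hR : P.Rg m H) (hT : 0 ≤ T) {f : E → F}
    (hf : Bi L (P.pts (n + 1) m H) f) (hk : P.KidsLe m H f T) (hL : 0 ≤ L) (r : Row P.N) {k : ℕ}
    (hkL : k < P.L) :
    ‖f (P.vert H r (k + 1)) - f (P.vert H r k)‖ ≤ (T + 2 * P.mu * L) * ‖P.seg H r k‖ := by
  by_cases hh : ∃ c, P.Host m c r ∧ (k + 1 = colk c ∨ k = colk c)
  · obtain ⟨c, hc, hkc⟩ := hh
    obtain ⟨e1, e2, e3, -⟩ := col_ends ok hR hc.2.1 hc.2.2
    obtain ⟨h1, h2⟩ := hk.2 c r hc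
    have ho := col_orth ok H hc.2.1 hc.2.2 (m := m)
    have hHc : 0 ≤ (P.child m H (.col c r)).Hc :=
      (ok.H_pos (child_rg ok hR (show P.Valid m (.col c r) from hc))).le
    have key : ∀ a b, ‖(P.child m H (.col c r)).pull P.N f a
          - (P.child m H (.col c r)).pull P.N f b‖ ≤ T * ((P.child m H (.col c r)).Hc / 2) →
        ‖a - b‖ = (P.child m H (.col c r)).Hc / 2 →
        ‖f ((P.child m H (.col c r)).emb P.N a) - f ((P.child m H (.col c r)).emb P.N b)‖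
          ≤ (T + 2 * P.mu * L) *
            ‖(P.child m H (.col c r)).emb P.N a - (P.child m H (.col c r)).emb P.N b‖ := by
      intro a b hab hd
      rw [pull_norm _ ho.s_pos, Ch.norm_emb_sub _ ho, hd]
      have := mul_le_mul_of_nonneg_left hab ho.s_pos.le
      have : 0 ≤ 2 * P.mu * L * ((P.child m H (.col c r)).s * ((P.child m H (.col c r)).Hc / 2)) :=
        mul_nonneg (by have := ok.hmu; positivity) (mul_nonneg ho.s_pos.le (by linarith))
      linarith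
    have dM : ∀ Hc : ℝ, 0 ≤ Hc →
        ‖P.pM Hc - P.pL Hc‖ = Hc / 2 ∧ ‖P.pR Hc - P.pM Hc‖ = Hc / 2 := by
      intro Hc h
      rw [Pm.pM, Pm.pL, Pm.pR, bot, vert_mid, vert_left, vert_right]
      simp [Pm.ht, norm_smul, abs_of_nonneg h]
    obtain ⟨dl, dr⟩ := dM _ hHc
    rcases hkc with hkc | hkc
    · have := key _ _ h1 dl
      rw [e3, e1, show colk c - 1 = k by omega, ← hkc] at this
      exact this
    · have := key _ _ h2 dr
      rw [e2, e3, ← hkc] at this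
      exact this
  · have hfree : ∀ c, P.Host m c r → k + 1 ≠ colk c ∧ k ≠ colk c := fun c hc =>
      ⟨fun h => hh ⟨c, hc, Or.inl h⟩, fun h => hh ⟨c, hc, Or.inr h⟩⟩
    by_cases hcan : P.Branch k → canon r
    · exact filled_good ok hR hT hf hk hL hkL hcan hfree
    · rw [Classical.not_imp] at hcan
      obtain ⟨hb, hc⟩ := hcan
      obtain ⟨q, hq, heq⟩ := branch_swap H hc
      have hk1 : (k ≤ 1 ∨ P.L ≤ k + 1) ∧ (k + 1 ≤ 1 ∨ P.L ≤ k + 1 + 1) := by
        unfold Pm.Branch at hb; omega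
      have hfree' : ∀ c, P.Host m c q → k + 1 ≠ colk c ∧ k ≠ colk c := by
        intro c _
        have := colk_lt (P := P) c
        have : 7 ≤ colk c := by unfold colk; omega
        unfold Pm.Branch at hb; omega
      have hs : P.seg H r k = P.seg H q k := by
        rw [Pm.seg, Pm.seg, heq k hkL.le hk1.1, heq (k + 1) hkL hk1.2]
      rw [heq k hkL.le hk1.1, heq (k + 1) hkL hk1.2, hs]
      exact filled_good ok hR hT hf hk hL hkL (fun _ => hq) hfree'

lemma seg_bot (ok : P.Ok) {m : ℕ} {H : ℝ} (hR : P.Rg m H) {k : ℕ} (hk : k < P.L) :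
    ‖P.seg H bot k‖ = P.xv H (k + 1) - P.xv H k := by
  have h0 : tl (P.seg H (bot : Row P.N) k) = 0 := by rw [tl_seg]; simp [lift, bot]
  have h1 : P.seg H (bot : Row P.N) k 1 = 0 := by
    rw [seg_one, Pm.yv, Pm.yv]; simp [ht_bot]
  rw [eq_of_coords (p := P.seg H bot k), h0, h1, seg_zero]
  have := (xv_step ok hR hk).1
  have := ok.rho_big hR
  have := ok.V_pos
  simp [norm_smul]; linarith

/-- The halves of a node are stretched at most as much as its children. -/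
lemma half_of_kids (ok : P.Ok) {n m : ℕ} {H L T : ℝ} (hR : P.Rg m H) (hT : 0 ≤ T) {f : E → F}
    (hf : Bi L (P.pts (n + 1) m H) f) (hk : P.KidsLe m H f T) (hL : 0 ≤ L) :
    P.HalfLe f H (T + 2 * P.mu * L) := by
  have key : ∀ a b, a ≤ b → b ≤ P.L → ‖f (P.vert H bot b) - f (P.vert H bot a)‖
      ≤ (T + 2 * P.mu * L) * (P.xv H b - P.xv H a) := by
    intro a b hab
    induction b, hab using Nat.le_induction with
    | base => intro _; simp
    | succ b _ ih =>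
      intro hb
      have h := seg_good ok hR hT hf hk hL (bot : Row P.N) (show b < P.L by omega)
      rw [seg_bot ok hR (by omega)] at h
      have := ih (by omega)
      have := norm_sub_le_norm_sub_add_norm_sub (f (P.vert H bot (b + 1)))
        (f (P.vert H bot b)) (f (P.vert H bot a))
      linarith
  have h4 : P.xv H 4 = 0 := by
    rw [show 4 = 4 + 3 * 0 by rfl, xv_mid H (Nat.zero_le _)]; simp
  have hL4 : 4 ≤ P.L := by unfold Pm.L; omega
  constructor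
  · refine (key 0 4 (by omega) hL4).trans_eq ?_
    rw [h4, xv_zero]; ring
  · refine (key 4 P.L hL4 le_rfl).trans_eq ?_
    rw [h4, xv_end]; ring

lemma cost_add {u v : F} {a b c d : ℝ} (ha : 0 ≤ a) (hb : 0 ≤ b) (hc : 0 ≤ c) (hd : 0 ≤ d)
    (hu : ‖u‖ ^ 2 ≤ a * c) (hv : ‖v‖ ^ 2 ≤ b * d) : ‖u + v‖ ^ 2 ≤ (a + b) * (c + d) := by
  have h1 : ‖u‖ * ‖v‖ * 2 ≤ a * d + b * c := by
    have hsq : (‖u‖ * ‖v‖) ^ 2 ≤ (a * d) * (b * c) := by
      calc (‖u‖ * ‖v‖) ^ 2 = ‖u‖ ^ 2 * ‖v‖ ^ 2 := by ring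
        _ ≤ (a * c) * (b * d) := mul_le_mul hu hv (sq_nonneg _) (mul_nonneg ha hc)
        _ = _ := by ring
    have h2 : (‖u‖ * ‖v‖ * 2) ^ 2 ≤ (a * d + b * c) ^ 2 := by
      nlinarith [sq_nonneg (a * d - b * c)]
    exact (sq_le_sq₀ (by positivity) (by positivity)).1 h2
  calc ‖u + v‖ ^ 2 ≤ (‖u‖ + ‖v‖) ^ 2 := by
        exact pow_le_pow_left₀ (norm_nonneg _) (norm_add_le u v) 2
    _ ≤ _ := by nlinarith

lemma cost_low {u Z : F} {a c : ℝ} (ha : 0 ≤ a) (hc : 0 ≤ c) (hu : ‖u‖ ^ 2 ≤ a * c) :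
    2 * ⟪u, Z⟫_ℝ - a * ‖Z‖ ^ 2 ≤ c := by
  rcases ha.eq_or_lt with rfl | ha
  · have : u = 0 := by
      rw [zero_mul] at hu
      exact norm_eq_zero.1 (pow_eq_zero_iff (by norm_num : 2 ≠ 0) |>.1
        (le_antisymm hu (sq_nonneg _)))
    simp [this, hc]
  · have h := norm_sub_sq_real u (a • Z)
    rw [real_inner_smul_right, norm_smul, Real.norm_of_nonneg ha.le] at h
    have := sq_nonneg ‖u - a • Z‖
    nlinarith

/-- Near-extremal three-step paths are nearly affine. -/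
lemma three_term {u v w Z : F} {a b c c1 c2 c3 : ℝ} (ha : 0 ≤ a) (hb : 0 ≤ b) (hc : 0 ≤ c)
    (h1 : 0 ≤ c1) (h3 : 0 ≤ c3) (hu : ‖u‖ ^ 2 ≤ a * c1) (hv : ‖v‖ ^ 2 ≤ b * c2)
    (hw : ‖w‖ ^ 2 ≤ c * c3) (hsum : u + v + w = (a + b + c) • Z) :
    ‖v - b • Z‖ ^ 2 ≤ b * (c1 + c2 + c3 - (a + b + c) * ‖Z‖ ^ 2) := by
  have hu' := cost_low (Z := Z) ha h1 hu
  have hw' := cost_low (Z := Z) hc h3 hw
  have hi := congrArg (fun t => ⟪t, Z⟫_ℝ) hsum
  simp only [inner_add_left, real_inner_smul_left, real_inner_self_eq_norm_sq] at hi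
  have h := norm_sub_sq_real v (b • Z)
  rw [real_inner_smul_right, norm_smul, Real.norm_of_nonneg hb] at h
  have := mul_le_mul_of_nonneg_left hu' hb
  have := mul_le_mul_of_nonneg_left hw' hb
  have hi' := congrArg (fun t => b * t) hi
  simp only [mul_add] at hi'
  linarith

/-- Potential of the excess length along a row. -/
def Pm.exc (P : Pm) (H : ℝ) (k : ℕ) : ℝ :=
  4 * P.V ^ 2 / H * ((min k 2 + (k - (P.L - 2)) : ℕ) : ℝ)

lemma seg_sq (ok : P.Ok) {m : ℕ} {H : ℝ} (hR : P.Rg m H) (r : Row P.N) {k : ℕ} (hk : k < P.L) :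
    ‖P.seg H r k‖ ^ 2 ≤ (P.xv H (k + 1) - P.xv H k) *
      ((P.xv H (k + 1) - P.xv H k) + (P.exc H (k + 1) - P.exc H k)) := by
  have hH := ok.H_pos hR
  have hV := ok.V_big
  have hL : P.L = 3 * P.N + 8 := rfl
  rw [norm_sq_split, seg_zero, seg_one, tl_seg, norm_smul, mul_pow, Real.norm_eq_abs, sq_abs]
  by_cases hmid : 2 ≤ k ∧ k + 3 ≤ P.L
  · rw [yv_mid r (by omega) (by omega), yv_mid r (by omega) hk, amp_inner (by omega) (by omega),
      amp_inner (by omega) (by omega)]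
    have : P.exc H (k + 1) = P.exc H k := by
      unfold Pm.exc; rw [show min (k + 1) 2 + (k + 1 - (P.L - 2)) = min k 2 + (k - (P.L - 2)) by omega]
    rw [this]
    simp; ring_nf; rfl
  · have hex : P.exc H (k + 1) - P.exc H k = 4 * P.V ^ 2 / H := by
      unfold Pm.exc
      rw [show min (k + 1) 2 + (k + 1 - (P.L - 2)) = min k 2 + (k - (P.L - 2)) + 1 by omega]
      push_cast; ring
    rw [hex]
    have hcases : k = 0 ∨ k + 1 = P.L ∨ k = 1 ∨ k + 2 = P.L := by omega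
    obtain ⟨hy, hy'⟩ := ht_mem ok r
    have hlift : ‖lift r‖ ^ 2 ≤ 1 := pow_le_one₀ (norm_nonneg _) (norm_lift_le r)
    have hρ := ok.rho_small hR
    have h2 : (2 : ℝ) ≤ P.N := by exact_mod_cast ok.hN
    have hρ0 : 0 ≤ H / P.K := div_nonneg hH.le ok.K_pos.le
    set Δ := P.xv H (k + 1) - P.xv H k with hΔ
    have key : ∀ A : ℝ, A ≤ Δ * (4 * P.V ^ 2 / H) → Δ ^ 2 + A ≤ Δ * (Δ + 4 * P.V ^ 2 / H) :=
      fun A h => by linarith
    rw [add_assoc]
    apply key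
    rcases hcases with rfl | h | rfl | h
    · rw [show Δ = H / 4 by rw [hΔ, xv_one, xv_zero]; ring, yv_mid r (by omega : (0:ℕ) + 1 ≠ 0)
        (by omega), show P.yv r 0 = 0 from if_pos (Or.inl rfl), amp_zero, amp_one]
      rw [show H / 4 * (4 * P.V ^ 2 / H) = P.V ^ 2 by field_simp]
      nlinarith
    · rw [show Δ = H / 4 by
          rw [hΔ, h, xv_end, show k = 3 * P.N + 7 by omega, xv_b]; ring,
        show P.yv r (k + 1) = 0 from if_pos (Or.inr (by omega)), yv_mid r (by omega) hk,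
        amp_last (by omega), amp_last (by omega)]
      rw [show H / 4 * (4 * P.V ^ 2 / H) = P.V ^ 2 by field_simp]
      nlinarith
    · rw [yv_mid r (by omega) (by omega), yv_mid r (by omega) hk, amp_one,
        amp_inner le_rfl (by omega)]
      have : H / 8 ≤ Δ := by rw [hΔ, xv_two, xv_one]; nlinarith
      have h3 : P.V ^ 2 / 2 ≤ Δ * (4 * P.V ^ 2 / H) := by
        calc P.V ^ 2 / 2 = H / 8 * (4 * P.V ^ 2 / H) := by field_simp; ring
          _ ≤ _ := mul_le_mul_of_nonneg_right this (by positivity)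
      nlinarith
    · rw [yv_mid r (by omega) (by omega), yv_mid r (by omega) hk, amp_last (by omega),
        amp_inner (by omega) (by omega)]
      have : H / 8 ≤ Δ := by
        rw [hΔ, show k + 1 = 3 * P.N + 7 by omega, show k = 3 * P.N + 6 by omega, xv_b, xv_a]
        nlinarith
      have h3 : P.V ^ 2 / 2 ≤ Δ * (4 * P.V ^ 2 / H) := by
        calc P.V ^ 2 / 2 = H / 8 * (4 * P.V ^ 2 / H) := by field_simp; ring
          _ ≤ _ := mul_le_mul_of_nonneg_right this (by positivity)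
      nlinarith

lemma exc_mono (ok : P.Ok) {m : ℕ} {H : ℝ} (hR : P.Rg m H) {j k : ℕ} (h : j ≤ k) :
    P.exc H j ≤ P.exc H k := by
  have := ok.H_pos hR
  unfold Pm.exc
  refine mul_le_mul_of_nonneg_left ?_ (by positivity)
  exact_mod_cast (show min j 2 + (j - (P.L - 2)) ≤ min k 2 + (k - (P.L - 2)) by omega)

/-- The data of a node whose segments are stretched at most `S`. -/
def Pm.Tight (P : Pm) (H : ℝ) (f : E → F) (S : ℝ) : Prop :=
  ∀ r k, k < P.L → ‖f (P.vert H r (k + 1)) - f (P.vert H r k)‖ ≤ S * ‖P.seg H r k‖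

lemma row_cost (ok : P.Ok) {m : ℕ} {H S : ℝ} (hR : P.Rg m H) {f : E → F}
    (hT : P.Tight H f S) (r : Row P.N) {j k : ℕ} (hjk : j ≤ k) (hk : k ≤ P.L) :
    ‖f (P.vert H r k) - f (P.vert H r j)‖ ^ 2 ≤ (P.xv H k - P.xv H j) *
      (S ^ 2 * ((P.xv H k - P.xv H j) + (P.exc H k - P.exc H j))) := by
  induction k, hjk using Nat.le_induction with
  | base => simp
  | succ k hjk ih =>
    have hx := xv_mono ok hR hjk (show k ≤ P.L by omega)
    have hx' := xv_mono ok hR (Nat.le_succ k) hk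
    have he := exc_mono ok hR hjk
    have he' := exc_mono ok hR (Nat.le_succ k)
    have h1 : ‖f (P.vert H r (k + 1)) - f (P.vert H r k)‖ ^ 2 ≤ (P.xv H (k + 1) - P.xv H k) *
        (S ^ 2 * ((P.xv H (k + 1) - P.xv H k) + (P.exc H (k + 1) - P.exc H k))) := by
      calc _ ≤ (S * ‖P.seg H r k‖) ^ 2 :=
            pow_le_pow_left₀ (norm_nonneg _) (hT r k (by omega)) 2
        _ = S ^ 2 * ‖P.seg H r k‖ ^ 2 := by ring
        _ ≤ S ^ 2 * ((P.xv H (k + 1) - P.xv H k) *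
              ((P.xv H (k + 1) - P.xv H k) + (P.exc H (k + 1) - P.exc H k))) :=
            mul_le_mul_of_nonneg_left (seg_sq ok hR r (by omega)) (sq_nonneg _)
        _ = _ := by ring
    have := cost_add (sub_nonneg.2 hx') (sub_nonneg.2 hx)
      (mul_nonneg (sq_nonneg S) (by linarith)) (mul_nonneg (sq_nonneg S) (by linarith)) h1
      (ih (by omega))
    rw [show f (P.vert H r (k + 1)) - f (P.vert H r j) = (f (P.vert H r (k + 1)) - f (P.vert H r k))
      + (f (P.vert H r k) - f (P.vert H r j)) by abel]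
    refine this.trans_eq ?_
    ring

/-- The total slack of a node. -/
def Pm.slack (P : Pm) (f : E → F) (H S : ℝ) : ℝ :=
  S ^ 2 * (H + 16 * P.V ^ 2 / H) - H * ‖P.Z f H‖ ^ 2

lemma row_ends (r : Row P.N) (H : ℝ) :
    P.vert H r 0 = P.pL H ∧ P.vert H r P.L = P.pR H := by
  rw [Pm.pL, Pm.pR, vert_left, vert_left, vert_right, vert_right]; exact ⟨rfl, rfl⟩

lemma exc_total (H : ℝ) : P.exc H P.L - P.exc H 0 = 16 * P.V ^ 2 / H := by
  unfold Pm.exc
  rw [show min P.L 2 + (P.L - (P.L - 2)) = 4 by unfold Pm.L; omega]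
  simp; ring

/-- All rows are rigid. -/
lemma rigid (ok : P.Ok) {m : ℕ} {H S : ℝ} (hR : P.Rg m H) {f : E → F}
    (hT : P.Tight H f S) (r : Row P.N) {j k : ℕ} (hjk : j ≤ k) (hk : k ≤ P.L) :
    ‖f (P.vert H r k) - f (P.vert H r j) - (P.xv H k - P.xv H j) • P.Z f H‖ ^ 2
      ≤ (P.xv H k - P.xv H j) * P.slack f H S := by
  have hH := ok.H_pos hR
  have x1 := xv_mono ok hR (Nat.zero_le j) (show j ≤ P.L by omega)
  have x2 := xv_mono ok hR hjk hk
  have x3 := xv_mono ok hR hk le_rfl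
  have e1 := exc_mono ok hR (Nat.zero_le j)
  have e3 := exc_mono ok hR hk
  obtain ⟨l0, lL⟩ := row_ends r H
  have hsum : (f (P.vert H r j) - f (P.vert H r 0)) + (f (P.vert H r k) - f (P.vert H r j))
      + (f (P.vert H r P.L) - f (P.vert H r k))
      = ((P.xv H j - P.xv H 0) + (P.xv H k - P.xv H j) + (P.xv H P.L - P.xv H k)) • P.Z f H := by
    rw [show (P.xv H j - P.xv H 0) + (P.xv H k - P.xv H j) + (P.xv H P.L - P.xv H k) = H by
      rw [xv_zero, xv_end]; ring, Pm.Z, smul_smul, mul_inv_cancel₀ hH.ne', one_smul, ← l0, ← lL]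
    abel
  have h := three_term (sub_nonneg.2 x1) (sub_nonneg.2 x2) (sub_nonneg.2 x3)
    (mul_nonneg (sq_nonneg S) (by linarith)) (mul_nonneg (sq_nonneg S) (by linarith))
    (row_cost ok hR hT r (Nat.zero_le j) (by omega)) (row_cost ok hR hT r hjk hk)
    (row_cost ok hR hT r hk le_rfl) hsum
  refine h.trans_eq ?_
  rw [Pm.slack, ← exc_total (P := P) H, xv_zero, xv_end]
  ring

lemma slack_le (ok : P.Ok) {m : ℕ} {H L S : ℝ} (hR : P.Rg m H) {f : E → F}
    (hsat : P.Sat f H L S) (hS0 : 0 ≤ S) (hS : S ≤ 2 * L) :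
    P.slack f H S ≤ 65 * L ^ 2 * P.V ^ 2 / H := by
  have hH := ok.H_pos hR
  rw [Pm.slack, le_div_iff₀ hH]
  unfold Pm.Sat at hsat
  have h4 : S ^ 2 * P.V ^ 2 ≤ (2 * L) ^ 2 * P.V ^ 2 :=
    mul_le_mul_of_nonneg_right (pow_le_pow_left₀ hS0 hS 2) (sq_nonneg _)
  calc (S ^ 2 * (H + 16 * P.V ^ 2 / H) - H * ‖P.Z f H‖ ^ 2) * H
      = (S ^ 2 - ‖P.Z f H‖ ^ 2) * H ^ 2 + 16 * (S ^ 2 * P.V ^ 2) := by field_simp; ring
    _ ≤ _ := by linarith

/-- Vertices of the middle of a row move by `η`-nearly the horizontal slope. -/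
lemma rigid_mid (ok : P.Ok) {m : ℕ} {H L S η : ℝ} (hR : P.Rg m H) {f : E → F}
    (hT : P.Tight H f S) (hsat : P.Sat f H L S) (hS0 : 0 ≤ S) (hS : S ≤ 2 * L) (hη : 0 ≤ η)
    (hηK : 65 * L ^ 2 * P.V ^ 2 * ((P.N : ℝ) + 2) ≤ η ^ 2 * P.K) (r : Row P.N) {j k : ℕ}
    (hj : 3 ≤ j) (hj' : j ≤ 3 * P.N + 5) (hk : 3 ≤ k) (hk' : k ≤ 3 * P.N + 5) :
    ‖f (P.vert H r k) - f (P.vert H r j) - (P.xv H k - P.xv H j) • P.Z f H‖ ≤ η := by
  wlog hjk : j ≤ k generalizing j k with hw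
  · have := hw hk hk' hj hj' (by omega)
    rw [← norm_neg]
    refine le_of_eq_of_le ?_ this
    congr 1
    module
  have hH := ok.H_pos hR
  have hKp := ok.K_pos
  have hLN : P.L = 3 * P.N + 8 := rfl
  have h1 := rigid ok hR hT r hjk (by omega)
  have h2 := slack_le ok hR hsat hS0 hS
  have a := xv_mono ok hR hj (show j ≤ P.L by omega)
  have b := xv_mono ok hR hk' (show 3 * P.N + 5 ≤ P.L by omega)
  rw [show (3 : ℕ) = 3 + 3 * 0 by rfl, xv_left H (Nat.zero_le _)] at a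
  rw [show 3 * P.N + 5 = 5 + 3 * P.N by omega, xv_right H le_rfl] at b
  have hρ0 : 0 ≤ H / P.K := div_nonneg hH.le hKp.le
  have hgap : P.xv H k - P.xv H j ≤ ((P.N : ℝ) + 2) * (H / P.K) := by push_cast at a; nlinarith
  have hx := xv_mono ok hR hjk (show k ≤ P.L by omega)
  have h3 : ‖f (P.vert H r k) - f (P.vert H r j) - (P.xv H k - P.xv H j) • P.Z f H‖ ^ 2
      ≤ η ^ 2 := by
    calc _ ≤ (P.xv H k - P.xv H j) * (65 * L ^ 2 * P.V ^ 2 / H) :=
          h1.trans (mul_le_mul_of_nonneg_left h2 (by linarith))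
      _ ≤ ((P.N : ℝ) + 2) * (H / P.K) * (65 * L ^ 2 * P.V ^ 2 / H) :=
          mul_le_mul_of_nonneg_right hgap (by positivity)
      _ = 65 * L ^ 2 * P.V ^ 2 * ((P.N : ℝ) + 2) / P.K := by field_simp
      _ ≤ η ^ 2 := (div_le_iff₀ hKp).2 hηK
  exact (sq_le_sq₀ (norm_nonneg _) hη).1 h3

/-- A centred child of a saturated node is saturated. -/
lemma retention (ok : P.Ok) {m : ℕ} {H L S : ℝ} (hR : P.Rg m H) {f : E → F}
    (hT : P.Tight H f S) (hsat : P.Sat f H L S) (hS0 : 0 ≤ S) (hS : S ≤ 2 * L)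
    {c : Fin P.N} {r : Row P.N} (hn : isNode c r) (hr : r ≠ top) :
    P.Sat ((P.child m H (.col c r)).pull P.N f) (P.child m H (.col c r)).Hc L S := by
  obtain ⟨e1, e2, -, -⟩ := col_ends ok hR hn hr (m := m)
  obtain ⟨s1, -, -⟩ := col_s ok H hn hr (m := m)
  have ho := col_orth ok H hn hr (m := m)
  obtain ⟨C, hC⟩ : ∃ C, P.child m H (.col c r) = C := ⟨_, rfl⟩
  have hH' : C.Hc = H / P.K / (2 * C.s) := by rw [← hC]; rfl
  simp only [hC] at e1 e2
  rw [hC] at s1 ho ⊢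
  have hH := ok.H_pos hR
  have hKp := ok.K_pos
  have hV := ok.V_pos
  have hc := colk_lt (P := P) c
  have hc' : 7 ≤ colk c := by unfold colk; omega
  have x1 := xv_mono ok hR (Nat.zero_le (colk c - 1)) (by omega)
  have x3 := xv_mono ok hR (show colk c + 1 ≤ P.L by omega) le_rfl
  have g1 := exc_mono ok hR (Nat.zero_le (colk c - 1))
  have g2 := exc_mono ok hR (show colk c - 1 ≤ colk c + 1 by omega)
  have g3 := exc_mono ok hR (show colk c + 1 ≤ P.L by omega)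
  obtain ⟨l0, lL⟩ := row_ends r H
  obtain ⟨q1, q2⟩ := colk_x (P := P) H c
  set b := P.xv H (colk c + 1) - P.xv H (colk c - 1) with hb
  have hb' : b = H / P.K / 2 := by rw [hb, q1, q2]; ring
  have hb0 : 0 < b := by rw [hb']; positivity
  set v := f (P.vert H r (colk c + 1)) - f (P.vert H r (colk c - 1)) with hv
  have hsum : (f (P.vert H r (colk c - 1)) - f (P.vert H r 0)) + v
      + (f (P.vert H r P.L) - f (P.vert H r (colk c + 1)))
      = ((P.xv H (colk c - 1) - P.xv H 0) + b + (P.xv H P.L - P.xv H (colk c + 1)))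
        • P.Z f H := by
    rw [show (P.xv H (colk c - 1) - P.xv H 0) + b + (P.xv H P.L - P.xv H (colk c + 1)) = H by
      rw [hb, xv_zero, xv_end]; ring, Pm.Z, smul_smul, mul_inv_cancel₀ hH.ne', one_smul, hv,
      ← l0, ← lL]
    abel
  have h := three_term (c2 := ‖v‖ ^ 2 / b) (sub_nonneg.2 x1) hb0.le (sub_nonneg.2 x3)
    (mul_nonneg (sq_nonneg S) (by linarith)) (mul_nonneg (sq_nonneg S) (by linarith))
    (row_cost ok hR hT r (Nat.zero_le _) (by omega))
    (by rw [mul_div_cancel₀ _ hb0.ne'])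
    (row_cost ok hR hT r (show colk c + 1 ≤ P.L by omega) le_rfl) hsum
  have hZ : P.Z (C.pull P.N f) C.Hc = b⁻¹ • v := by
    rw [Pm.Z, Ch.pull, Ch.pull, e1, e2, ← smul_sub, smul_smul, ← hv]
    congr 1
    rw [hH', hb']
    have := ho.s_pos.ne'
    field_simp
  have key : (S ^ 2 - ‖b⁻¹ • v‖ ^ 2) * b ≤ P.slack f H S := by
    have h0 : 0 ≤ S ^ 2 * (P.exc H (colk c + 1) - P.exc H (colk c - 1)) :=
      mul_nonneg (sq_nonneg S) (by linarith)
    have h' := nonneg_of_mul_nonneg_right ((sq_nonneg _).trans h) hb0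
    have hvn : ‖b⁻¹ • v‖ ^ 2 * b = ‖v‖ ^ 2 / b := by
      rw [norm_smul, mul_pow, norm_inv, Real.norm_of_nonneg hb0.le]; field_simp
    have hXH : (P.xv H (colk c - 1) - P.xv H 0) + b + (P.xv H P.L - P.xv H (colk c + 1)) = H := by
      rw [hb, xv_zero, xv_end]; ring
    rw [hXH] at h'
    rw [sub_mul, hvn, Pm.slack, ← exc_total (P := P) H]
    rw [hb] at *
    rw [xv_zero, xv_end] at *
    linarith
  unfold Pm.Sat
  rw [hZ]
  rcases le_or_gt (S ^ 2 - ‖b⁻¹ • v‖ ^ 2) 0 with hneg | hpos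
  · exact (mul_nonpos_of_nonpos_of_nonneg hneg (sq_nonneg _)).trans (by positivity)
  have hA : S ^ 2 - ‖b⁻¹ • v‖ ^ 2 ≤ 65 * L ^ 2 * P.V ^ 2 / H / b :=
    (le_div_iff₀ hb0).2 (key.trans (slack_le ok hR hsat hS0 hS))
  have hB : C.Hc ≤ b * P.V / 150 := by
    rw [hH', hb']
    have h150 : 150 ≤ C.s * P.V := (div_le_iff₀ hV).1 s1
    rw [div_le_iff₀ (by linarith [ho.s_pos]), div_mul_eq_mul_div, le_div_iff₀ (by norm_num)]
    have h0 : 0 ≤ H / P.K := by positivity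
    linarith [mul_le_mul_of_nonneg_left h150 h0]
  have hHc0 : 0 ≤ C.Hc := by rw [hH']; have := ho.s_pos; positivity
  calc (S ^ 2 - ‖b⁻¹ • v‖ ^ 2) * C.Hc ^ 2
      ≤ 65 * L ^ 2 * P.V ^ 2 / H / b * (b * P.V / 150) ^ 2 :=
        mul_le_mul hA (pow_le_pow_left₀ hHc0 hB 2) (sq_nonneg _)
          (by positivity)
    _ = L ^ 2 * P.V ^ 2 * (65 / 22500 * (P.V ^ 2 * b / H)) := by field_simp; ring
    _ ≤ L ^ 2 * P.V ^ 2 * 1 := by
        refine mul_le_mul_of_nonneg_left ?_ (by positivity)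
        have : P.V ^ 2 * b / H ≤ 1 := by
          rw [hb', div_le_one hH, mul_div_assoc', mul_div_assoc', div_le_iff₀ (by norm_num),
            div_le_iff₀ hKp]
          linarith [mul_le_mul_of_nonneg_left ok.hKV hH.le, mul_nonneg hH.le hKp.le,
            mul_nonneg (sq_nonneg P.V) hH.le]
        linarith
    _ = _ := mul_one _

end Vale.Agent.P208
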