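import Vale.Agent.P208.Gain

/-!
# No node of large depth has a bi-Lipschitz map to `ℝ^k`
-/

noncomputable section

open scoped InnerProductSpace

namespace Vale.Agent.P208

variable {P : Pm} {k : ℕ}

/-- All stage zero nodes of depth at least `n₀` have horizontal stretch at most `T`. -/
def Pm.AllFull (P : Pm) (k n₀ : ℕ) (L T : ℝ) : Prop :=
  ∀ n, n₀ ≤ n → ∀ f : E → EuclideanSpace ℝ (Fin k), Bi L (P.pts n 0 P.H₀) f → P.FullLe f P.H₀ T

lemma kids (ok : P.Ok) {n₀ : ℕ} {L T : ℝ} (hL : 0 ≤ L) (hT : 0 ≤ T)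
    (hall : P.AllFull k n₀ L T) : ∀ (j m : ℕ) (H : ℝ) (n : ℕ)
      (f : E → EuclideanSpace ℝ (Fin k)), P.Rg m H → P.M ≤ m + j → n₀ + j ≤ n →
      Bi L (P.pts (n + 1) m H) f → P.KidsLe m H f (T + j * (2 * P.mu * L)) := by
  intro j
  induction j with
  | zero =>
    intro m H n f hR hM hn hf
    refine ⟨fun r k' l hv => ?_, fun c r hv => ?_⟩
    · have := hall n (by omega) _ (bi_pull ok hR hv hf)
      simpa using this
    · exact absurd hv.1 (by omega)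
  | succ j ih =>
    intro m H n f hR hM hn hf
    have hμ : 0 ≤ 2 * P.mu * L := mul_nonneg (by linarith [ok.hmu]) hL
    refine ⟨fun r k' l hv => ?_, fun c r hv => ?_⟩
    · have h := hall n (by omega) _ (bi_pull ok hR hv hf)
      unfold Pm.FullLe at h ⊢
      refine le_trans h (mul_le_mul_of_nonneg_right ?_ ok.H₀_pos.le)
      have : 0 ≤ ((j + 1 : ℕ) : ℝ) * (2 * P.mu * L) := mul_nonneg (Nat.cast_nonneg _) hμ
      linarith
    · obtain ⟨n', rfl⟩ : ∃ n', n = n' + 1 := ⟨n - 1, by omega⟩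
      have hb := bi_pull ok hR hv hf
      have hR' := child_rg ok hR hv
      have hk := ih _ _ n' _ hR' (show P.M ≤ m + 1 + j by omega) (by omega) hb
      have h := half_of_kids ok hR' (by positivity) hb hk hL
      have e : T + (j : ℝ) * (2 * P.mu * L) + 2 * P.mu * L
          = T + ((j + 1 : ℕ) : ℝ) * (2 * P.mu * L) := by push_cast; ring
      rw [e] at h
      exact h

lemma tight (ok : P.Ok) {n₀ : ℕ} {L T : ℝ} (hL : 0 ≤ L) (hT : 0 ≤ T)
    (hall : P.AllFull k n₀ L T) {m n : ℕ} {H : ℝ} {f : E → EuclideanSpace ℝ (Fin k)}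
    (hR : P.Rg m H) (hn : n₀ + P.M ≤ n) (hf : Bi L (P.pts (n + 1) m H) f) :
    P.Tight H f (T + ((P.M : ℝ) + 1) * (2 * P.mu * L)) := by
  intro r k' hk'
  have hk := kids ok hL hT hall P.M m H n f hR (by omega) hn hf
  have hμ : 0 ≤ 2 * P.mu * L := mul_nonneg (by linarith [ok.hmu]) hL
  have h := seg_good ok hR (by positivity) hf hk hL r hk'
  refine h.trans_eq ?_
  ring

lemma dist_LR (ok : P.Ok) (H : ℝ) (hH : 0 ≤ H) :
    ‖P.pR H - P.pL H‖ = H ∧ ‖P.pT H - P.pM H‖ = P.V := by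
  constructor
  · rw [Pm.pR, Pm.pL, vert_left, vert_right,
      show (H / 2) • e 0 + (0 : ℝ) • e 1 - (-(H / 2) • e 0 + (0 : ℝ) • e 1) = H • e 0 by module]
    simp [norm_smul, abs_of_nonneg hH]
  · rw [Pm.pT, Pm.pM, top, bot, vert_mid, vert_mid]
    simp [Pm.ht, norm_smul, abs_of_pos ok.V_pos]

/-- One improvement of the horizontal bound. -/
lemma improve (ok : P.Ok) {n₀ : ℕ} {L η g T δ : ℝ} (hg : P.Gain L η g)
    (hN : packN k (2 * L + 2) < P.N) (hM : L ^ 2 < P.M * g)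
    (hT : 0 ≤ T) (hTL : T ≤ L) (hδ : 0 ≤ δ) (hδ1 : ((P.M : ℝ) + 1) * (2 * P.mu * L) ≤ δ)
    (hδ2 : 8 * L * δ ≤ L ^ 2 * P.V ^ 2 / P.H₀ ^ 2) (hall : P.AllFull k n₀ L T) :
    P.AllFull k (n₀ + 2 * P.M + 1) L (max (T - δ) 0) := by
  intro n hn f hf
  by_contra hcon
  unfold Pm.FullLe at hcon
  have hL : 0 ≤ L := by linarith [hg.hL]
  have hH := ok.H₀_pos
  have hdist := (dist_LR ok P.H₀ hH.le).1
  have hcon' : (max (T - δ) 0) * P.H₀ < ‖f (P.pR P.H₀) - f (P.pL P.H₀)‖ := not_le.1 hcon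
  have hup := (hf _ (P.vert_mem n 0 P.H₀ bot le_rfl) _
    (P.vert_mem n 0 P.H₀ bot (Nat.zero_le _))).2
  change ‖f (P.pR P.H₀) - f (P.pL P.H₀)‖ ≤ L * ‖P.pR P.H₀ - P.pL P.H₀‖ at hup
  rw [hdist] at hup
  set S := T + ((P.M : ℝ) + 1) * (2 * P.mu * L) with hS'
  have hμ : 0 ≤ 2 * P.mu * L := mul_nonneg (by linarith [ok.hmu]) hL
  have hS0 : 0 ≤ S := by positivity
  have hZn : ‖P.Z f P.H₀‖ = ‖f (P.pR P.H₀) - f (P.pL P.H₀)‖ / P.H₀ := by
    rw [Pm.Z, norm_smul, norm_inv, Real.norm_of_nonneg hH.le, inv_mul_eq_div]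
  have hZ1 : T - δ ≤ ‖P.Z f P.H₀‖ := by
    rw [hZn, le_div_iff₀ hH]
    exact le_trans (mul_le_mul_of_nonneg_right (le_max_left _ _) hH.le) hcon'.le
  have hZ2 : ‖P.Z f P.H₀‖ ≤ L := by rw [hZn, div_le_iff₀ hH]; exact hup
  have hδL : δ ≤ L := by
    have h1 : L ^ 2 * P.V ^ 2 / P.H₀ ^ 2 ≤ L ^ 2 * 1 := by
      rw [mul_div_assoc]
      refine mul_le_mul_of_nonneg_left ?_ (sq_nonneg _)
      rw [div_le_one (pow_pos hH 2)]
      exact pow_le_pow_left₀ ok.V_pos.le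
        (by linarith [ok.H_V (P.rg_zero), ok.V_pos]) 2
    have h2 : 8 * δ * L ≤ L * L := by linarith
    have := le_of_mul_le_mul_right h2 (by linarith [hg.hL])
    linarith
  have hS : S ≤ 2 * L := by linarith
  have hsat : P.Sat f P.H₀ L S := by
    unfold Pm.Sat
    have h1 : S ^ 2 - ‖P.Z f P.H₀‖ ^ 2 ≤ 8 * L * δ := by
      rw [show S ^ 2 - ‖P.Z f P.H₀‖ ^ 2 = (S - ‖P.Z f P.H₀‖) * (S + ‖P.Z f P.H₀‖) by ring]
      calc (S - ‖P.Z f P.H₀‖) * (S + ‖P.Z f P.H₀‖) ≤ (2 * δ) * (S + ‖P.Z f P.H₀‖) :=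
            mul_le_mul_of_nonneg_right (by linarith) (by positivity)
        _ ≤ (2 * δ) * (4 * L) := mul_le_mul_of_nonneg_left (by linarith) (by linarith)
        _ = _ := by ring
    calc _ ≤ L ^ 2 * P.V ^ 2 / P.H₀ ^ 2 * P.H₀ ^ 2 :=
          mul_le_mul_of_nonneg_right (h1.trans hδ2) (sq_nonneg _)
      _ = _ := div_mul_cancel₀ _ (pow_ne_zero 2 hH.ne')
  have chain : ∀ m ≤ P.M, ∃ H f', P.Rg m H ∧ Bi L (P.pts (n - m) m H) f' ∧
      P.Sat (F := EuclideanSpace ℝ (Fin k)) f' H L S ∧ (m : ℝ) * g ≤ P.vst f' H := by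
    intro m hm
    induction m with
    | zero => exact ⟨P.H₀, f, P.rg_zero, hf, hsat, by simp [Pm.vst]; positivity⟩
    | succ m ih =>
      obtain ⟨H, f', hR, hb, hs, hv⟩ := ih (by omega)
      obtain ⟨n', hn'⟩ : ∃ n', n - m = n' + 1 := ⟨n - m - 1, by omega⟩
      rw [hn'] at hb
      have ht := tight ok hL hT hall hR (show n₀ + P.M ≤ n' by omega) hb
      obtain ⟨c, r, hh, hgain⟩ := gain ok hR hg hN hb ht hs hS0 hS (by omega)
      have hv' : P.Valid m (.col c r) := hh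
      refine ⟨_, _, child_rg ok hR hv', ?_, retention ok hR ht hs hS0 hS hh.2.1 hh.2.2, ?_⟩
      · have := bi_pull ok hR hv' hb
        rwa [show n - (m + 1) = n' by omega]
      · push_cast; linarith
  obtain ⟨H, f', hR, hb, -, hv⟩ := chain P.M le_rfl
  have h4 : 4 ≤ P.L := by unfold Pm.L; omega
  have h1 : ‖f' (P.pT H) - f' (P.pM H)‖ ≤ L * ‖P.pT H - P.pM H‖ :=
    (hb _ (P.vert_mem _ _ _ top h4) _ (P.vert_mem _ _ _ bot h4)).2
  rw [(dist_LR ok H (ok.H_pos hR).le).2] at h1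
  have h2 : P.vst f' H ≤ L ^ 2 := by
    rw [Pm.vst, div_le_iff₀ (pow_pos ok.V_pos 2), ← mul_pow]
    exact pow_le_pow_left₀ (norm_nonneg _) h1 2
  linarith

theorem no_map (ok : P.Ok) {L η g δ : ℝ} (hg : P.Gain L η g)
    (hN : packN k (2 * L + 2) < P.N) (hM : L ^ 2 < P.M * g)
    (hδ : 0 < δ) (hδ1 : ((P.M : ℝ) + 1) * (2 * P.mu * L) ≤ δ)
    (hδ2 : 8 * L * δ ≤ L ^ 2 * P.V ^ 2 / P.H₀ ^ 2) :
    ∃ n, ∀ f : E → EuclideanSpace ℝ (Fin k), ¬ Bi L (P.pts n 0 P.H₀) f := by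
  have hH := ok.H₀_pos
  have hdist := (dist_LR ok P.H₀ hH.le).1
  have hL : 0 ≤ L := by linarith [hg.hL]
  have main : ∀ j : ℕ, P.AllFull k (j * (2 * P.M + 1)) L (max (L - j * δ) 0) := by
    intro j
    induction j with
    | zero =>
      intro n _ f hf
      have := (hf _ (P.vert_mem n 0 P.H₀ bot le_rfl) _
        (P.vert_mem n 0 P.H₀ bot (Nat.zero_le _))).2
      change ‖f (P.pR P.H₀) - f (P.pL P.H₀)‖ ≤ L * ‖P.pR P.H₀ - P.pL P.H₀‖ at this
      rw [hdist] at this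
      simpa [Pm.FullLe, max_eq_left hL] using this
    | succ j ih =>
      have h0 : (0 : ℝ) ≤ j * δ := mul_nonneg (Nat.cast_nonneg j) hδ.le
      have h := improve ok hg hN hM (le_max_right _ _) (max_le (by linarith) hL) hδ.le hδ1 hδ2 ih
      intro n hn f hf
      have h' := h n (by rw [Nat.succ_mul] at hn; omega) f hf
      unfold Pm.FullLe at h' ⊢
      refine h'.trans (mul_le_mul_of_nonneg_right ?_ hH.le)
      push_cast
      apply max_le _ (le_max_right _ _)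
      rcases le_or_gt (L - j * δ) 0 with g | g
      · rw [max_eq_right g]; exact le_max_of_le_right (by linarith)
      · rw [max_eq_left g.le]; exact le_max_of_le_left (by linarith)
  obtain ⟨j, hj⟩ := exists_nat_ge (L / δ)
  refine ⟨j * (2 * P.M + 1), fun f hf => ?_⟩
  have h := main j _ le_rfl f hf
  have hlow := (hf _ (P.vert_mem (j * (2 * P.M + 1)) 0 P.H₀ bot le_rfl) _
    (P.vert_mem (j * (2 * P.M + 1)) 0 P.H₀ bot (Nat.zero_le _))).1
  change ‖P.pR P.H₀ - P.pL P.H₀‖ ≤ ‖f (P.pR P.H₀) - f (P.pL P.H₀)‖ at hlow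
  rw [hdist] at hlow
  rw [div_le_iff₀ hδ] at hj
  rw [Pm.FullLe, max_eq_right (by linarith), zero_mul] at h
  linarith

/-- Parameters defeating every map into `ℝ^k` of distortion `L`. -/
theorem exists_node (k : ℕ) (L : ℝ) (hL : 1 ≤ L) : ∃ P : Pm, P.Ok ∧ ∃ n : ℕ,
    ∀ f : E → EuclideanSpace ℝ (Fin k), ¬ Bi L (P.pts n 0 P.H₀) f := by
  set N : ℕ := max 2 (packN k (2 * L + 2) + 1) with hN
  set J : ℝ := 300 * (N : ℝ) ^ 2 with hJ
  set D : ℝ := 1000 * L ^ 2 * J + 300 with hD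
  set V : ℝ := 1024 * (D + J + 1) with hV
  set g : ℝ := 1 / (256 * (V * J)) with hg
  set M : ℕ := ⌊L ^ 2 / g⌋₊ + 1 with hM
  set ν : ℝ := 1 / (1000 * (L ^ 2 * V * J)) with hν
  set η : ℝ := 1 / (1000 * (L * J)) with hη
  set K : ℝ := 16 * ((N : ℝ) + 2) + 2 * V ^ 2 + 65 * L ^ 2 * V ^ 2 * ((N : ℝ) + 2) / η ^ 2 with hK
  set H₀ : ℝ := (2 * K) ^ M * (4096 * K * V) with hH
  set δ : ℝ := L * V ^ 2 / (8 * H₀ ^ 2) with hδ
  set μ : ℝ := min (1 / 8) (δ / (2 * L * ((M : ℝ) + 1))) with hμ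
  set nf : ℕ := ⌈100000 * V / (μ * ν)⌉₊ + 1 with hnf
  clear_value N J D V g M ν η K H₀ δ μ nf
  have hN2' : 2 ≤ N := hN ▸ le_max_left _ _
  have hN2 : (2 : ℝ) ≤ N := by exact_mod_cast hN2'
  have hL2 : 1 ≤ L ^ 2 := one_le_pow₀ hL
  have hJ0 : 1200 ≤ J := by rw [hJ]; nlinarith
  have hLJ : 0 ≤ L ^ 2 * J := by positivity
  have hD0 : 300 ≤ D := by rw [hD]; linarith
  have hV0 : 1 ≤ V := by rw [hV]; linarith
  have hg0 : 0 < g := by rw [hg]; positivity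
  have hν0 : 0 < ν := by rw [hν]; positivity
  have hη0 : 0 < η := by rw [hη]; positivity
  have hKη : 0 ≤ 65 * L ^ 2 * V ^ 2 * ((N : ℝ) + 2) / η ^ 2 := by positivity
  have hK0 : 16 * ((N : ℝ) + 2) ≤ K := by rw [hK]; linarith [sq_nonneg V]
  have hKV : 2 * V ^ 2 ≤ K := by rw [hK]; linarith
  have hKpos : 0 < K := by linarith
  have hH0 : 0 < H₀ := by rw [hH]; positivity
  have hδ0 : 0 < δ := by rw [hδ]; positivity
  have hμ0 : 0 < μ := by
    rw [hμ]; exact lt_min (by norm_num) (div_pos hδ0 (by positivity))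
  set P : Pm := ⟨N, M, nf, V, D, ν, μ, K, H₀⟩ with hP
  have hnf0 : 0 < nf := by omega
  have hμ8 : μ ≤ 1 / 8 := by rw [hμ]; exact min_le_left _ _
  have hμδ : μ ≤ δ / (2 * L * ((M : ℝ) + 1)) := by rw [hμ]; exact min_le_right _ _
  have hPJ : P.J = J := by rw [hJ]; rfl
  have ok : P.Ok := by
    refine ⟨hN2', hnf0, hD0, ?_, hν0, ?_, hμ0, hμ8, hK0, hKV, le_of_eq ?_, ?_⟩
    · rw [hPJ]; exact le_of_eq hV.symm
    · change ν ≤ 1 / 2
      rw [hν]
      refine one_div_le_one_div_of_le (by norm_num) ?_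
      have : 1 ≤ L ^ 2 * V * J := one_le_mul_of_one_le_of_one_le
        (one_le_mul_of_one_le_of_one_le hL2 hV0) (by linarith)
      linarith
    · change 4096 * K * V = H₀ / (2 * K) ^ M
      rw [hH]; field_simp
    · change 100000 * V ≤ μ * ν * (nf : ℝ)
      rw [hnf]
      push_cast
      have h := Nat.le_ceil (100000 * V / (μ * ν))
      rw [div_le_iff₀ (mul_pos hμ0 hν0)] at h
      linarith [mul_pos hμ0 hν0]
  have gn : P.Gain L η g := by
    refine ⟨hL, hη0.le, hg0.le, ?_, ?_, ?_, ?_, ?_⟩ <;> (try rw [hPJ])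
    · change g * V * J ≤ 1 / 256
      rw [hg]; exact le_of_eq (by field_simp)
    · change ν * (L ^ 2 * V * J) ≤ 1 / 1000
      rw [hν]; exact le_of_eq (by field_simp)
    · change 1000 * L ^ 2 * J ≤ D
      rw [hD]; linarith
    · change η * (L * J) ≤ 1 / 1000
      rw [hη]; exact le_of_eq (by field_simp)
    · change 65 * L ^ 2 * V ^ 2 * ((N : ℝ) + 2) ≤ η ^ 2 * K
      rw [← div_le_iff₀' (pow_pos hη0 2), hK]
      linarith [sq_nonneg V]
  refine ⟨P, ok, no_map ok gn ?_ ?_ hδ0 ?_ ?_⟩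
  · change packN k (2 * L + 2) < N
    omega
  · change L ^ 2 < (M : ℝ) * g
    rw [← div_lt_iff₀ hg0, hM]
    push_cast
    exact Nat.lt_floor_add_one _
  · change ((M : ℝ) + 1) * (2 * μ * L) ≤ δ
    have : μ * (2 * L * ((M : ℝ) + 1)) ≤ δ := (le_div_iff₀ (by positivity)).1 hμδ
    linarith
  · change 8 * L * δ ≤ L ^ 2 * V ^ 2 / H₀ ^ 2
    rw [hδ]; exact le_of_eq (by field_simp)

end Vale.Agent.P208
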