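import Vale.Agent.P208.Sep

/-!
# The finite sets are doubling with an absolute constant
-/

noncomputable section

open scoped InnerProductSpace
open Metric

namespace Vale.Agent.P208

variable {P : Pm}

/-- The planar skeleton of a node: vertices and rectangles of children. -/
def Pm.Skel (P : Pm) (m : ℕ) (H : ℝ) (z : E) : Prop :=
  z ∈ P.verts H ∨ ∃ j, P.Valid m j ∧ ∃ x y, P.Box (P.child m H j).Hc x y ∧
    z = (P.child m H j).pl x y

lemma skel_lo (ok : P.Ok) {m : ℕ} {H : ℝ} (hR : P.Rg m H) {z : E} (hz : P.Skel m H z) :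
    Lo P.N z := by
  rcases hz with ⟨r, k, -, rfl⟩ | ⟨j, hj, x, y, -, rfl⟩
  · exact vert_lo H r k
  · exact (child_orth ok hR hj).lo_pl x y

lemma skel_tl (ok : P.Ok) {m : ℕ} {H : ℝ} (hR : P.Rg m H) {z : E} (hz : P.Skel m H z) :
    ‖tl z‖ ≤ 2 := by
  rcases hz with ⟨r, k, -, rfl⟩ | ⟨j, hj, x, y, hb, rfl⟩
  · rw [tl_vert, norm_smul, Real.norm_of_nonneg (P.amp_mem k).1]
    linarith [mul_le_mul (P.amp_mem k).2 (norm_lift_le r) (norm_nonneg _) zero_le_one]
  · have s0 := (child_orth ok hR hj).s_pos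
    obtain ⟨-, h⟩ := child_box ok hR hj rfl hb
    rcases h with ⟨-, h⟩ | ⟨h, -⟩
    · linarith
    · rw [h, norm_zero]; norm_num

/-- Which lift a skeleton point can carry. -/
lemma skel_class (ok : P.Ok) {m : ℕ} {H : ℝ} (hR : P.Rg m H) {z : E} (hz : P.Skel m H z) :
    tl z = 0 ∨ ∃ (a : Fin P.N) (t : ℝ), tl z = t • e (2 + a.val) ∧
      ((∃ b : Fin P.N, ∃ h : a ≠ b, |z 1 - P.ht (Sum.inr ⟨(a, b), h⟩ : Row P.N)| ≤ 1) ∨
        |z 0 - ((a.val : ℝ) + 1) * (H / P.K)| ≤ H / P.K / 4) := by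
  rcases hz with ⟨r, k, hk, rfl⟩ | ⟨j, hj, x, y, hb, rfl⟩
  · rcases r with i | ⟨⟨a, b⟩, hab⟩
    · left; simp [tl_vert, lift]
    by_cases h : 2 ≤ k ∧ k + 2 ≤ P.L
    · right
      refine ⟨a, 1, ?_, Or.inl ⟨b, hab, ?_⟩⟩
      · rw [tl_vert, amp_inner h.1 h.2]; simp [lift]
      · rw [vert_one, yv_mid _ (by omega) (by omega), sub_self, abs_zero]; norm_num
    · left; simp [tl_vert, Pm.amp, h]
  cases j with
  | col c r =>
    obtain ⟨-, hn, hr⟩ := hj
    obtain ⟨-, -, p2⟩ := col_pl ok H hn hr x y (m := m)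
    obtain ⟨cx1, cx2⟩ := col_x ok hn hr hb.1 (H := H) (m := m) (y := y)
    obtain ⟨e1, e2⟩ := colk_x (P := P) H c
    rw [e1] at cx1; rw [e2] at cx2
    obtain ⟨n1, -, -⟩ := nxt_spec ok c hr
    set τ := (1 - P.nu) * y / P.V
    obtain ⟨u, hu⟩ : ∃ u : ℝ, lift r = u • e (2 + c.val) := by
      rcases lift_node hn with g | g
      · exact ⟨0, by rw [g, zero_smul]⟩
      · exact ⟨1, by rw [g, one_smul]⟩
    obtain ⟨v, hv⟩ : ∃ v : ℝ, lift (P.nxt c r) = v • e (2 + c.val) := by
      rcases lift_node n1 with g | g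
      · exact ⟨0, by rw [g, zero_smul]⟩
      · exact ⟨1, by rw [g, one_smul]⟩
    right
    refine ⟨c, (1 - τ) * u + τ * v, ?_, Or.inr ?_⟩
    · rw [p2, hu, hv, smul_smul, smul_smul, ← add_smul]
    · rw [abs_le]; constructor <;> linarith
  | fill r k l =>
    obtain ⟨hk, hl, -, -⟩ := hj
    by_cases hbr : P.Branch k
    · exact Or.inl (fill_branch ok hR r hk hbr x y (m := m) (l := l)).2.2
    obtain ⟨-, ⟨-, p1⟩, p2⟩ := fill_mid ok hR r hk hbr x y (m := m) (l := l)
    rcases r with i | ⟨⟨a, b⟩, hab⟩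
    · left; rw [p2]; simp [lift]
    right
    refine ⟨a, P.amp k + P.theta l x * (P.amp (k + 1) - P.amp k), by rw [p2]; rfl,
      Or.inl ⟨b, hab, ?_⟩⟩
    rw [p1 (by simp [top])]
    obtain ⟨-, hs, -⟩ := fill_small ok hR (Sum.inr ⟨(a, b), hab⟩) hk (l := l)
    have s0 := (fill_orth ok hR (Sum.inr ⟨(a, b), hab⟩) hk (l := l)).s_pos
    obtain ⟨C, hC⟩ : ∃ C, P.child m H (.fill (Sum.inr ⟨(a, b), hab⟩) k l) = C := ⟨_, rfl⟩
    rw [hC] at hs s0 hb ⊢
    have h1 : C.s * y ≤ C.s * P.V := mul_le_mul_of_nonneg_left hb.2.2 s0.le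
    have h0 : 0 ≤ C.s * y := mul_nonneg s0.le hb.2.1
    have := ok.hmu'
    rw [abs_le]; constructor <;> linarith

/-- Few indices are visible in a small ball. -/
lemma few_indices (ok : P.Ok) {m : ℕ} {H : ℝ} (hR : P.Rg m H) (x : E) :
    ∃ J : Finset ℕ, J.card ≤ 3 ∧ J.Nonempty ∧ ∀ z, P.Skel m H z → ‖z - x‖ ≤ 129 →
      ∃ j ∈ J, tl z = 0 ∨ (2 ≤ j ∧ ∃ t : ℝ, tl z = t • e j) := by
  classical
  let Sr : Finset (Fin P.N) := Finset.univ.filter fun a =>
    ∃ b : Fin P.N, ∃ h : a ≠ b, |x 1 - P.ht (Sum.inr ⟨(a, b), h⟩ : Row P.N)| ≤ 130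
  let Sc : Finset (Fin P.N) := Finset.univ.filter fun a =>
    |x 0 - ((a.val : ℝ) + 1) * (H / P.K)| ≤ H / P.K / 4 + 130
  have hr2 : Sr.card ≤ 2 := by
    rcases Sr.eq_empty_or_nonempty with h | ⟨a₀, h₀⟩
    · simp [h]
    simp only [Sr, Finset.mem_filter, Finset.mem_univ, true_and] at h₀
    obtain ⟨b₀, hab₀, h₀⟩ := h₀
    refine (Finset.card_le_card (t := {a₀, b₀}) ?_).trans Finset.card_le_two
    intro a ha
    simp only [Sr, Finset.mem_filter, Finset.mem_univ, true_and] at ha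
    obtain ⟨b, hab, ha⟩ := ha
    rw [abs_le] at ha h₀
    rcases ht_sep ok (Sum.inr ⟨(a, b), hab⟩ : Row P.N) (Sum.inr ⟨(a₀, b₀), hab₀⟩) with
      g | ⟨u, v, huv, hvu, g1, g2⟩ | g
    · simp only [Sum.inr.injEq, Subtype.mk.injEq, Prod.mk.injEq] at g
      simp [g.1]
    · simp only [Sum.inr.injEq, Subtype.mk.injEq, Prod.mk.injEq] at g1 g2
      simp [g1.1, g2.2]
    · rcases le_abs.1 g with g | g <;> linarith
  have hc1 : Sc.card ≤ 1 := by
    rw [Finset.card_le_one]
    intro a ha b hb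
    simp only [Sc, Finset.mem_filter, Finset.mem_univ, true_and, abs_le] at ha hb
    have hρ := ok.rho_big hR
    have hV := ok.V_big
    by_contra hne
    rcases Nat.lt_or_gt_of_ne (fun h => hne (Fin.ext h)) with g | g
    · have g' : (a.val : ℝ) + 1 ≤ b.val := by exact_mod_cast g
      have := mul_le_mul_of_nonneg_right g' (show 0 ≤ H / P.K by linarith)
      linarith
    · have g' : (b.val : ℝ) + 1 ≤ a.val := by exact_mod_cast g
      have := mul_le_mul_of_nonneg_right g' (show 0 ≤ H / P.K by linarith)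
      linarith
  set S := (Sr ∪ Sc).image (fun a : Fin P.N => 2 + a.val) with hS
  have hS3 : S.card ≤ 3 :=
    Finset.card_image_le.trans ((Finset.card_union_le _ _).trans (by omega))
  refine ⟨if S.Nonempty then S else {0}, ?_, ?_, ?_⟩
  · split_ifs
    · exact hS3
    · simp
  · split_ifs with h
    · exact h
    · simp
  intro z hz hzx
  rcases skel_class ok hR hz with h | ⟨a, t, ht, hloc⟩
  · obtain ⟨j, hj⟩ : (if S.Nonempty then S else {0}).Nonempty := by
      split_ifs with g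
      · exact g
      · simp
    exact ⟨j, hj, Or.inl h⟩
  · have ha : 2 + a.val ∈ S := by
      refine Finset.mem_image.2 ⟨a, Finset.mem_union.2 ?_, rfl⟩
      rcases hloc with ⟨b, hab, h⟩ | h
      · refine Or.inl (Finset.mem_filter.2 ⟨Finset.mem_univ _, b, hab, ?_⟩)
        have := coord_dist z x 1
        rw [abs_le] at this h ⊢
        constructor <;> linarith
      · refine Or.inr (Finset.mem_filter.2 ⟨Finset.mem_univ _, ?_⟩)
        have := coord_dist z x 0
        rw [abs_le] at this h ⊢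
        constructor <;> linarith
    exact ⟨2 + a.val, by rw [if_pos ⟨_, ha⟩]; exact ha, Or.inr ⟨by omega, t, ht⟩⟩

/-- The skeleton near a ball is covered by boundedly many balls. -/
lemma skel_cov (ok : P.Ok) {m : ℕ} {H : ℝ} (hR : P.Rg m H) (x : E) {r : ℝ} (hr : 0 < r) :
    Cov C₁ {z | P.Skel m H z ∧ ‖z - x‖ ≤ 2 * r} (r / 16) := by
  rcases le_or_gt 64 r with h64 | h64
  · refine cov_grid hr {0} (by simp) (x 0) (x 1) (fun _ => 0) fun z hz => ?_
    refine ⟨0, by simp, z 0, z 1, 0, (coord_dist z x 0).trans hz.2,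
      (coord_dist z x 1).trans hz.2, by simp; linarith, ?_⟩
    have : z - (z 0 • e 0 + z 1 • e 1 + (0 : ℝ) • e 0) = tl z := by rw [tl]; module
    rw [this]
    linarith [skel_tl ok hR hz.1]
  · obtain ⟨J, hJ, -, hJ'⟩ := few_indices ok hR x
    refine cov_grid hr J hJ (x 0) (x 1) (fun j => if j < 2 then 0 else x j) fun z hz => ?_
    obtain ⟨j, hj, h⟩ := hJ' z hz.1 (by linarith [hz.2])
    refine ⟨j, hj, z 0, z 1, if j < 2 then 0 else z j, (coord_dist z x 0).trans hz.2,
      (coord_dist z x 1).trans hz.2, ?_, ?_⟩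
    · split_ifs with g
      · simp; linarith
      · exact (coord_dist z x j).trans hz.2
    · have : z - (z 0 • e 0 + z 1 • e 1 + (if j < 2 then 0 else z j) • e j)
          = tl z - (if j < 2 then 0 else z j) • e j := by rw [tl]; module
      rw [this]
      rcases h with h | ⟨h2, t, ht⟩
      · have : (if j < 2 then 0 else z j) = (0 : ℝ) := by
          have := tl_at z j
          rw [h, zero_at] at this
          exact this.symm
        rw [h, this, zero_smul, sub_zero, norm_zero]; linarith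
      · have hj2 : ¬ j < 2 := by omega
        have := tl_at z j
        rw [if_neg hj2, ht, smul_at, e_self, mul_one] at this
        rw [if_neg hj2, ht, this, sub_self, norm_zero]; linarith

/-- Every point of a node is near the skeleton. -/
lemma pts_skel (ok : P.Ok) {n m : ℕ} {H : ℝ} (hR : P.Rg m H) {p : E}
    (hp : p ∈ P.pts (n + 1) m H) :
    p ∈ P.verts H ∨ ∃ i, P.Valid m i ∧ ∃ q ∈ P.pts n (P.child m H i).st (P.child m H i).Hc,
      p = (P.child m H i).emb P.N q ∧
      P.Box (P.child m H i).Hc (q 0) (q 1) ∧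
      ‖tl q‖ ≤ P.pe (P.child m H i).Hc (q 0) (q 1) := by
  rcases hp with hp | hp
  · exact Or.inl hp
  obtain ⟨i, hi, q, hq, rfl⟩ := Set.mem_iUnion₂.1 hp
  exact Or.inr ⟨i, hi, q, hq, rfl, kite ok n _ _ (child_rg ok hR hi) q hq⟩

lemma cov_mono {C : ℕ} {S T : Set E} {r r' : ℝ} (h : Cov C T r) (hST : S ⊆ T) (hr : r ≤ r') :
    Cov C S r' := by
  obtain ⟨Cs, hc, hT⟩ := h
  exact ⟨Cs, hc, hST.trans (hT.trans (Set.iUnion₂_mono fun y _ => ball_subset_ball hr))⟩

lemma cov_thicken {C : ℕ} {S T : Set E} {r η : ℝ} (h : Cov C T r)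
    (hST : ∀ p ∈ S, ∃ z ∈ T, ‖p - z‖ ≤ η) : Cov C S (r + η) := by
  obtain ⟨Cs, hc, hT⟩ := h
  refine ⟨Cs, hc, fun p hp => ?_⟩
  obtain ⟨z, hz, hd⟩ := hST p hp
  obtain ⟨y, hy, hzy⟩ := Set.mem_iUnion₂.1 (hT hz)
  refine Set.mem_biUnion hy ?_
  rw [mem_ball, dist_eq_norm] at hzy ⊢
  linarith [norm_sub_le_norm_sub_add_norm_sub p z y]

/-- **Uniform doubling.** A ball of a node is covered by `C₁` balls of an eighth of its radius. -/
theorem pts_cov (ok : P.Ok) : ∀ (n m : ℕ) (H : ℝ), P.Rg m H → ∀ x ∈ P.pts n m H, ∀ r > 0,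
    Cov C₁ (P.pts n m H ∩ ball x r) (r / 8) := by
  intro n
  induction n with
  | zero =>
    intro m H hR x _ r hr
    refine cov_mono (skel_cov ok hR x hr) (fun p hp => ⟨Or.inl hp.1, ?_⟩) (by linarith)
    have := hp.2
    rw [mem_ball, dist_eq_norm] at this
    linarith
  | succ n ih =>
    intro m H hR x hx r hr
    by_cases hA : ∃ i, P.Valid m i ∧ ∃ q ∈ P.pts n (P.child m H i).st (P.child m H i).Hc,
        ‖(P.child m H i).emb P.N q - x‖ < r ∧ r / 32 < (P.child m H i).s * ‖tl q‖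
    · obtain ⟨i, hi, q, hq, hqx, hfar⟩ := hA
      obtain ⟨hbox, hpe⟩ := kite ok n _ _ (child_rg ok hR hi) q hq
      have ho := child_orth ok hR hi
      have hrg := child_rg ok hR hi
      have hsep := fun z (hz : P.Other m H i z) => sep ok hR hi hbox hz
      have key : ∀ p ∈ P.pts (n + 1) m H, ‖p - x‖ < r →
          ∃ q' ∈ P.pts n (P.child m H i).st (P.child m H i).Hc,
            p = (P.child m H i).emb P.N q' := by
        intro p hp hpx
        by_contra hcon
        obtain ⟨z, w, hz, hzlo, hw, hpw⟩ : ∃ z w, P.Other m H i z ∧ Lo P.N z ∧ Hi P.N w ∧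
            p = z + w := by
          rcases pts_skel ok hR hp with h | ⟨j, hj, q', hq', rfl, hb', -⟩
          · obtain ⟨r', k, hk, rfl⟩ := h
            exact ⟨_, 0, Or.inl ⟨r', k, hk, rfl⟩, vert_lo H r' k, hi_zero _, (add_zero _).symm⟩
          · by_cases hji : j = i
            · subst hji; exact absurd ⟨q', hq', rfl⟩ hcon
            exact ⟨_, _, Or.inr ⟨j, hj, hji, _, _, hb', rfl⟩,
              (child_orth ok hR hj).lo_pl _ _, (hi_shift _ _).smul _, rfl⟩
        have h1 := hsep z hz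
        have h2 : ‖(P.child m H i).pl (q 0) (q 1) - z‖ ≤ ‖(P.child m H i).emb P.N q - p‖ := by
          have : (P.child m H i).emb P.N q - p = ((P.child m H i).pl (q 0) (q 1) - z)
              + ((P.child m H i).s • shift P.N q - w) := by
            rw [hpw, Ch.emb]; abel
          rw [this]
          exact norm_lo_le ((ho.lo_pl _ _).sub hzlo) (((hi_shift _ _).smul _).sub hw)
        have h3 := norm_sub_le_norm_sub_add_norm_sub ((P.child m H i).emb P.N q) x p
        rw [norm_sub_rev x p] at h3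
        have h4 : (P.child m H i).s * ‖tl q‖ ≤ (P.child m H i).s *
            P.pe (P.child m H i).Hc (q 0) (q 1) := mul_le_mul_of_nonneg_left hpe ho.s_pos.le
        linarith
      obtain ⟨qx, hqx', hxq⟩ := key x hx (by simpa using hr)
      obtain ⟨C, hC⟩ : ∃ C, P.child m H i = C := ⟨_, rfl⟩
      rw [hC] at key hxq ho hqx' hrg
      obtain ⟨Cs, hcard, hcov⟩ := ih _ _ hrg qx hqx' (r / C.s) (div_pos hr ho.s_pos)
      classical
      refine ⟨Cs.image (C.emb P.N), Finset.card_image_le.trans hcard, ?_⟩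
      rintro p ⟨hp, hpx⟩
      rw [mem_ball, dist_eq_norm] at hpx
      obtain ⟨q', hq', rfl⟩ := key p hp hpx
      rw [hxq, C.norm_emb_sub ho] at hpx
      have hmem : q' ∈ P.pts n C.st C.Hc ∩ ball qx (r / C.s) := by
        refine ⟨hq', ?_⟩
        rw [mem_ball, dist_eq_norm, lt_div_iff₀ ho.s_pos]
        linarith
      obtain ⟨y, hy, hyq⟩ := Set.mem_iUnion₂.1 (hcov hmem)
      refine Set.mem_biUnion (Finset.mem_image_of_mem _ hy) ?_
      rw [mem_ball, dist_eq_norm, C.norm_emb_sub ho]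
      rw [mem_ball, dist_eq_norm, div_div, lt_div_iff₀ (mul_pos ho.s_pos (by norm_num))] at hyq
      linarith
    · refine cov_mono (cov_thicken (η := r / 32) (skel_cov ok hR x hr) ?_) subset_rfl
        (by linarith)
      rintro p ⟨hp, hpx⟩
      rw [mem_ball, dist_eq_norm] at hpx
      rcases pts_skel ok hR hp with h | ⟨i, hi, q, hq, rfl, hb, -⟩
      · exact ⟨p, ⟨Or.inl h, by linarith⟩, by simp; linarith⟩
      · have hnot : (P.child m H i).s * ‖tl q‖ ≤ r / 32 := by
          by_contra h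
          exact hA ⟨i, hi, q, hq, hpx, not_le.1 h⟩
        have hd := (P.child m H i).norm_emb_sub_pl (child_orth ok hR hi) q
        refine ⟨(P.child m H i).pl (q 0) (q 1), ⟨Or.inr ⟨i, hi, _, _, hb, rfl⟩, ?_⟩, by rw [hd]; exact hnot⟩
        have h3 := norm_sub_le_norm_sub_add_norm_sub ((P.child m H i).pl (q 0) (q 1))
          ((P.child m H i).emb P.N q) x
        rw [norm_sub_rev ((P.child m H i).pl (q 0) (q 1)) ((P.child m H i).emb P.N q), hd] at h3
        linarith

end Vale.Agent.P208
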