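import Vale.Agent.P208.Vec

/-!
# The gadget: rows, columns and children of a node
-/

noncomputable section

open scoped InnerProductSpace

namespace Vale.Agent.P208

/-- Parameters of the construction. -/
structure Pm where
  N : ℕ
  M : ℕ
  nf : ℕ
  V : ℝ
  D : ℝ
  nu : ℝ
  mu : ℝ
  K : ℝ
  H₀ : ℝ

variable (P : Pm)

/-- The height of the lifted band. -/
def Pm.J : ℝ := 300 * (P.N : ℝ) ^ 2

/-- The smallest width at stage `m`. -/
def Pm.Hlo (m : ℕ) : ℝ := P.H₀ / (2 * P.K) ^ m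

/-- The inequalities between the parameters. -/
structure Pm.Ok (P : Pm) : Prop where
  hN : 2 ≤ P.N
  hnf : 0 < P.nf
  hD : 300 ≤ P.D
  hV : 1024 * (P.D + P.J + 1) ≤ P.V
  hnu : 0 < P.nu
  hnu' : P.nu ≤ 1 / 2
  hmu : 0 < P.mu
  hmu' : P.mu ≤ 1 / 8
  hK : 16 * ((P.N : ℝ) + 2) ≤ P.K
  hKV : 2 * P.V ^ 2 ≤ P.K
  hH₀ : 4096 * P.K * P.V ≤ P.Hlo P.M
  hfine : 100000 * P.V ≤ P.mu * P.nu * P.nf

/-- Admissible stage and width. -/
def Pm.Rg (m : ℕ) (H : ℝ) : Prop := m ≤ P.M ∧ P.Hlo m ≤ H ∧ H ≤ P.H₀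

/-- Rows: four base rows and a lifted row for each ordered pair of indices. -/
abbrev Row (N : ℕ) := Fin 4 ⊕ {p : Fin N × Fin N // p.1 ≠ p.2}

/-- The top row. -/
def top {N : ℕ} : Row N := Sum.inl 3

/-- The bottom row. -/
def bot {N : ℕ} : Row N := Sum.inl 0

/-- The number of the slot of a pair. -/
def slot {N : ℕ} (p : Fin N × Fin N) : ℕ := min p.1.val p.2.val * N + max p.1.val p.2.val

/-- The height of a row. -/
def Pm.ht : Row P.N → ℝ
  | Sum.inl i => ![0, P.V / 2 - P.D, P.V / 2 + P.J + P.D, P.V] i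
  | Sum.inr p => P.V / 2 + 300 * (slot p.1 : ℝ)

/-- The lift vector of a row. -/
def lift {N : ℕ} : Row N → E
  | Sum.inl _ => 0
  | Sum.inr p => e (2 + p.1.1.val)

/-- Number of segments in a row. -/
def Pm.L : ℕ := 3 * P.N + 8

/-- The common abscissae of the row vertices. -/
def Pm.xv (H : ℝ) (k : ℕ) : ℝ :=
  if k = 0 then -(H / 2)
  else if k = 1 then -(H / 4)
  else if k = 2 then -(((P.N : ℝ) + 1) * (H / P.K))
  else if k ≤ 3 * P.N + 5 then
    ((((k - 3) / 3 : ℕ) : ℝ) + ((((k - 3) % 3 : ℕ) : ℝ) - 1) / 4) * (H / P.K)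
  else if k = 3 * P.N + 6 then ((P.N : ℝ) + 1) * (H / P.K)
  else if k = 3 * P.N + 7 then H / 4
  else H / 2

/-- The amplitude of the lift at a vertex. -/
def Pm.amp (k : ℕ) : ℝ := if 2 ≤ k ∧ k + 2 ≤ P.L then 1 else 0

/-- The height at a vertex. -/
def Pm.yv (r : Row P.N) (k : ℕ) : ℝ := if k = 0 ∨ P.L ≤ k then 0 else P.ht r

/-- A vertex. -/
def Pm.vert (H : ℝ) (r : Row P.N) (k : ℕ) : E :=
  P.xv H k • e 0 + P.yv r k • e 1 + P.amp k • lift r

/-- All vertices of a node. -/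
def Pm.verts (H : ℝ) : Set E := {p | ∃ r : Row P.N, ∃ k ≤ P.L, p = P.vert H r k}

/-- The vertex index of the middle of a column. -/
def colk {N : ℕ} (c : Fin N) : ℕ := 4 + 3 * (c.val + 1)

/-- The nodes of a column. -/
def isNode {N : ℕ} (c : Fin N) : Row N → Prop
  | Sum.inl _ => True
  | Sum.inr p => p.1.1 = c

/-- `r'` is the successor of `r` in the column `c`. -/
def Pm.IsNext (c : Fin P.N) (r r' : Row P.N) : Prop :=
  isNode c r' ∧ P.ht r < P.ht r' ∧ ∀ q, isNode c q → P.ht r < P.ht q → P.ht r' ≤ P.ht q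

open Classical in
/-- The successor in a column. -/
def Pm.nxt (c : Fin P.N) (r : Row P.N) : Row P.N :=
  if h : ∃ r', P.IsNext c r r' then h.choose else top

/-- A gap of a column that carries a centred child. -/
def Pm.Host (m : ℕ) (c : Fin P.N) (r : Row P.N) : Prop := m < P.M ∧ isNode c r ∧ r ≠ top

/-- The end segments of a row. -/
def Pm.Branch (k : ℕ) : Prop := k = 0 ∨ k + 1 = P.L

/-- Chooses one of the two rows of a slot. -/
def canon {N : ℕ} : Row N → Prop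
  | Sum.inl _ => True
  | Sum.inr p => p.1.1 < p.1.2

/-- Child indices. -/
inductive Idx (N : ℕ)
  | col (c : Fin N) (r : Row N)
  | fill (r : Row N) (k l : ℕ)

/-- Which children are present. -/
def Pm.Valid (m : ℕ) : Idx P.N → Prop
  | .col c r => P.Host m c r
  | .fill r k l => k < P.L ∧ l < P.nf ∧ (P.Branch k → canon r) ∧
      ∀ c, P.Host m c r → k + 1 ≠ colk c ∧ k ≠ colk c

/-- A column gap. -/
def Pm.gap (H : ℝ) (c : Fin P.N) (r : Row P.N) : E :=
  P.vert H (P.nxt c r) (colk c) - P.vert H r (colk c)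

/-- A row segment. -/
def Pm.seg (H : ℝ) (r : Row P.N) (k : ℕ) : E := P.vert H r (k + 1) - P.vert H r k

open Classical in
/-- The normal used by the fillers. -/
def Pm.nrm (H : ℝ) (r : Row P.N) (k : ℕ) : E :=
  if P.Branch k then
    (‖P.seg H r k‖⁻¹) • ((-(P.seg H r k 1)) • e 0 + (P.seg H r k 0) • e 1)
  else if r = top then -e 1 else e 1

/-- The children. -/
def Pm.child (m : ℕ) (H : ℝ) : Idx P.N → Ch
  | .col c r =>
    { o := P.vert H r (colk c)
      U := e 0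
      W := ‖P.gap H c r‖⁻¹ • P.gap H c r
      s := (1 - P.nu) * ‖P.gap H c r‖ / P.V
      st := m + 1
      Hc := H / P.K / (2 * ((1 - P.nu) * ‖P.gap H c r‖ / P.V)) }
  | .fill r k l =>
    { o := P.vert H r k
        + (P.mu + (1 - 2 * P.mu) * (((l : ℝ) + 1 / 2) / P.nf)) • P.seg H r k
      U := ‖P.seg H r k‖⁻¹ • P.seg H r k
      W := P.nrm H r k
      s := (1 - 2 * P.mu) * ‖P.seg H r k‖ / (P.nf * P.H₀)
      st := 0
      Hc := P.H₀ }

/-- The finite sets. -/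
def Pm.pts : ℕ → ℕ → ℝ → Set E
  | 0, _, H => P.verts H
  | n + 1, m, H => P.verts H ∪ ⋃ i ∈ {i | P.Valid m i},
      (P.child m H i).emb P.N '' Pm.pts n (P.child m H i).st (P.child m H i).Hc

variable {P}

lemma Pm.verts_sub_pts (n m : ℕ) (H : ℝ) : P.verts H ⊆ P.pts n m H := by
  cases n with
  | zero => exact subset_rfl
  | succ n => exact Set.subset_union_left

lemma Pm.vert_mem (n m : ℕ) (H : ℝ) (r : Row P.N) {k : ℕ} (hk : k ≤ P.L) :
    P.vert H r k ∈ P.pts n m H :=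
  P.verts_sub_pts n m H ⟨r, k, hk, rfl⟩

lemma Pm.child_mem {n m : ℕ} {H : ℝ} {i : Idx P.N} (hi : P.Valid m i) {p : E}
    (hp : p ∈ P.pts n (P.child m H i).st (P.child m H i).Hc) :
    (P.child m H i).emb P.N p ∈ P.pts (n + 1) m H :=
  Or.inr (Set.mem_biUnion hi ⟨p, hp, rfl⟩)

lemma Pm.Ok.J_pos (ok : P.Ok) : 1200 ≤ P.J := by
  have : (2 : ℝ) ≤ P.N := by exact_mod_cast ok.hN
  unfold Pm.J; nlinarith

lemma Pm.Ok.V_big (ok : P.Ok) : 1500000 ≤ P.V := by
  have := ok.hV; have := ok.hD; have := ok.J_pos; linarith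

lemma Pm.Ok.V_pos (ok : P.Ok) : 0 < P.V := by linarith [ok.V_big]

lemma Pm.Ok.K_big (ok : P.Ok) : 64 ≤ P.K := by
  have : (2 : ℝ) ≤ P.N := by exact_mod_cast ok.hN
  linarith [ok.hK]

lemma Pm.Ok.K_pos (ok : P.Ok) : 0 < P.K := by linarith [ok.K_big]

lemma Pm.Ok.V_le_K (ok : P.Ok) : 8 * P.V ≤ P.K := by nlinarith [ok.hKV, ok.V_big]

lemma Pm.Ok.H₀_pos (ok : P.Ok) : 0 < P.H₀ := by
  have h := ok.hH₀
  have : 0 < P.Hlo P.M := by nlinarith [ok.V_pos, ok.K_pos]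
  unfold Pm.Hlo at this
  have hp : 0 < (2 * P.K) ^ P.M := pow_pos (by linarith [ok.K_pos]) _
  exact (div_pos_iff_of_pos_right hp).1 this

lemma Pm.Ok.hlo_anti (ok : P.Ok) {m m' : ℕ} (h : m ≤ m') : P.Hlo m' ≤ P.Hlo m := by
  unfold Pm.Hlo
  exact div_le_div_of_nonneg_left ok.H₀_pos.le (pow_pos (by linarith [ok.K_pos]) _)
    (pow_le_pow_right₀ (by linarith [ok.K_big]) h)

lemma Pm.rg_zero (P : Pm) : P.Rg 0 P.H₀ := ⟨Nat.zero_le _, by simp [Pm.Hlo], le_rfl⟩

lemma Pm.Ok.H_big (ok : P.Ok) {m : ℕ} {H : ℝ} (hR : P.Rg m H) : 4096 * P.K * P.V ≤ H :=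
  (ok.hH₀.trans (ok.hlo_anti hR.1)).trans hR.2.1

lemma Pm.Ok.H_pos (ok : P.Ok) {m : ℕ} {H : ℝ} (hR : P.Rg m H) : 0 < H := by
  have := ok.H_big hR; nlinarith [ok.V_pos, ok.K_pos]

/-- The column spacing is huge compared with the height. -/
lemma Pm.Ok.rho_big (ok : P.Ok) {m : ℕ} {H : ℝ} (hR : P.Rg m H) :
    4096 * P.V ≤ H / P.K := by
  rw [le_div_iff₀ ok.K_pos]; linarith [ok.H_big hR]

lemma Pm.Ok.rho_small (ok : P.Ok) {m : ℕ} {H : ℝ} (hR : P.Rg m H) :
    ((P.N : ℝ) + 2) * (H / P.K) ≤ H / 16 := by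
  rw [mul_div_assoc', div_le_div_iff₀ ok.K_pos (by norm_num)]
  nlinarith [ok.hK, ok.H_pos hR]

lemma Pm.Ok.H_V (ok : P.Ok) {m : ℕ} {H : ℝ} (hR : P.Rg m H) : 64 * P.V ≤ H := by
  nlinarith [ok.H_big hR, ok.V_pos, ok.K_big]

lemma xv_zero (H : ℝ) : P.xv H 0 = -(H / 2) := by simp [Pm.xv]

lemma xv_one (H : ℝ) : P.xv H 1 = -(H / 4) := by simp [Pm.xv]

lemma xv_two (H : ℝ) : P.xv H 2 = -(((P.N : ℝ) + 1) * (H / P.K)) := by simp [Pm.xv]

lemma xv_three_add (H : ℝ) {j : ℕ} (hj : j ≤ 3 * P.N + 2) :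
    P.xv H (3 + j) = (((j / 3 : ℕ) : ℝ) + (((j % 3 : ℕ) : ℝ) - 1) / 4) * (H / P.K) := by
  rw [Pm.xv, if_neg (by omega), if_neg (by omega), if_neg (by omega), if_pos (by omega),
    Nat.add_sub_cancel_left]

lemma xv_left (H : ℝ) {i : ℕ} (hi : i ≤ P.N) :
    P.xv H (3 + 3 * i) = ((i : ℝ) - 1 / 4) * (H / P.K) := by
  rw [xv_three_add H (by omega), show 3 * i / 3 = i by omega, show 3 * i % 3 = 0 by omega]
  push_cast; ring

lemma xv_mid (H : ℝ) {i : ℕ} (hi : i ≤ P.N) :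
    P.xv H (4 + 3 * i) = (i : ℝ) * (H / P.K) := by
  rw [show 4 + 3 * i = 3 + (3 * i + 1) by omega, xv_three_add H (by omega),
    show (3 * i + 1) / 3 = i by omega, show (3 * i + 1) % 3 = 1 by omega]
  push_cast; ring

lemma xv_right (H : ℝ) {i : ℕ} (hi : i ≤ P.N) :
    P.xv H (5 + 3 * i) = ((i : ℝ) + 1 / 4) * (H / P.K) := by
  rw [show 5 + 3 * i = 3 + (3 * i + 2) by omega, xv_three_add H (by omega),
    show (3 * i + 2) / 3 = i by omega, show (3 * i + 2) % 3 = 2 by omega]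
  push_cast; ring

lemma xv_a (H : ℝ) : P.xv H (3 * P.N + 6) = ((P.N : ℝ) + 1) * (H / P.K) := by
  simp [Pm.xv, show ¬ (3 * P.N + 6 = 1) by omega, show ¬ (3 * P.N + 6 = 2) by omega]

lemma xv_b (H : ℝ) : P.xv H (3 * P.N + 7) = H / 4 := by
  simp [Pm.xv, show ¬ (3 * P.N + 7 = 1) by omega, show ¬ (3 * P.N + 7 = 2) by omega,
    show ¬ (3 * P.N + 7 ≤ 3 * P.N + 5) by omega]

lemma xv_end (H : ℝ) : P.xv H P.L = H / 2 := by
  simp [Pm.xv, Pm.L, show ¬ (3 * P.N + 8 = 1) by omega, show ¬ (3 * P.N + 8 = 2) by omega,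
    show ¬ (3 * P.N + 8 ≤ 3 * P.N + 5) by omega]

/-- Every segment has length at least a quarter of the spacing. -/
lemma xv_step (ok : P.Ok) {m : ℕ} {H : ℝ} (hR : P.Rg m H) {k : ℕ} (hk : k < P.L) :
    H / P.K / 4 ≤ P.xv H (k + 1) - P.xv H k ∧ P.xv H (k + 1) - P.xv H k ≤ H / 4 := by
  have h1 := ok.rho_small hR
  have h2 := ok.rho_big hR
  have h3 : (2 : ℝ) ≤ P.N := by exact_mod_cast ok.hN
  have h4 := ok.V_pos
  have hρ : 0 < H / P.K := by linarith
  rcases Nat.lt_or_ge k 3 with h | h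
  · interval_cases k
    · rw [xv_one, xv_zero]; constructor <;> nlinarith
    · rw [xv_two, xv_one]; constructor <;> nlinarith
    · rw [show 2 + 1 = 3 + 3 * 0 by rfl, xv_left H (Nat.zero_le _), xv_two]
      push_cast; constructor <;> nlinarith
  · unfold Pm.L at hk
    by_cases h5 : k ≤ 3 * P.N + 4
    · obtain ⟨i, hi⟩ : ∃ i, k = 3 + 3 * i ∨ k = 4 + 3 * i ∨ k = 5 + 3 * i :=
        ⟨(k - 3) / 3, by omega⟩
      rcases hi with rfl | rfl | rfl
      · rw [show 3 + 3 * i + 1 = 4 + 3 * i by omega, xv_mid H (by omega), xv_left H (by omega)]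
        constructor <;> nlinarith
      · rw [show 4 + 3 * i + 1 = 5 + 3 * i by omega, xv_right H (by omega), xv_mid H (by omega)]
        constructor <;> nlinarith
      · rw [show 5 + 3 * i + 1 = 3 + 3 * (i + 1) by omega, xv_left H (by omega),
          xv_right H (by omega)]
        push_cast; constructor <;> nlinarith
    · obtain rfl | rfl | rfl : k = 5 + 3 * P.N ∨ k = 3 * P.N + 6 ∨ k = 3 * P.N + 7 := by omega
      · rw [show 5 + 3 * P.N + 1 = 3 * P.N + 6 by omega, xv_a, xv_right H le_rfl]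
        constructor <;> nlinarith
      · rw [xv_b, xv_a]; constructor <;> nlinarith
      · rw [show 3 * P.N + 7 + 1 = P.L by rfl, xv_end, xv_b]; constructor <;> nlinarith

lemma xv_mono (ok : P.Ok) {m : ℕ} {H : ℝ} (hR : P.Rg m H) {j k : ℕ} (hjk : j ≤ k)
    (hk : k ≤ P.L) : P.xv H j ≤ P.xv H k := by
  induction k, hjk using Nat.le_induction with
  | base => exact le_rfl
  | succ k _ ih =>
    have h := (xv_step ok hR (show k < P.L by omega)).1
    have := ok.rho_big hR; have := ok.V_pos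
    linarith [ih (by omega)]

lemma xv_outside (ok : P.Ok) {m : ℕ} {H : ℝ} (hR : P.Rg m H) {j k : ℕ} (hk : k < P.L)
    (hj : j ≤ P.L) : P.xv H j ≤ P.xv H k ∨ P.xv H (k + 1) ≤ P.xv H j := by
  rcases Nat.lt_or_ge k j with h | h
  · exact Or.inr (xv_mono ok hR h hj)
  · exact Or.inl (xv_mono ok hR h hk.le)

lemma lift_lo {N : ℕ} (r : Row N) : Lo N (lift r) := by
  rcases r with i | p
  · exact lo_zero N
  · exact Lo.e (by have := p.1.1.isLt; omega)

lemma lift_zero {N : ℕ} (r : Row N) : lift r 0 = 0 ∧ lift r 1 = 0 := by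
  rcases r with i | p
  · simp [lift]
  · exact ⟨e_ne (by omega), e_ne (by omega)⟩

lemma norm_lift_le {N : ℕ} (r : Row N) : ‖lift r‖ ≤ 1 := by
  rcases r with i | p <;> simp [lift]

lemma Pm.amp_mem (k : ℕ) : 0 ≤ P.amp k ∧ P.amp k ≤ 1 := by
  unfold Pm.amp; split_ifs <;> norm_num

lemma vert_lo (H : ℝ) (r : Row P.N) (k : ℕ) : Lo P.N (P.vert H r k) :=
  (((Lo.e (by omega)).smul _).add ((Lo.e (by omega)).smul _)).add ((lift_lo r).smul _)

lemma vert_zero (H : ℝ) (r : Row P.N) (k : ℕ) : P.vert H r k 0 = P.xv H k := by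
  simp [Pm.vert, (lift_zero r).1, e_apply]

lemma vert_one (H : ℝ) (r : Row P.N) (k : ℕ) : P.vert H r k 1 = P.yv r k := by
  simp [Pm.vert, (lift_zero r).2, e_apply]

lemma vert_hi (H : ℝ) (r : Row P.N) (k j : ℕ) :
    P.vert H r k (2 + j) = P.amp k * lift r (2 + j) := by
  simp [Pm.vert, e_ne (show 2 + j ≠ 0 by omega), e_ne (show 2 + j ≠ 1 by omega)]

lemma tl_vert (H : ℝ) (r : Row P.N) (k : ℕ) : tl (P.vert H r k) = P.amp k • lift r := by
  rw [tl, vert_zero, vert_one, Pm.vert]; abel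

lemma yv_mid (r : Row P.N) {k : ℕ} (h0 : k ≠ 0) (hL : k < P.L) : P.yv r k = P.ht r :=
  if_neg (by omega)

lemma colk_lt (c : Fin P.N) : colk c + 1 < P.L := by
  have := c.isLt; unfold colk Pm.L; omega

lemma yv_colk (r : Row P.N) (c : Fin P.N) : P.yv r (colk c) = P.ht r :=
  yv_mid r (by unfold colk; omega) (by have := colk_lt (P := P) c; omega)

lemma amp_colk (c : Fin P.N) : P.amp (colk c) = 1 :=
  if_pos (by have := c.isLt; unfold colk Pm.L; omega)

lemma xv_colk (H : ℝ) (c : Fin P.N) : P.xv H (colk c) = ((c.val : ℝ) + 1) * (H / P.K) := by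
  have := c.isLt
  rw [colk, xv_mid H (by omega)]; push_cast; rfl

lemma slot_lt {N : ℕ} (p : Fin N × Fin N) : slot p < N * N := by
  have := p.1.isLt; have := p.2.isLt
  have h1 : min p.1.val p.2.val + 1 ≤ N := by omega
  have h2 := Nat.mul_le_mul_right N h1
  rw [Nat.add_mul, one_mul] at h2
  unfold slot; omega

lemma slot_inj {N : ℕ} {p q : Fin N × Fin N} (h : slot p = slot q) :
    (p.1 = q.1 ∧ p.2 = q.2) ∨ (p.1 = q.2 ∧ p.2 = q.1) := by
  have := p.1.isLt; have := p.2.isLt; have := q.1.isLt; have := q.2.isLt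
  unfold slot at h
  have h1 := congrArg (· / N) h
  rw [Nat.mul_comm, Nat.mul_add_div (by omega), Nat.div_eq_of_lt (by omega),
    Nat.mul_comm, Nat.mul_add_div (by omega), Nat.div_eq_of_lt (by omega)] at h1
  simp only [add_zero] at h1
  rw [h1] at h
  simp only [Fin.ext_iff]
  omega

/-- Height of an end row or a slot. -/
lemma ht_cases (r : Row P.N) :
    (r = bot ∧ P.ht r = 0) ∨ (r = Sum.inl 1 ∧ P.ht r = P.V / 2 - P.D) ∨
    (r = Sum.inl 2 ∧ P.ht r = P.V / 2 + P.J + P.D) ∨ (r = top ∧ P.ht r = P.V) ∨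
    (∃ p, r = Sum.inr p ∧ P.V / 2 ≤ P.ht r ∧ P.ht r ≤ P.V / 2 + P.J) := by
  rcases r with i | p
  · fin_cases i <;> simp [Pm.ht, bot, top]
  · right; right; right; right
    refine ⟨p, rfl, ?_, ?_⟩
    · have : (0 : ℝ) ≤ (slot p.1 : ℝ) := Nat.cast_nonneg _
      simp only [Pm.ht]; linarith
    · have : (slot p.1 : ℝ) ≤ ((P.N * P.N : ℕ) : ℝ) := by exact_mod_cast (slot_lt p.1).le
      simp only [Pm.ht, Pm.J]; push_cast at this; nlinarith

lemma ht_slot (p : {p : Fin P.N × Fin P.N // p.1 ≠ p.2}) :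
    P.V / 2 ≤ P.ht (Sum.inr p) ∧ P.ht (Sum.inr p) ≤ P.V / 2 + P.J := by
  rcases ht_cases (P := P) (Sum.inr p) with ⟨g, _⟩ | ⟨g, _⟩ | ⟨g, _⟩ | ⟨g, _⟩ | ⟨q, _, g⟩
  iterate 4 exact absurd g (by simp [bot, top])
  exact g

lemma ht_base (i : Fin 4) : P.ht (Sum.inl i) = 0 ∨ P.ht (Sum.inl i) = P.V / 2 - P.D ∨
    P.ht (Sum.inl i) = P.V / 2 + P.J + P.D ∨ P.ht (Sum.inl i) = P.V := by
  fin_cases i <;> simp [Pm.ht]

lemma ht_mem (ok : P.Ok) (r : Row P.N) : 0 ≤ P.ht r ∧ P.ht r ≤ P.V := by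
  have := ok.V_big; have := ok.hV; have := ok.J_pos; have := ok.hD
  rcases ht_cases r with ⟨_, h⟩ | ⟨_, h⟩ | ⟨_, h⟩ | ⟨_, h⟩ | ⟨p, _, h, h'⟩ <;>
    constructor <;> linarith

lemma ht_top : P.ht (top : Row P.N) = P.V := rfl

lemma ht_bot : P.ht (bot : Row P.N) = 0 := rfl

/-- Two rows either have the same height and form a pair, or are `300` apart. -/
lemma ht_sep (ok : P.Ok) (r q : Row P.N) :
    r = q ∨ (∃ a b : Fin P.N, ∃ h : a ≠ b, ∃ h' : b ≠ a,
      r = Sum.inr ⟨(a, b), h⟩ ∧ q = Sum.inr ⟨(b, a), h'⟩) ∨ 300 ≤ |P.ht r - P.ht q| := by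
  have := ok.V_big; have := ok.hV; have := ok.J_pos; have := ok.hD
  rcases r with i | ⟨⟨a, b⟩, hab⟩ <;> rcases q with j | ⟨⟨a', b'⟩, hab'⟩
  · fin_cases i <;> fin_cases j <;>
      first
      | exact Or.inl rfl
      | (right; right; simp only [Pm.ht]; rw [le_abs]; simp;
          first | (left; linarith) | (right; linarith))
  · right; right
    obtain ⟨g, g'⟩ := ht_slot (P := P) ⟨(a', b'), hab'⟩
    rw [le_abs]
    rcases ht_base (P := P) i with h | h | h | h <;>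
      first | (left; linarith) | (right; linarith)
  · right; right
    obtain ⟨g, g'⟩ := ht_slot (P := P) ⟨(a, b), hab⟩
    rw [le_abs]
    rcases ht_base (P := P) j with h | h | h | h <;>
      first | (left; linarith) | (right; linarith)
  · by_cases h : slot (a, b) = slot (a', b')
    · rcases slot_inj h with ⟨h1, h2⟩ | ⟨h1, h2⟩
      · left; cases h1; cases h2; rfl
      · right; left; cases h1; cases h2; exact ⟨_, _, hab, hab', rfl, rfl⟩
    · right; right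
      simp only [Pm.ht]
      rcases Nat.lt_or_gt_of_ne h with g | g
      · have : ((slot (a, b) + 1 : ℕ) : ℝ) ≤ (slot (a', b') : ℝ) := by exact_mod_cast g
        push_cast at this; rw [le_abs]; right; linarith
      · have : ((slot (a', b') + 1 : ℕ) : ℝ) ≤ (slot (a, b) : ℝ) := by exact_mod_cast g
        push_cast at this; rw [le_abs]; left; linarith

/-- Distinct nodes of one column are `300` apart. -/
lemma node_sep (ok : P.Ok) {c : Fin P.N} {r q : Row P.N} (hr : isNode c r) (hq : isNode c q)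
    (h : r ≠ q) : 300 ≤ |P.ht r - P.ht q| := by
  rcases ht_sep ok r q with g | ⟨a, b, hab, hba, rfl, rfl⟩ | g
  · exact absurd g h
  · simp only [isNode] at hr hq; exact absurd (hr.trans hq.symm) hab
  · exact g

lemma canon_sep (ok : P.Ok) {r q : Row P.N} (hr : canon r) (hq : canon q) (h : r ≠ q) :
    300 ≤ |P.ht r - P.ht q| := by
  rcases ht_sep ok r q with g | ⟨a, b, hab, hba, rfl, rfl⟩ | g
  · exact absurd g h
  · simp only [canon] at hr hq; exact absurd hq (not_lt.2 hr.le)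
  · exact g

lemma ht_lt_top (ok : P.Ok) {r : Row P.N} (hr : r ≠ top) : P.ht r + 300 ≤ P.V := by
  have := ok.V_big; have := ok.hV; have := ok.J_pos; have := ok.hD
  rcases ht_cases r with ⟨_, h⟩ | ⟨_, h⟩ | ⟨_, h⟩ | ⟨g, _⟩ | ⟨p, _, h, h'⟩
  all_goals first | linarith | exact absurd g hr

lemma nxt_spec (ok : P.Ok) (c : Fin P.N) {r : Row P.N} (hr : r ≠ top) :
    P.IsNext c r (P.nxt c r) := by
  classical
  have hex : ∃ r', P.IsNext c r r' := by
    let S := Finset.univ.filter fun q : Row P.N => isNode c q ∧ P.ht r < P.ht q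
    have hne : S.Nonempty := ⟨top, by
      simp only [S, Finset.mem_filter, Finset.mem_univ, true_and]
      exact ⟨trivial, by rw [ht_top]; linarith [ht_lt_top ok hr]⟩⟩
    obtain ⟨r', hr', hmin⟩ := S.exists_min_image P.ht hne
    simp only [S, Finset.mem_filter, Finset.mem_univ, true_and] at hr' hmin
    exact ⟨r', hr'.1, hr'.2, fun q h1 h2 => hmin q ⟨h1, h2⟩⟩
  rw [Pm.nxt, dif_pos hex]
  exact hex.choose_spec

/-- A gap is either free of lifts, or short and in the middle band. -/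
lemma gap_cases (ok : P.Ok) (c : Fin P.N) {r : Row P.N} (hr : r ≠ top) :
    (lift r = 0 ∧ lift (P.nxt c r) = 0 ∧ P.D ≤ P.ht (P.nxt c r) - P.ht r ∧
      ∀ p, P.ht (Sum.inr p : Row P.N) + 300 ≤ P.ht r ∨
        P.ht (P.nxt c r) + 300 ≤ P.ht (Sum.inr p : Row P.N)) ∨
    (P.ht (P.nxt c r) - P.ht r ≤ P.V / 512 ∧ P.V / 4 ≤ P.ht r ∧
      P.ht (P.nxt c r) ≤ 3 * P.V / 4) := by
  have := ok.V_big; have := ok.hV; have := ok.J_pos; have := ok.hD
  obtain ⟨h1, h2, h3⟩ := nxt_spec ok c hr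
  have e1 : P.ht (Sum.inl 1 : Row P.N) = P.V / 2 - P.D := rfl
  have e2 : P.ht (Sum.inl 2 : Row P.N) = P.V / 2 + P.J + P.D := rfl
  have hb := h3 (Sum.inl 2) trivial
  rw [e2] at hb
  rcases ht_cases r with ⟨rfl, h⟩ | ⟨rfl, h⟩ | ⟨rfl, h⟩ | ⟨g, _⟩ | ⟨p, rfl, h, h'⟩
  · -- from the bottom to the first base row
    left
    have hle : P.ht (P.nxt c bot) ≤ P.V / 2 - P.D := by
      rw [← e1]; exact h3 (Sum.inl 1) trivial (by linarith)
    refine ⟨rfl, ?_, ?_, fun p => Or.inr ?_⟩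
    · rcases hn' : P.nxt c (bot : Row P.N) with i | p
      · rfl
      · rw [hn'] at hle; linarith [(ht_slot (P := P) p).1]
    · rcases ht_cases (P.nxt c (bot : Row P.N)) with
        ⟨_, g⟩ | ⟨_, g⟩ | ⟨_, g⟩ | ⟨_, g⟩ | ⟨_, _, g, _⟩ <;> linarith
    · linarith [(ht_slot (P := P) p).1]
  · right
    have := hb (by linarith)
    refine ⟨by linarith, by linarith, by linarith⟩
  · left
    refine ⟨rfl, ?_, ?_, fun p => Or.inl ?_⟩
    · rcases hn' : P.nxt c (Sum.inl 2 : Row P.N) with i | p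
      · rfl
      · rw [hn'] at h2; linarith [(ht_slot (P := P) p).2]
    · rcases ht_cases (P.nxt c (Sum.inl 2 : Row P.N)) with
        ⟨_, g⟩ | ⟨_, g⟩ | ⟨_, g⟩ | ⟨_, g⟩ | ⟨_, _, _, g⟩ <;> linarith
    · linarith [(ht_slot (P := P) p).2]
  · exact absurd g hr
  · right
    have := hb (by linarith)
    refine ⟨by linarith, by linarith, by linarith⟩

end Vale.Agent.P208
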