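import Vale.Agent.P208.Analysis

/-!
# A saturated node has a child with more vertical stretch
-/

noncomputable section

open scoped InnerProductSpace

namespace Vale.Agent.P208

variable {P : Pm}

/-- Potential for the excess length along a column. -/
def Pm.pot (P : Pm) (y : ℝ) : ℝ := if y < P.V / 2 then 0 else if y ≤ P.V / 2 + P.J then 1 else 2

lemma pot_mono (ok : P.Ok) {a b : ℝ} (h : a ≤ b) : P.pot a ≤ P.pot b := by
  have := ok.J_pos
  unfold Pm.pot; split_ifs <;> linarith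

lemma gap_sq (ok : P.Ok) (H : ℝ) {c : Fin P.N} {r : Row P.N} (hn : isNode c r) (hr : r ≠ top) :
    ‖P.gap H c r‖ ^ 2 ≤ (P.ht (P.nxt c r) - P.ht r) * ((P.ht (P.nxt c r) - P.ht r)
      + (P.pot (P.ht (P.nxt c r)) - P.pot (P.ht r)) / P.D) := by
  obtain ⟨n1, n2, -⟩ := nxt_spec ok c hr
  obtain ⟨g0, g1, g2, -⟩ := gap_coords H c r
  have hD : 0 < P.D := by linarith [ok.hD]
  have hp := pot_mono ok n2.le
  rw [norm_sq_split, g0, g1, g2]
  by_cases heq : lift r = lift (P.nxt c r)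
  · rw [heq, sub_self, norm_zero]
    have : 0 ≤ (P.ht (P.nxt c r) - P.ht r)
        * ((P.pot (P.ht (P.nxt c r)) - P.pot (P.ht r)) / P.D) :=
      mul_nonneg (by linarith) (div_nonneg (by linarith) hD.le)
    linarith
  · have hl : ‖lift (P.nxt c r) - lift r‖ ^ 2 ≤ 1 := by
      rcases lift_node hn with h | h <;> rcases lift_node n1 with h' | h' <;> simp [h, h']
    obtain ⟨hJ, hV, hb⟩ := And.intro ok.J_pos (And.intro ok.V_big ok.hD)
    have hgood : P.D ≤ P.ht (P.nxt c r) - P.ht r ∧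
        1 ≤ P.pot (P.ht (P.nxt c r)) - P.pot (P.ht r) := by
      rcases r with i | p <;> rcases hq : P.nxt c _ with j | q
      · exact absurd (by rw [hq]; rfl) heq
      · rw [hq] at n2
        obtain ⟨a, b⟩ := ht_slot (P := P) q
        unfold Pm.pot
        rw [if_neg (not_lt.2 a), if_pos b]
        rcases ht_base (P := P) i with h | h | h | h <;> rw [h] at n2 ⊢
        · rw [if_pos (by linarith)]; constructor <;> linarith [ok.hV]
        · rw [if_pos (by linarith)]; constructor <;> linarith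
        · exfalso; linarith [ok.hV]
        · exfalso; linarith [ok.hV]
      · rw [hq] at n2
        obtain ⟨a, b⟩ := ht_slot (P := P) p
        unfold Pm.pot
        rw [if_neg (not_lt.2 a), if_pos b]
        rcases ht_base (P := P) j with h | h | h | h <;> rw [h] at n2 ⊢
        · exfalso; linarith [ok.hV]
        · exfalso; linarith [ok.hV]
        · rw [if_neg (by linarith), if_neg (by linarith)]; constructor <;> linarith
        · have := ok.hV
          rw [if_neg (by linarith), if_neg (by linarith)]; constructor <;> linarith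
      · rw [hq] at n1
        exact absurd (by rw [hq]; simp only [isNode] at hn n1; simp [lift, hn, n1]) heq
    obtain ⟨h1, h2⟩ := hgood
    have : 1 ≤ (P.ht (P.nxt c r) - P.ht r)
        * ((P.pot (P.ht (P.nxt c r)) - P.pot (P.ht r)) / P.D) := by
      rw [mul_div_assoc', le_div_iff₀ hD]
      calc 1 * P.D = P.D * 1 := mul_comm _ _
        _ ≤ _ := mul_le_mul h1 h2 zero_le_one (by linarith)
    linarith

variable {F : Type*} [NormedAddCommGroup F] [InnerProductSpace ℝ F]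

/-- The rate bound along a column. -/
lemma gap_stretch (ok : P.Ok) {n m : ℕ} {H L β : ℝ} (hR : P.Rg m H) {f : E → F}
    (hf : Bi L (P.pts (n + 1) m H) f) (hL : 0 ≤ L) {c : Fin P.N} {r : Row P.N}
    (hhost : P.Host m c r)
    (hβ : P.vst ((P.child m H (.col c r)).pull P.N f) (P.child m H (.col c r)).Hc ≤ β) :
    ‖f (P.vert H (P.nxt c r) (colk c)) - f (P.vert H r (colk c))‖ ^ 2
      ≤ (β + 3 * L ^ 2 * P.nu) * ‖P.gap H c r‖ ^ 2 := by
  obtain ⟨hm, hn, hr⟩ := hhost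
  obtain ⟨-, -, e3, e4⟩ := col_ends ok hR hn hr (m := m)
  have hv : P.Valid m (.col c r) := ⟨hm, hn, hr⟩
  have ho := col_orth ok H hn hr (m := m)
  have hcl : colk c ≤ P.L := by have := colk_lt (P := P) c; omega
  have htop : P.vert H r (colk c) + (1 - P.nu) • P.gap H c r ∈ P.pts (n + 1) m H := by
    rw [← e4]; exact P.child_mem hv (P.vert_mem _ _ _ _ (by unfold Pm.L; omega))
  have hb := bi_pull ok hR hv hf
  obtain ⟨b1, b2⟩ := hb _ (P.vert_mem _ _ _ top (show 4 ≤ P.L by unfold Pm.L; omega))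
    _ (P.vert_mem _ _ _ bot (show 4 ≤ P.L by unfold Pm.L; omega))
  have h2 := (hf _ (P.vert_mem (n + 1) m H (P.nxt c r) hcl) _ htop).2
  have hd : ‖P.vert H (P.nxt c r) (colk c) - (P.vert H r (colk c) + (1 - P.nu) • P.gap H c r)‖
      = P.nu * ‖P.gap H c r‖ := by
    have : P.vert H (P.nxt c r) (colk c) - (P.vert H r (colk c) + (1 - P.nu) • P.gap H c r)
        = P.nu • P.gap H c r := by rw [Pm.gap]; module
    rw [this, norm_smul, Real.norm_of_nonneg ok.hnu.le]
  rw [hd] at h2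
  obtain ⟨C, hC⟩ : ∃ C, P.child m H (.col c r) = C := ⟨_, rfl⟩
  have hsV : C.s * P.V = (1 - P.nu) * ‖P.gap H c r‖ := by
    rw [← hC]; simp only [Pm.child]; field_simp [ok.V_pos.ne']
  simp only [hC] at e3 e4
  rw [hC] at ho hβ b2
  change ‖C.pull P.N f (P.pT C.Hc) - C.pull P.N f (P.pM C.Hc)‖
    ≤ L * ‖P.pT C.Hc - P.pM C.Hc‖ at b2
  have hdT : ‖P.pT C.Hc - P.pM C.Hc‖ = P.V := by
    rw [Pm.pT, Pm.pM, top, bot, vert_mid, vert_mid]
    simp [Pm.ht, norm_smul, abs_of_pos ok.V_pos]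
  rw [hdT] at b2
  set w := ‖C.pull P.N f (P.pT C.Hc) - C.pull P.N f (P.pM C.Hc)‖ with hw
  have h1 : ‖f (P.vert H r (colk c) + (1 - P.nu) • P.gap H c r) - f (P.vert H r (colk c))‖
      = (1 - P.nu) * ‖P.gap H c r‖ * (w / P.V) := by
    rw [← e4, ← e3, pull_norm _ ho.s_pos, ← hw, ← hsV]
    field_simp [ok.V_pos.ne']
  have hq : w / P.V ≤ L := (div_le_iff₀ ok.V_pos).2 b2
  have hq0 : 0 ≤ w / P.V := div_nonneg (norm_nonneg _) ok.V_pos.le
  have hq2 : (w / P.V) ^ 2 ≤ β := by rw [div_pow]; exact hβ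
  have hν := ok.hnu
  have hν' := ok.hnu'
  have hb3 : ‖f (P.vert H (P.nxt c r) (colk c)) - f (P.vert H r (colk c))‖
      ≤ ‖P.gap H c r‖ * (w / P.V + L * P.nu) := by
    have h3 := norm_sub_le_norm_sub_add_norm_sub (f (P.vert H (P.nxt c r) (colk c)))
      (f (P.vert H r (colk c) + (1 - P.nu) • P.gap H c r)) (f (P.vert H r (colk c)))
    rw [h1] at h3
    linarith [mul_nonneg (mul_nonneg hν.le (norm_nonneg (P.gap H c r))) hq0]
  calc _ ≤ (‖P.gap H c r‖ * (w / P.V + L * P.nu)) ^ 2 :=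
        pow_le_pow_left₀ (norm_nonneg _) hb3 2
    _ = ‖P.gap H c r‖ ^ 2 * ((w / P.V) ^ 2 + 2 * (w / P.V) * L * P.nu + L ^ 2 * P.nu * P.nu) := by
        ring
    _ ≤ ‖P.gap H c r‖ ^ 2 * (β + 3 * L ^ 2 * P.nu) := by
        refine mul_le_mul_of_nonneg_left ?_ (sq_nonneg _)
        have t1 := mul_le_mul_of_nonneg_left hq (mul_nonneg hL hν.le)
        have t2 : L ^ 2 * P.nu * P.nu ≤ L ^ 2 * P.nu * 1 :=
          mul_le_mul_of_nonneg_left (by linarith) (by positivity)
        linarith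
    _ = _ := mul_comm _ _

lemma col_cost (ok : P.Ok) {H R : ℝ} (hR0 : 0 ≤ R) {f : E → F} {c : Fin P.N}
    (hgap : ∀ r, isNode c r → r ≠ top →
      ‖f (P.vert H (P.nxt c r) (colk c)) - f (P.vert H r (colk c))‖ ^ 2 ≤ R * ‖P.gap H c r‖ ^ 2)
    {p q : Row P.N} (hp : isNode c p) (hq : isNode c q) (hpq : P.ht p ≤ P.ht q) :
    ‖f (P.vert H q (colk c)) - f (P.vert H p (colk c))‖ ^ 2 ≤ (P.ht q - P.ht p) *
      (R * ((P.ht q - P.ht p) + (P.pot (P.ht q) - P.pot (P.ht p)) / P.D)) := by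
  classical
  suffices ∀ (d : ℕ) (p : Row P.N), isNode c p → P.ht p ≤ P.ht q →
      (Finset.univ.filter fun z : Row P.N => isNode c z ∧ P.ht p < P.ht z).card ≤ d →
      ‖f (P.vert H q (colk c)) - f (P.vert H p (colk c))‖ ^ 2 ≤ (P.ht q - P.ht p) *
        (R * ((P.ht q - P.ht p) + (P.pot (P.ht q) - P.pot (P.ht p)) / P.D)) from
    this _ p hp hpq le_rfl
  intro d
  induction d with
  | zero =>
    intro p hp hpq hd
    rcases hpq.eq_or_lt with h | h
    · by_cases hpq' : p = q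
      · subst hpq'; simp
      · have := node_sep ok hp hq hpq'
        rw [h, sub_self, abs_zero] at this; linarith
    · exfalso
      have : q ∈ Finset.univ.filter fun z : Row P.N => isNode c z ∧ P.ht p < P.ht z := by
        simp [hq, h]
      have := Finset.card_pos.2 ⟨q, this⟩
      omega
  | succ d ih =>
    intro p hp hpq hd
    rcases hpq.eq_or_lt with h | h
    · by_cases hpq' : p = q
      · subst hpq'; simp
      · have := node_sep ok hp hq hpq'
        rw [h, sub_self, abs_zero] at this; linarith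
    · have hpt : p ≠ top := by
        rintro rfl; rw [ht_top] at h; linarith [(ht_mem ok q).2]
      obtain ⟨n1, n2, n3⟩ := nxt_spec ok c hpt
      have hle := n3 q hq h
      have hcard : (Finset.univ.filter fun z : Row P.N =>
          isNode c z ∧ P.ht (P.nxt c p) < P.ht z).card ≤ d := by
        have : (Finset.univ.filter fun z : Row P.N => isNode c z ∧ P.ht (P.nxt c p) < P.ht z).card
            < (Finset.univ.filter fun z : Row P.N => isNode c z ∧ P.ht p < P.ht z).card := by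
          refine Finset.card_lt_card (Finset.ssubset_iff_of_subset ?_ |>.2 ⟨P.nxt c p, ?_, ?_⟩)
          · intro z hz
            simp only [Finset.mem_filter, Finset.mem_univ, true_and] at hz ⊢
            exact ⟨hz.1, n2.trans hz.2⟩
          · simp [n1, n2]
          · simp
        omega
      have h1 : ‖f (P.vert H (P.nxt c p) (colk c)) - f (P.vert H p (colk c))‖ ^ 2
          ≤ (P.ht (P.nxt c p) - P.ht p) * (R * ((P.ht (P.nxt c p) - P.ht p)
            + (P.pot (P.ht (P.nxt c p)) - P.pot (P.ht p)) / P.D)) :=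
        ((hgap p hp hpt).trans (mul_le_mul_of_nonneg_left (gap_sq ok H hp hpt) hR0)).trans_eq
          (by ring)
      have hD : 0 < P.D := by linarith [ok.hD]
      have := cost_add (sub_nonneg.2 n2.le) (sub_nonneg.2 hle)
        (mul_nonneg hR0 (add_nonneg (sub_nonneg.2 n2.le)
          (div_nonneg (sub_nonneg.2 (pot_mono ok n2.le)) hD.le)))
        (mul_nonneg hR0 (add_nonneg (sub_nonneg.2 hle)
          (div_nonneg (sub_nonneg.2 (pot_mono ok hle)) hD.le))) h1
        (ih (P.nxt c p) n1 hle hcard)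
      rw [show f (P.vert H q (colk c)) - f (P.vert H p (colk c))
          = (f (P.vert H (P.nxt c p) (colk c)) - f (P.vert H p (colk c)))
            + (f (P.vert H q (colk c)) - f (P.vert H (P.nxt c p) (colk c))) by abel]
      refine this.trans_eq ?_
      ring

/-- Parameter requirements for the gain. -/
structure Pm.Gain (P : Pm) (L η g : ℝ) : Prop where
  hL : 1 ≤ L
  hη : 0 ≤ η
  hg : 0 ≤ g
  hgV : g * P.V * P.J ≤ 1 / 256
  hνV : P.nu * (L ^ 2 * P.V * P.J) ≤ 1 / 1000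
  hD : 1000 * L ^ 2 * P.J ≤ P.D
  hηJ : η * (L * P.J) ≤ 1 / 1000
  hηK : 65 * L ^ 2 * P.V ^ 2 * ((P.N : ℝ) + 2) ≤ η ^ 2 * P.K

/-- If no column gap gains, the node values along each column are linear up to `1/4`. -/
lemma col_linear (ok : P.Ok) {n m : ℕ} {H L S η g : ℝ} (hR : P.Rg m H) (hg : P.Gain L η g)
    {f : E → F} (hf : Bi L (P.pts (n + 1) m H) f) (hT : P.Tight H f S) (hsat : P.Sat f H L S)
    (hS0 : 0 ≤ S) (hS : S ≤ 2 * L) (hm : m < P.M)
    (hno : ∀ c r, P.Host m c r →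
      P.vst ((P.child m H (.col c r)).pull P.N f) (P.child m H (.col c r)).Hc ≤ P.vst f H + g)
    {c : Fin P.N} {p q : {p : Fin P.N × Fin P.N // p.1 ≠ p.2}} (hp : p.1.1 = c) (hq : q.1.1 = c)
    (hpq : P.ht (Sum.inr p) ≤ P.ht (Sum.inr q)) :
    ‖(f (P.vert H (Sum.inr q) (colk c)) - f (P.vert H (Sum.inr p) (colk c)))
      - ((P.ht (Sum.inr q) - P.ht (Sum.inr p)) / P.V) • (f (P.pT H) - f (P.pM H))‖
      ≤ 1 / 4 + 2 * η := by
  have hV := ok.V_pos
  have hJ := ok.J_pos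
  have hL := hg.hL
  have hD : 0 < P.D := by linarith [ok.hD]
  have hν := ok.hnu
  have hck := colk_lt (P := P) c
  have hck' : 7 ≤ colk c := by unfold colk; omega
  have hck3 : colk c ≤ 3 * P.N + 5 := by have := c.isLt; unfold colk; omega
  set b := P.vst f H with hb
  set R := b + g + 3 * L ^ 2 * P.nu with hR'
  have hb0 : 0 ≤ b := by rw [hb, Pm.vst]; positivity
  have hbB : ‖f (P.pT H) - f (P.pM H)‖ ^ 2 = b * P.V ^ 2 := by
    rw [hb, Pm.vst, div_mul_cancel₀ _ (pow_ne_zero 2 hV.ne')]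
  have h4 : 4 ≤ P.L := by unfold Pm.L; omega
  have hBle : ‖f (P.pT H) - f (P.pM H)‖ ≤ L * P.V := by
    refine ((hf _ (P.vert_mem _ _ _ top h4) _ (P.vert_mem _ _ _ bot h4)).2).trans_eq ?_
    congr 1
    rw [top, bot, vert_mid, vert_mid]
    simp [Pm.ht, norm_smul, abs_of_pos hV]
  have hR0 : 0 ≤ R := by have := hg.hg; positivity
  have hgap : ∀ r, isNode c r → r ≠ top →
      ‖f (P.vert H (P.nxt c r) (colk c)) - f (P.vert H r (colk c))‖ ^ 2
        ≤ R * ‖P.gap H c r‖ ^ 2 := fun r hn hr =>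
    gap_stretch ok hR hf (by linarith) ⟨hm, hn, hr⟩ (hno c r ⟨hm, hn, hr⟩)
  have hpn : isNode c (Sum.inr p : Row P.N) := hp
  have hqn : isNode c (Sum.inr q : Row P.N) := hq
  obtain ⟨p0, p1⟩ := ht_slot (P := P) p
  obtain ⟨q0, q1⟩ := ht_slot (P := P) q
  set Bc := f (P.vert H top (colk c)) - f (P.vert H bot (colk c)) with hBc
  have hBcd : ‖Bc - (f (P.pT H) - f (P.pM H))‖ ≤ 2 * η := by
    have a1 := rigid_mid ok hR hT hsat hS0 hS hg.hη hg.hηK (top : Row P.N) (j := 4) (k := colk c)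
      (by norm_num) (by omega) (by omega) hck3
    have a2 := rigid_mid ok hR hT hsat hS0 hS hg.hη hg.hηK (bot : Row P.N) (j := 4) (k := colk c)
      (by norm_num) (by omega) (by omega) hck3
    have : Bc - (f (P.pT H) - f (P.pM H))
        = (f (P.vert H top (colk c)) - f (P.vert H top 4)
            - (P.xv H (colk c) - P.xv H 4) • P.Z f H)
          - (f (P.vert H bot (colk c)) - f (P.vert H bot 4)
            - (P.xv H (colk c) - P.xv H 4) • P.Z f H) := by
      rw [hBc, Pm.pT, Pm.pM]; abel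
    rw [this]
    exact (norm_sub_le _ _).trans (by linarith)
  set Y := P.V⁻¹ • Bc with hY
  have hsum : (f (P.vert H (Sum.inr p) (colk c)) - f (P.vert H bot (colk c)))
      + (f (P.vert H (Sum.inr q) (colk c)) - f (P.vert H (Sum.inr p) (colk c)))
      + (f (P.vert H top (colk c)) - f (P.vert H (Sum.inr q) (colk c)))
      = ((P.ht (Sum.inr p) - P.ht bot) + (P.ht (Sum.inr q) - P.ht (Sum.inr p))
          + (P.ht top - P.ht (Sum.inr q))) • Y := by
    rw [show (P.ht (Sum.inr p) - P.ht bot) + (P.ht (Sum.inr q) - P.ht (Sum.inr p))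
          + (P.ht (top : Row P.N) - P.ht (Sum.inr q)) = P.V by rw [ht_bot, ht_top]; ring,
      hY, smul_smul, mul_inv_cancel₀ hV.ne', one_smul, hBc]
    abel
  have hm0 := ht_mem ok (Sum.inr p : Row P.N)
  have hm1 := ht_mem ok (Sum.inr q : Row P.N)
  have c1 := col_cost ok hR0 hgap (show isNode c (bot : Row P.N) from trivial) hpn
    (by rw [ht_bot]; exact hm0.1)
  have c2 := col_cost ok hR0 hgap hpn hqn hpq
  have c3 := col_cost ok hR0 hgap hqn (show isNode c (top : Row P.N) from trivial)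
    (by rw [ht_top]; exact hm1.2)
  have hpot0 : P.pot 0 = 0 := by rw [Pm.pot, if_pos (by linarith)]
  have hpotV : P.pot P.V = 2 := by
    have := ok.hV
    rw [Pm.pot, if_neg (by linarith), if_neg (by linarith [ok.hD])]
  have h := three_term (Z := Y)
    (show 0 ≤ P.ht (Sum.inr p) - P.ht bot by rw [ht_bot]; linarith [hm0.1]) (sub_nonneg.2 hpq)
    (show 0 ≤ P.ht (top : Row P.N) - P.ht (Sum.inr q) by rw [ht_top]; linarith [hm1.2])
    (mul_nonneg hR0 (add_nonneg (by rw [ht_bot]; linarith [hm0.1])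
      (div_nonneg (sub_nonneg.2 (pot_mono ok (by rw [ht_bot]; exact hm0.1))) hD.le)))
    (mul_nonneg hR0 (add_nonneg (by rw [ht_top]; linarith [hm1.2])
      (div_nonneg (sub_nonneg.2 (pot_mono ok (by rw [ht_top]; exact hm1.2))) hD.le)))
    c1 c2 c3 hsum
  rw [ht_bot, ht_top, hpot0, hpotV] at h
  set Δ := P.ht (Sum.inr q) - P.ht (Sum.inr p) with hΔ
  have hΔ0 : 0 ≤ Δ := sub_nonneg.2 hpq
  have hΔJ : Δ ≤ P.J := by linarith
  have hY2 : b * P.V - 4 * η * L ≤ P.V * ‖Y‖ ^ 2 := by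
    have h1 : ‖f (P.pT H) - f (P.pM H)‖ ≤ ‖Bc‖ + 2 * η := by
      have := norm_sub_norm_le (f (P.pT H) - f (P.pM H)) Bc
      rw [norm_sub_rev (f (P.pT H) - f (P.pM H)) Bc] at this
      linarith
    have h2 : b * P.V ^ 2 - 4 * η * (L * P.V) ≤ ‖Bc‖ ^ 2 := by
      rw [← hbB]
      have hB0 := norm_nonneg (f (P.pT H) - f (P.pM H))
      have hη0 := hg.hη
      rcases le_or_gt ‖f (P.pT H) - f (P.pM H)‖ (2 * η) with h' | h'
      · have a := mul_le_mul_of_nonneg_right h' hB0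
        have b := mul_le_mul_of_nonneg_left hBle (show (0:ℝ) ≤ 2 * η by linarith)
        have c' := mul_nonneg hη0 (mul_nonneg (show (0:ℝ) ≤ L by linarith) hV.le)
        linarith [sq_nonneg ‖Bc‖]
      · have a := pow_le_pow_left₀ (sub_nonneg.2 h'.le) (show ‖f (P.pT H) - f (P.pM H)‖ - 2 * η
          ≤ ‖Bc‖ by linarith) 2
        have b := mul_le_mul_of_nonneg_left hBle (show (0:ℝ) ≤ 4 * η by linarith)
        linarith [sq_nonneg η]
    rw [hY, norm_smul, mul_pow, norm_inv, Real.norm_of_nonneg hV.le]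
    calc b * P.V - 4 * η * L = (b * P.V ^ 2 - 4 * η * (L * P.V)) / P.V := by field_simp
      _ ≤ ‖Bc‖ ^ 2 / P.V := by gcongr
      _ = _ := by field_simp
  have hbL : b ≤ L ^ 2 := by
    rw [hb, Pm.vst, div_le_iff₀ (pow_pos hV 2), ← mul_pow]
    exact pow_le_pow_left₀ (norm_nonneg _) hBle 2
  have hdev : R * (P.V + 2 / P.D) - P.V * ‖Y‖ ^ 2
      ≤ g * P.V + 3 * L ^ 2 * P.nu * P.V + 10 * L ^ 2 / P.D + 4 * η * L := by
    have hL2 : 1 ≤ L ^ 2 := one_le_pow₀ hL
    have hg1 : g ≤ 1 := by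
      have h1 : 1 ≤ P.V * P.J := by
        calc (1 : ℝ) = 1 * 1 := by ring
          _ ≤ _ := mul_le_mul (by linarith [ok.V_big]) (by linarith) zero_le_one hV.le
      have h2 := mul_le_mul_of_nonneg_left h1 hg.hg
      linarith [hg.hgV]
    have hR5 : R ≤ 5 * L ^ 2 := by
      have : L ^ 2 * P.nu ≤ L ^ 2 * (1 / 2) :=
        mul_le_mul_of_nonneg_left ok.hnu' (sq_nonneg _)
      linarith
    have h1 : R * (2 / P.D) ≤ 10 * L ^ 2 / P.D := by
      rw [mul_div_assoc']
      exact div_le_div_of_nonneg_right (by linarith) hD.le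
    rw [mul_add, hR']
    linarith
  have hfin : ‖(f (P.vert H (Sum.inr q) (colk c)) - f (P.vert H (Sum.inr p) (colk c))) - Δ • Y‖
      ≤ 1 / 4 := by
    refine (sq_le_sq₀ (norm_nonneg _) (by norm_num)).1 (h.trans ?_)
    have hmain : R * (P.V + 2 / P.D) - P.V * ‖Y‖ ^ 2
        = R * (P.ht (Sum.inr p) - 0 + (P.pot (P.ht (Sum.inr p)) - 0) / P.D)
          + R * (Δ + (P.pot (P.ht (Sum.inr q)) - P.pot (P.ht (Sum.inr p))) / P.D)
          + R * (P.V - P.ht (Sum.inr q) + (2 - P.pot (P.ht (Sum.inr q))) / P.D)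
          - (P.ht (Sum.inr p) - 0 + Δ + (P.V - P.ht (Sum.inr q))) * ‖Y‖ ^ 2 := by
      rw [hΔ]; ring
    rw [← hmain]
    have t3 : 10 * L ^ 2 / P.D * P.J ≤ 1 / 100 := by
      rw [div_mul_eq_mul_div, div_le_iff₀ hD]; linarith [hg.hD]
    have t : 0 ≤ g * P.V + 3 * L ^ 2 * P.nu * P.V + 10 * L ^ 2 / P.D + 4 * η * L := by
      have := hg.hg; have := hg.hη; have : 0 ≤ L := by linarith
      positivity
    calc Δ * (R * (P.V + 2 / P.D) - P.V * ‖Y‖ ^ 2)
        ≤ Δ * (g * P.V + 3 * L ^ 2 * P.nu * P.V + 10 * L ^ 2 / P.D + 4 * η * L) :=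
          mul_le_mul_of_nonneg_left hdev hΔ0
      _ ≤ P.J * (g * P.V + 3 * L ^ 2 * P.nu * P.V + 10 * L ^ 2 / P.D + 4 * η * L) :=
          mul_le_mul_of_nonneg_right hΔJ t
      _ ≤ (1 / 4) ^ 2 := by linarith [hg.hgV, hg.hνV, hg.hηJ]
  have hswap : ‖Δ • Y - (Δ / P.V) • (f (P.pT H) - f (P.pM H))‖ ≤ 2 * η := by
    rw [hY, smul_smul, ← div_eq_mul_inv, ← smul_sub, norm_smul,
      Real.norm_of_nonneg (div_nonneg hΔ0 hV.le)]
    have : Δ / P.V ≤ 1 := by
      rw [div_le_one hV]; linarith [ok.hV, ok.hD]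
    exact (mul_le_of_le_one_left (norm_nonneg _) this).trans hBcd
  exact norm_sub_le_of_le_add hfin hswap
where
  norm_sub_le_of_le_add {F : Type _} [NormedAddCommGroup F] {u v w : F} {a b : ℝ}
      (h1 : ‖u - v‖ ≤ a) (h2 : ‖v - w‖ ≤ b) : ‖u - w‖ ≤ a + b :=
    (norm_sub_le_norm_sub_add_norm_sub u v w).trans (add_le_add h1 h2)

/-- The packing bound in `ℝ^k`. -/
def packN (k : ℕ) (R : ℝ) : ℕ := (2 * ⌈R * (2 * ((k : ℝ) + 1))⌉.toNat + 2) ^ k

lemma packing {k : ℕ} {R : ℝ} {ι : Type*} [Fintype ι] (hR : 0 ≤ R)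
    (v : ι → EuclideanSpace ℝ (Fin k)) (hball : ∀ a b, ‖v a - v b‖ ≤ R)
    (hsep : ∀ a b, a ≠ b → 1 / 2 ≤ ‖v a - v b‖) : Fintype.card ι ≤ packN k R := by
  classical
  rcases isEmpty_or_nonempty ι with h | ⟨⟨a₀⟩⟩
  · simp
  set G : ℕ := ⌈R * (2 * ((k : ℝ) + 1))⌉.toNat with hG
  set w : ℝ := 2 * ((k : ℝ) + 1) with hw
  have hw0 : 0 < w := by positivity
  have hGR : R * w ≤ G := by
    have h1 : 0 ≤ ⌈R * w⌉ := Int.ceil_nonneg (by positivity)
    calc R * w ≤ (⌈R * w⌉ : ℝ) := Int.le_ceil _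
      _ = (G : ℝ) := by rw [hG]; exact_mod_cast (Int.toNat_of_nonneg h1).symm
  let key : ι → (Fin k → ℤ) := fun a i => ⌊(v a i - v a₀ i) * w⌋
  have hinj : Function.Injective key := by
    intro a b hab
    by_contra hne
    have h := hsep a b hne
    have hc : ∀ i, (v a i - v b i) ^ 2 ≤ (1 / w) ^ 2 := by
      intro i
      have hi := Int.abs_sub_lt_one_of_floor_eq_floor (congrFun hab i)
      rw [show (v a i - v a₀ i) * w - (v b i - v a₀ i) * w = (v a i - v b i) * w by ring,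
        abs_mul, abs_of_pos hw0] at hi
      rw [← sq_abs (v a i - v b i)]
      refine pow_le_pow_left₀ (abs_nonneg _) ?_ 2
      rw [le_div_iff₀ hw0]; exact hi.le
    have hsum : ‖v a - v b‖ ^ 2 ≤ (k : ℝ) * (1 / w) ^ 2 := by
      rw [EuclideanSpace.norm_sq_eq]
      calc ∑ i, ‖(v a - v b) i‖ ^ 2 ≤ ∑ _i : Fin k, (1 / w) ^ 2 :=
            Finset.sum_le_sum fun i _ => by simpa [sq_abs] using hc i
        _ = _ := by simp
    have h4 : (k : ℝ) * (1 / w) ^ 2 < 1 / 4 := by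
      rw [div_pow, one_pow, mul_one_div, div_lt_iff₀ (by positivity), hw]
      nlinarith [(Nat.cast_nonneg k : (0 : ℝ) ≤ k)]
    have h5 : (1 / 4 : ℝ) ≤ ‖v a - v b‖ ^ 2 := by
      calc (1 / 4 : ℝ) = (1 / 2) ^ 2 := by norm_num
        _ ≤ _ := pow_le_pow_left₀ (by norm_num) h 2
    linarith
  let box : Finset (Fin k → ℤ) := Fintype.piFinset fun _ => Finset.Icc (-(G : ℤ) - 1) G
  have hmem : ∀ a ∈ (Finset.univ : Finset ι), key a ∈ box := by
    intro a _
    refine Fintype.mem_piFinset.2 fun i => Finset.mem_Icc.2 ?_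
    have h1 : |v a i - v a₀ i| ≤ R := by
      refine le_trans ?_ (hball a a₀)
      have := PiLp.norm_apply_le (v a - v a₀) i
      simpa using this
    have h2 : |(v a i - v a₀ i) * w| ≤ G := by
      rw [abs_mul, abs_of_pos hw0]
      exact (mul_le_mul_of_nonneg_right h1 hw0.le).trans hGR
    rw [abs_le] at h2
    constructor
    · refine Int.le_floor.2 ?_; push_cast; linarith
    · refine Int.floor_le_iff.2 ?_ ; push_cast; linarith
  have := Finset.card_le_card_of_injOn key hmem hinj.injOn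
  rw [Finset.card_univ] at this
  refine this.trans (le_of_eq ?_)
  simp only [box, Fintype.card_piFinset, Int.card_Icc, Finset.prod_const, Finset.card_univ,
    Fintype.card_fin, packN]
  congr 1
  omega

/-- Some centred child of a saturated node has vertical stretch larger by `g`. -/
theorem gain (ok : P.Ok) {k n m : ℕ} {H L S η g : ℝ} (hR : P.Rg m H) (hg : P.Gain L η g)
    (hN : packN k (2 * L + 2) < P.N) {f : E → EuclideanSpace ℝ (Fin k)}
    (hf : Bi L (P.pts (n + 1) m H) f) (hT : P.Tight H f S) (hsat : P.Sat f H L S)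
    (hS0 : 0 ≤ S) (hS : S ≤ 2 * L) (hm : m < P.M) :
    ∃ c r, P.Host m c r ∧ P.vst f H + g <
      P.vst ((P.child m H (.col c r)).pull P.N f) (P.child m H (.col c r)).Hc := by
  by_contra hcon
  have hno : ∀ c r, P.Host m c r →
      P.vst ((P.child m H (.col c r)).pull P.N f) (P.child m H (.col c r)).Hc ≤ P.vst f H + g :=
    fun c r h => not_lt.1 fun h' => hcon ⟨c, r, h, h'⟩
  set W : {p : Fin P.N × Fin P.N // p.1 ≠ p.2} → EuclideanSpace ℝ (Fin k) := fun p =>
    f (P.vert H (Sum.inr p) (colk p.1.1)) - P.xv H (colk p.1.1) • P.Z f H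
      - (P.ht (Sum.inr p) / P.V) • (f (P.pT H) - f (P.pM H)) with hW
  have hlin : ∀ p q : {p : Fin P.N × Fin P.N // p.1 ≠ p.2}, p.1.1 = q.1.1 →
      ‖W p - W q‖ ≤ 1 / 4 + 2 * η := by
    intro p q hpq
    wlog hle : P.ht (Sum.inr q) ≤ P.ht (Sum.inr p) generalizing p q with hw
    · rw [norm_sub_rev]; exact hw q p hpq.symm (le_of_not_ge hle)
    have h := col_linear ok hR hg hf hT hsat hS0 hS hm hno (c := p.1.1) hpq.symm rfl hle
    refine le_of_eq_of_le ?_ h
    congr 1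
    simp only [hW, ← hpq, sub_div, sub_smul]
    abel
  have hclash : ∀ (a b : Fin P.N) (hab : a ≠ b) (hba : b ≠ a),
      7 / 5 - η ≤ ‖W ⟨(a, b), hab⟩ - W ⟨(b, a), hba⟩‖ ∧
        ‖W ⟨(a, b), hab⟩ - W ⟨(b, a), hba⟩‖ ≤ 3 / 2 * L + η := by
    intro a b hab hba
    have hht : P.ht (Sum.inr ⟨(a, b), hab⟩ : Row P.N) = P.ht (Sum.inr ⟨(b, a), hba⟩ : Row P.N) := by
      simp only [Pm.ht, slot, min_comm a.val, max_comm a.val]
    have hka := colk_lt (P := P) a
    have hkb := colk_lt (P := P) b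
    have ha3 : 3 ≤ colk a ∧ colk a ≤ 3 * P.N + 5 := by
      have := a.isLt; unfold colk; omega
    have hb3 : 3 ≤ colk b ∧ colk b ≤ 3 * P.N + 5 := by
      have := b.isLt; unfold colk; omega
    have hr := rigid_mid ok hR hT hsat hS0 hS hg.hη hg.hηK
      (Sum.inr ⟨(a, b), hab⟩ : Row P.N) ha3.1 ha3.2 hb3.1 hb3.2
    obtain ⟨l1, l2⟩ := hf _
      (P.vert_mem (n + 1) m H (Sum.inr ⟨(a, b), hab⟩) (show colk b ≤ P.L by omega)) _
      (P.vert_mem (n + 1) m H (Sum.inr ⟨(b, a), hba⟩) (show colk b ≤ P.L by omega))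
    have hd : ‖P.vert H (Sum.inr ⟨(a, b), hab⟩) (colk b)
        - P.vert H (Sum.inr ⟨(b, a), hba⟩) (colk b)‖ ^ 2 = 2 := by
      have : P.vert H (Sum.inr ⟨(a, b), hab⟩) (colk b)
          - P.vert H (Sum.inr ⟨(b, a), hba⟩) (colk b) = e (2 + a.val) - e (2 + b.val) := by
        simp only [Pm.vert, yv_colk, amp_colk, hht, lift, one_smul]; abel
      rw [this, norm_sub_sq_real, norm_e, norm_e, inner_e, e_ne (by
        have : a.val ≠ b.val := fun h => hab (Fin.ext h)
        omega)]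
      norm_num
    set d := ‖P.vert H (Sum.inr ⟨(a, b), hab⟩) (colk b)
        - P.vert H (Sum.inr ⟨(b, a), hba⟩) (colk b)‖ with hd'
    have hd1 : 7 / 5 ≤ d := by
      refine (sq_le_sq₀ (by norm_num) (norm_nonneg _)).1 ?_; rw [hd]; norm_num
    have hd2 : d ≤ 3 / 2 := by
      refine (sq_le_sq₀ (norm_nonneg _) (by norm_num)).1 ?_; rw [hd]; norm_num
    set A := f (P.vert H (Sum.inr ⟨(a, b), hab⟩) (colk b))
      - f (P.vert H (Sum.inr ⟨(b, a), hba⟩) (colk b)) with hA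
    have heq : A - (W ⟨(a, b), hab⟩ - W ⟨(b, a), hba⟩)
        = f (P.vert H (Sum.inr ⟨(a, b), hab⟩) (colk b))
          - f (P.vert H (Sum.inr ⟨(a, b), hab⟩) (colk a))
          - (P.xv H (colk b) - P.xv H (colk a)) • P.Z f H := by
      simp only [hA, hW, hht, sub_smul]; abel
    rw [← heq] at hr
    have h1 := norm_sub_norm_le A (W ⟨(a, b), hab⟩ - W ⟨(b, a), hba⟩)
    have h2 := norm_sub_norm_le (W ⟨(a, b), hab⟩ - W ⟨(b, a), hba⟩) A
    rw [norm_sub_rev _ A] at h2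
    have h3 : L * d ≤ L * (3 / 2) := mul_le_mul_of_nonneg_left hd2 (by linarith [hg.hL])
    constructor <;> linarith
  have h2 : 2 ≤ P.N := ok.hN
  let nb : Fin P.N → Fin P.N := fun a => if a.val = 0 then ⟨1, by omega⟩ else ⟨0, by omega⟩
  have hnb : ∀ a, a ≠ nb a := by
    intro a h
    have := congrArg Fin.val h
    simp only [nb] at this
    split_ifs at this with g <;> simp at this <;> omega
  let Kc : Fin P.N → EuclideanSpace ℝ (Fin k) := fun a => W ⟨(a, nb a), hnb a⟩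
  have hη : η ≤ 1 / 1000 := by
    have : 1 ≤ L * P.J := by
      calc (1 : ℝ) = 1 * 1 := by ring
        _ ≤ _ := mul_le_mul hg.hL (by linarith [ok.J_pos]) zero_le_one (by linarith [hg.hL])
    linarith [mul_le_mul_of_nonneg_left this hg.hη, hg.hηJ]
  have hkey : ∀ a b, a ≠ b →
      1 / 2 ≤ ‖Kc a - Kc b‖ ∧ ‖Kc a - Kc b‖ ≤ 2 * L + 2 := by
    intro a b hab
    have hba := fun h : b = a => hab h.symm
    obtain ⟨c1, c2⟩ := hclash a b hab hba
    have l1 : ‖Kc a - W ⟨(a, b), hab⟩‖ ≤ 1 / 4 + 2 * η := hlin _ _ rfl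
    have l2 : ‖W ⟨(b, a), hba⟩ - Kc b‖ ≤ 1 / 4 + 2 * η := hlin _ _ rfl
    have e1 : Kc a - Kc b = (Kc a - W ⟨(a, b), hab⟩) + (W ⟨(a, b), hab⟩ - W ⟨(b, a), hba⟩)
        + (W ⟨(b, a), hba⟩ - Kc b) := by abel
    have u1 := norm_add₃_le (a := Kc a - W ⟨(a, b), hab⟩)
      (b := W ⟨(a, b), hab⟩ - W ⟨(b, a), hba⟩) (c := W ⟨(b, a), hba⟩ - Kc b)
    rw [← e1] at u1
    have e2 : W ⟨(a, b), hab⟩ - W ⟨(b, a), hba⟩ = -(Kc a - W ⟨(a, b), hab⟩) + (Kc a - Kc b)
        + -(W ⟨(b, a), hba⟩ - Kc b) := by abel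
    have u2 := norm_add₃_le (a := -(Kc a - W ⟨(a, b), hab⟩)) (b := Kc a - Kc b)
      (c := -(W ⟨(b, a), hba⟩ - Kc b))
    rw [← e2, norm_neg, norm_neg] at u2
    have := hg.hL
    constructor <;> linarith
  have hball : ∀ a b, ‖Kc a - Kc b‖ ≤ 2 * L + 2 := by
    intro a b
    by_cases h : a = b
    · subst h; simp; linarith [hg.hL]
    · exact (hkey a b h).2
  have hcard := packing (by linarith [hg.hL]) Kc hball fun a b h => (hkey a b h).1
  simp at hcard
  omega

end Vale.Agent.P208
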