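import Vale.Agent.P208.Gadget

/-!
# Coordinates of the children and the kite bound
-/

noncomputable section

open scoped InnerProductSpace

namespace Vale.Agent.P208

variable {P : Pm}

/-- The planar rectangle of a node. -/
def Pm.Box (P : Pm) (H x y : ℝ) : Prop := |x| ≤ H / 2 ∧ 0 ≤ y ∧ y ≤ P.V

/-- Distance to the boundary of the rectangle. -/
def Pm.dd (P : Pm) (H x y : ℝ) : ℝ := min (min y (P.V - y)) (H / 2 - |x|)

/-- The bound on the part outside the plane. -/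
def Pm.pe (P : Pm) (H x y : ℝ) : ℝ := min (8 / P.V * P.dd H x y) 2

/-- Parameter along a segment of a point of a filler. -/
def Pm.theta (P : Pm) (l : ℕ) (x : ℝ) : ℝ :=
  P.mu + (1 - 2 * P.mu) * (((l : ℝ) + 1 / 2) / P.nf + x / (P.nf * P.H₀))

lemma dd_le_V (P : Pm) (H x : ℝ) {y : ℝ} (h : 0 ≤ y) : P.dd H x y ≤ P.V := by
  have h1 : P.dd H x y ≤ P.V - y := (min_le_left _ _).trans (min_le_right _ _)
  linarith

lemma dd_nonneg {H x y : ℝ} (hb : P.Box H x y) : 0 ≤ P.dd H x y := by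
  obtain ⟨h1, h2, h3⟩ := hb
  exact le_min (le_min h2 (by linarith)) (by linarith)

lemma seg_zero (H : ℝ) (r : Row P.N) (k : ℕ) :
    P.seg H r k 0 = P.xv H (k + 1) - P.xv H k := by simp [Pm.seg, vert_zero]

lemma seg_one (H : ℝ) (r : Row P.N) (k : ℕ) :
    P.seg H r k 1 = P.yv r (k + 1) - P.yv r k := by simp [Pm.seg, vert_one]

lemma seg_lo (H : ℝ) (r : Row P.N) (k : ℕ) : Lo P.N (P.seg H r k) :=
  (vert_lo H r _).sub (vert_lo H r _)

lemma tl_seg (H : ℝ) (r : Row P.N) (k : ℕ) :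
    tl (P.seg H r k) = (P.amp (k + 1) - P.amp k) • lift r := by
  rw [Pm.seg, tl_sub, tl_vert, tl_vert, sub_smul]

lemma eq_of_coords {p : E} : p = p 0 • e 0 + p 1 • e 1 + tl p := by simp [tl]

lemma seg_norm (ok : P.Ok) {m : ℕ} {H : ℝ} (hR : P.Rg m H) (r : Row P.N) {k : ℕ}
    (hk : k < P.L) :
    P.xv H (k + 1) - P.xv H k ≤ ‖P.seg H r k‖ ∧ ‖P.seg H r k‖ ≤ H ∧ 0 < ‖P.seg H r k‖ := by
  have h1 := xv_step ok hR hk
  have h2 := ok.rho_big hR
  have h3 := ok.V_big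
  have h4 := ok.H_V hR
  have hx : P.xv H (k + 1) - P.xv H k ≤ ‖P.seg H r k‖ := by
    have := abs_at_le (P.seg H r k) 0
    rw [seg_zero] at this
    exact (le_abs_self _).trans this
  refine ⟨hx, ?_, by linarith⟩
  have hy : |P.seg H r k 1| ≤ P.V := by
    rw [seg_one, abs_le]
    have := ht_mem ok r
    unfold Pm.yv
    constructor <;> split_ifs <;> linarith
  have ht : ‖tl (P.seg H r k)‖ ≤ 1 := by
    rw [tl_seg, norm_smul]
    have a1 := P.amp_mem (k + 1)
    have a2 := P.amp_mem k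
    refine (mul_le_mul ?_ (norm_lift_le r) (norm_nonneg _) zero_le_one).trans_eq (one_mul _)
    rw [Real.norm_eq_abs, abs_le]; constructor <;> linarith
  calc ‖P.seg H r k‖ = ‖P.seg H r k 0 • e 0 + P.seg H r k 1 • e 1 + tl (P.seg H r k)‖ :=
        congrArg norm eq_of_coords
    _ ≤ H / 4 + P.V + 1 := by
        refine norm_add_le_of_le (norm_add_le_of_le ?_ ?_) ht
        · simp only [norm_smul, norm_e, mul_one, Real.norm_eq_abs, seg_zero]
          rw [abs_of_nonneg (by linarith)]; exact h1.2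
        · simpa [norm_smul] using hy
    _ ≤ H := by linarith

lemma amp_zero : P.amp 0 = 0 := if_neg (by omega)

lemma amp_one : P.amp 1 = 0 := if_neg (by omega)

lemma amp_last {k : ℕ} (h : P.L ≤ k + 1) : P.amp k = 0 := if_neg (by omega)

lemma amp_inner {k : ℕ} (h : 2 ≤ k) (h' : k + 2 ≤ P.L) : P.amp k = 1 := if_pos ⟨h, h'⟩

lemma tl_seg_branch (H : ℝ) (r : Row P.N) {k : ℕ} (hb : P.Branch k) :
    tl (P.seg H r k) = 0 := by
  rw [tl_seg]
  rcases hb with rfl | h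
  · rw [amp_zero, amp_one]; simp
  · rw [amp_last (by omega), amp_last (by omega)]; simp

lemma seg_one_mid (H : ℝ) (r : Row P.N) {k : ℕ} (hk : k < P.L) (hb : ¬ P.Branch k) :
    P.seg H r k 1 = 0 := by
  unfold Pm.Branch at hb
  rw [seg_one, yv_mid r (by omega) (by omega), yv_mid r (by omega) hk, sub_self]

lemma fill_orth (ok : P.Ok) {m : ℕ} {H : ℝ} (hR : P.Rg m H) (r : Row P.N) {k l : ℕ}
    (hk : k < P.L) : (P.child m H (.fill r k l)).Orth P.N := by
  obtain ⟨hx, hH, hg⟩ := seg_norm ok hR r hk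
  have hnf : (0 : ℝ) < P.nf := by exact_mod_cast ok.hnf
  refine ⟨?_, ?_, ?_, ?_, ?_, (seg_lo H r k).smul _, ?_⟩
  · have := ok.hmu'
    exact div_pos (mul_pos (by linarith) hg) (mul_pos hnf ok.H₀_pos)
  · simp [Pm.child, norm_smul, inv_mul_cancel₀ hg.ne']
  · simp only [Pm.child, Pm.nrm]
    split_ifs with hb ht
    · rw [norm_smul, norm_inv, norm_norm]
      have : ‖(-(P.seg H r k 1)) • e 0 + P.seg H r k 0 • e 1‖ = ‖P.seg H r k‖ := by
        apply (pow_left_inj₀ (norm_nonneg _) (norm_nonneg _) (by norm_num : 2 ≠ 0)).1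
        have ht0 : tl ((-(P.seg H r k 1)) • e 0 + P.seg H r k 0 • e 1) = 0 := by
          simp [tl, e_apply]
        rw [norm_sq_split, norm_sq_split (P.seg H r k), tl_seg_branch H r hb, ht0]
        simp [e_apply]; ring
      rw [this, inv_mul_cancel₀ hg.ne']
    · simp
    · simp
  · simp only [Pm.child, Pm.nrm]
    split_ifs with hb ht
    · rw [real_inner_smul_left, real_inner_smul_right, inner_add_right, real_inner_smul_right,
        real_inner_smul_right, real_inner_comm, inner_e, real_inner_comm, inner_e]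
      ring
    all_goals
      simp only [real_inner_smul_left, inner_neg_right]
      rw [real_inner_comm, inner_e, seg_one_mid H r hk hb]
      simp
  · exact (vert_lo H r k).add ((seg_lo H r k).smul _)
  · simp only [Pm.child, Pm.nrm]
    split_ifs
    · exact (((Lo.e (by omega)).smul _).add ((Lo.e (by omega)).smul _)).smul _
    · intro n hn; simp [e_ne (show n ≠ 1 by omega)]
    · exact Lo.e (by omega)

lemma theta_mem (ok : P.Ok) {l : ℕ} (hl : l < P.nf) {x : ℝ} (hx : |x| ≤ P.H₀ / 2) :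
    P.mu ≤ P.theta l x ∧ P.theta l x ≤ 1 - P.mu := by
  have hnf : (0 : ℝ) < P.nf := by exact_mod_cast ok.hnf
  have hl' : (l : ℝ) + 1 ≤ P.nf := by exact_mod_cast hl
  have h0 := ok.H₀_pos
  rw [abs_le] at hx
  have hu : ((l : ℝ) + 1 / 2) / P.nf + x / (P.nf * P.H₀)
      = (((l : ℝ) + 1 / 2) + x / P.H₀) / P.nf := by field_simp
  have h1 : -(1 / 2) ≤ x / P.H₀ := by rw [le_div_iff₀ h0]; linarith
  have h2 : x / P.H₀ ≤ 1 / 2 := by rw [div_le_iff₀ h0]; linarith
  have hl0 : (0 : ℝ) ≤ l := Nat.cast_nonneg l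
  have u0 : 0 ≤ (((l : ℝ) + 1 / 2) + x / P.H₀) / P.nf := div_nonneg (by linarith) hnf.le
  have u1 : (((l : ℝ) + 1 / 2) + x / P.H₀) / P.nf ≤ 1 := by
    rw [div_le_one hnf]; linarith
  have := ok.hmu'
  unfold Pm.theta
  rw [hu]
  constructor <;> nlinarith

lemma fill_pl (ok : P.Ok) {m : ℕ} {H : ℝ} (hR : P.Rg m H) (r : Row P.N) {k l : ℕ}
    (hk : k < P.L) (x y : ℝ) :
    (P.child m H (.fill r k l)).pl x y = P.vert H r k + P.theta l x • P.seg H r k
      + ((P.child m H (.fill r k l)).s * y) • P.nrm H r k := by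
  obtain ⟨-, -, hg⟩ := seg_norm ok hR r hk
  have hnf : (P.nf : ℝ) ≠ 0 := by exact_mod_cast ok.hnf.ne'
  have h0 := ok.H₀_pos.ne'
  simp only [Ch.pl, Pm.child, Pm.theta, smul_add, smul_smul]
  have e1 : (1 - 2 * P.mu) * ‖P.seg H r k‖ / (P.nf * P.H₀) * (x * ‖P.seg H r k‖⁻¹)
      = (1 - 2 * P.mu) * (x / (P.nf * P.H₀)) := by field_simp
  rw [e1, mul_add, ← add_assoc P.mu, add_smul, add_smul, add_smul]
  abel

/-- A filler is very small. -/
lemma fill_small (ok : P.Ok) {m : ℕ} {H : ℝ} (hR : P.Rg m H) (r : Row P.N) {k l : ℕ}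
    (hk : k < P.L) :
    (P.child m H (.fill r k l)).s * P.V ≤ P.mu * P.nu / 100000 ∧
      (P.child m H (.fill r k l)).s * P.V ≤ P.mu / 100000 ∧
      (P.child m H (.fill r k l)).s ≤ 1 / 1000 := by
  obtain ⟨-, hH, hg⟩ := seg_norm ok hR r hk
  have hnf : (0 : ℝ) < P.nf := by exact_mod_cast ok.hnf
  have hs : (P.child m H (.fill r k l)).s ≤ 1 / P.nf := by
    simp only [Pm.child]
    rw [div_le_div_iff₀ (mul_pos hnf ok.H₀_pos) hnf]
    have : (1 - 2 * P.mu) * ‖P.seg H r k‖ ≤ P.H₀ := by nlinarith [ok.hmu, hR.2.2]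
    nlinarith
  have h1 : 1 / (P.nf : ℝ) ≤ P.mu * P.nu / 100000 / P.V := by
    rw [div_div, div_le_div_iff₀ hnf (mul_pos (by norm_num) ok.V_pos)]
    linarith [ok.hfine]
  have h2 := (le_div_iff₀ ok.V_pos).1 (hs.trans h1)
  have h3 : P.mu * P.nu / 100000 ≤ P.mu / 100000 := by nlinarith [ok.hmu, ok.hnu']
  refine ⟨h2, h2.trans h3, ?_⟩
  have := ok.hmu'
  have h4 := (le_div_iff₀ ok.V_pos).2 (h2.trans h3)
  refine h4.trans ?_
  rw [div_le_iff₀ ok.V_pos]
  linarith [ok.V_big]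

/-- Coordinates of a filler away from the end segments. -/
lemma fill_mid (ok : P.Ok) {m : ℕ} {H : ℝ} (hR : P.Rg m H) (r : Row P.N) {k l : ℕ}
    (hk : k < P.L) (hb : ¬ P.Branch k) (x y : ℝ) :
    let c := P.child m H (.fill r k l)
    (c.pl x y) 0 = P.xv H k + P.theta l x * (P.xv H (k + 1) - P.xv H k) ∧
    ((r = top → (c.pl x y) 1 = P.ht r - c.s * y) ∧
      (r ≠ top → (c.pl x y) 1 = P.ht r + c.s * y)) ∧
    tl (c.pl x y) = (P.amp k + P.theta l x * (P.amp (k + 1) - P.amp k)) • lift r := by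
  have hk0 : k ≠ 0 := fun h => hb (Or.inl h)
  intro c
  rw [fill_pl ok hR r hk]
  have h1 : tl (e 1) = 0 := by simp [tl, e_apply]
  refine ⟨?_, ⟨fun ht => ?_, fun ht => ?_⟩, ?_⟩
  · simp only [add_at, smul_at, seg_zero, vert_zero, Pm.nrm, if_neg hb]
    split_ifs <;> simp [e_apply]
  · simp only [add_at, smul_at, seg_one_mid H r hk hb, vert_one, Pm.nrm, if_neg hb, if_pos ht,
      yv_mid r hk0 hk]
    simp [c]; ring
  · simp only [add_at, smul_at, seg_one_mid H r hk hb, vert_one, Pm.nrm, if_neg hb, if_neg ht,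
      yv_mid r hk0 hk]
    simp [c]
  · simp only [tl_add, tl_smul, tl_vert, tl_seg, Pm.nrm, if_neg hb]
    split_ifs with ht
    · rw [show -e 1 = (-1 : ℝ) • e 1 by simp, tl_smul, h1]; simp [smul_smul, ← add_smul]
    · rw [h1]; simp [smul_smul, ← add_smul]

/-- The amplitude of a middle filler is at least `μ`. -/
lemma mid_amp (ok : P.Ok) {k l : ℕ} (hk : k < P.L) (hb : ¬ P.Branch k) (hl : l < P.nf)
    {x : ℝ} (hx : |x| ≤ P.H₀ / 2) :
    P.mu ≤ P.amp k + P.theta l x * (P.amp (k + 1) - P.amp k) ∧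
      P.amp k + P.theta l x * (P.amp (k + 1) - P.amp k) ≤ 1 ∧
      (3 ≤ k → k + 3 ≤ P.L → P.amp k + P.theta l x * (P.amp (k + 1) - P.amp k) = 1) := by
  obtain ⟨t1, t2⟩ := theta_mem ok hl hx
  have := ok.hmu; have := ok.hmu'; have := ok.hN
  unfold Pm.Branch at hb
  have hL : P.L = 3 * P.N + 8 := rfl
  by_cases h1 : k = 1
  · subst h1
    rw [amp_one, amp_inner le_rfl (by omega)]
    exact ⟨by linarith, by linarith, by omega⟩
  by_cases h2 : k + 2 = P.L
  · rw [amp_inner (by omega) (by omega), amp_last (by omega)]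
    exact ⟨by linarith, by linarith, by omega⟩
  rw [amp_inner (by omega) (by omega), amp_inner (by omega) (by omega)]
  exact ⟨by linarith, by linarith, by intros; ring⟩

/-- Coordinates of a filler on an end segment. -/
lemma fill_branch (ok : P.Ok) {m : ℕ} {H : ℝ} (hR : P.Rg m H) (r : Row P.N) {k l : ℕ}
    (hk : k < P.L) (hb : P.Branch k) (x y : ℝ) :
    let c := P.child m H (.fill r k l)
    (c.pl x y) 0 = P.xv H k + P.theta l x * (P.xv H (k + 1) - P.xv H k)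
        - c.s * y * (P.seg H r k 1 / ‖P.seg H r k‖) ∧
    (c.pl x y) 1 = P.yv r k + P.theta l x * P.seg H r k 1
        + c.s * y * (P.seg H r k 0 / ‖P.seg H r k‖) ∧
    tl (c.pl x y) = 0 := by
  intro c
  rw [fill_pl ok hR r hk]
  refine ⟨?_, ?_, ?_⟩
  · simp only [add_at, smul_at, seg_zero, vert_zero, Pm.nrm, if_pos hb]
    simp only [e_self, e_ne (show (0 : ℕ) ≠ 1 by norm_num), c]; ring
  · simp only [add_at, smul_at, vert_one, Pm.nrm, if_pos hb]
    simp only [e_self, e_ne (show (1 : ℕ) ≠ 0 by norm_num), c]; ring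
  · have hv : tl (P.vert H r k) = 0 := by
      rw [tl_vert]
      rcases hb with rfl | h
      · rw [amp_zero]; simp
      · rw [amp_last (by omega)]; simp
    simp only [tl_add, tl_smul, hv, tl_seg_branch H r hb, Pm.nrm, if_pos hb]
    simp [tl, e_apply]

/-- A filler stays strictly inside the interval of its segment. -/
lemma fill_x (ok : P.Ok) {m : ℕ} {H : ℝ} (hR : P.Rg m H) (r : Row P.N) {k l : ℕ}
    (hk : k < P.L) (hl : l < P.nf) {x y : ℝ} (hb : P.Box P.H₀ x y) :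
    P.xv H k + 256 * P.mu * P.V ≤ ((P.child m H (.fill r k l)).pl x y) 0 ∧
      ((P.child m H (.fill r k l)).pl x y) 0 + 256 * P.mu * P.V ≤ P.xv H (k + 1) := by
  obtain ⟨hx, hy0, hyV⟩ := hb
  obtain ⟨t1, t2⟩ := theta_mem ok hl hx
  obtain ⟨d1, -⟩ := xv_step ok hR hk
  have hρ := ok.rho_big hR
  have hμ := ok.hmu
  have hV := ok.V_big
  obtain ⟨-, -, hg⟩ := seg_norm ok hR r hk
  have hd : 1024 * P.V ≤ P.xv H (k + 1) - P.xv H k := by linarith
  have m1 : 1024 * P.mu * P.V ≤ P.theta l x * (P.xv H (k + 1) - P.xv H k) := by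
    calc _ = P.mu * (1024 * P.V) := by ring
      _ ≤ _ := mul_le_mul t1 hd (by linarith) (by linarith)
  have m2 : 1024 * P.mu * P.V ≤ (1 - P.theta l x) * (P.xv H (k + 1) - P.xv H k) := by
    calc _ = P.mu * (1024 * P.V) := by ring
      _ ≤ _ := mul_le_mul (by linarith) hd (by linarith) (by linarith)
  by_cases hbr : P.Branch k
  · rw [(fill_branch ok hR r hk hbr x y).1]
    have hs := (fill_small ok hR r hk (l := l)).2.1
    have h0 := (fill_orth ok hR r hk (l := l)).s_pos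
    have hu : |P.seg H r k 1 / ‖P.seg H r k‖| ≤ 1 := by
      rw [abs_div, abs_norm, div_le_one hg]; exact abs_at_le _ _
    have hw : |(P.child m H (.fill r k l)).s * y * (P.seg H r k 1 / ‖P.seg H r k‖)| ≤ P.mu := by
      rw [abs_mul, abs_of_nonneg (mul_nonneg h0.le hy0)]
      calc _ ≤ (P.child m H (.fill r k l)).s * P.V * 1 :=
            mul_le_mul (by gcongr) hu (abs_nonneg _) (by positivity)
        _ ≤ _ := by linarith
    rw [abs_le] at hw
    have : P.mu * 1 ≤ P.mu * P.V := by gcongr; linarith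
    constructor <;> nlinarith
  · rw [(fill_mid ok hR r hk hbr x y).1]
    have : 0 ≤ P.mu * P.V := mul_nonneg hμ.le (by linarith)
    constructor <;> nlinarith

lemma lift_node {N : ℕ} {c : Fin N} {r : Row N} (h : isNode c r) :
    lift r = 0 ∨ lift r = e (2 + c.val) := by
  rcases r with i | p
  · exact Or.inl rfl
  · simp only [isNode] at h; exact Or.inr (by simp [lift, h])

lemma gap_coords (H : ℝ) (c : Fin P.N) (r : Row P.N) :
    P.gap H c r 0 = 0 ∧ P.gap H c r 1 = P.ht (P.nxt c r) - P.ht r ∧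
      tl (P.gap H c r) = lift (P.nxt c r) - lift r ∧ Lo P.N (P.gap H c r) := by
  refine ⟨?_, ?_, ?_, (vert_lo H _ _).sub (vert_lo H _ _)⟩
  · simp [Pm.gap, vert_zero]
  · simp [Pm.gap, vert_one, yv_colk]
  · rw [Pm.gap, tl_sub, tl_vert, tl_vert, amp_colk]; simp

lemma gap_norm (ok : P.Ok) (H : ℝ) {c : Fin P.N} {r : Row P.N} (hn : isNode c r)
    (hr : r ≠ top) :
    300 ≤ P.ht (P.nxt c r) - P.ht r ∧ P.ht (P.nxt c r) - P.ht r ≤ ‖P.gap H c r‖ ∧
      ‖P.gap H c r‖ ≤ P.ht (P.nxt c r) - P.ht r + 1 ∧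
      (lift r = 0 → lift (P.nxt c r) = 0 →
        ‖P.gap H c r‖ = P.ht (P.nxt c r) - P.ht r) := by
  obtain ⟨h1, h2, -⟩ := nxt_spec ok c hr
  obtain ⟨g0, g1, g2, -⟩ := gap_coords H c r
  have hd : 300 ≤ P.ht (P.nxt c r) - P.ht r := by
    have := node_sep ok h1 hn (by intro h; rw [h] at h2; exact lt_irrefl _ h2)
    rwa [abs_of_pos (by linarith)] at this
  refine ⟨hd, ?_, ?_, ?_⟩
  · have := abs_at_le (P.gap H c r) 1
    rw [g1] at this
    exact (le_abs_self _).trans this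
  · rw [eq_of_coords (p := P.gap H c r), g0, g1, g2]
    refine norm_add_le_of_le (by simp [norm_smul]; rw [abs_of_pos (by linarith)]) ?_
    rcases lift_node hn with h | h <;> rcases lift_node h1 with h' | h' <;> simp [h, h']
  · intro a b
    rw [eq_of_coords (p := P.gap H c r), g0, g1, g2, a, b]
    simp [norm_smul]; linarith

lemma col_orth (ok : P.Ok) {m : ℕ} (H : ℝ) {c : Fin P.N} {r : Row P.N} (hn : isNode c r)
    (hr : r ≠ top) : (P.child m H (.col c r)).Orth P.N := by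
  obtain ⟨g0, g1, g2, g3⟩ := gap_coords H c r
  obtain ⟨d1, d2, -, -⟩ := gap_norm ok H hn hr
  have hg : 0 < ‖P.gap H c r‖ := by linarith
  refine ⟨?_, by simp [Pm.child], ?_, ?_, vert_lo H r _, Lo.e (by omega), g3.smul _⟩
  · have := ok.hnu'; exact div_pos (mul_pos (by linarith) hg) ok.V_pos
  · simp [Pm.child, norm_smul, inv_mul_cancel₀ hg.ne']
  · simp [Pm.child, real_inner_smul_right, inner_e, g0]

/-- Size of a centred child. -/
lemma col_s (ok : P.Ok) {m : ℕ} (H : ℝ) {c : Fin P.N} {r : Row P.N} (hn : isNode c r)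
    (hr : r ≠ top) :
    150 / P.V ≤ (P.child m H (.col c r)).s ∧ (P.child m H (.col c r)).s ≤ 1 ∧
      ((lift r = 0 ∧ lift (P.nxt c r) = 0) ∨ (P.child m H (.col c r)).s ≤ 1 / 256) := by
  obtain ⟨d1, d2, d3, d4⟩ := gap_norm ok H hn hr
  have hV := ok.V_big
  have := ok.hnu; have := ok.hnu'
  have hm := ht_mem ok (P.nxt c r); have hm' := ht_mem ok r
  simp only [Pm.child]
  refine ⟨?_, ?_, ?_⟩
  · rw [div_le_div_iff_of_pos_right ok.V_pos]; nlinarith
  · rw [div_le_one ok.V_pos]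
    rcases gap_cases ok c hr with ⟨a, b, -, -⟩ | ⟨h, -, -⟩
    · rw [d4 a b]; nlinarith
    · nlinarith
  · rcases gap_cases ok c hr with ⟨a, b, -, -⟩ | ⟨h, -, -⟩
    · exact Or.inl ⟨a, b⟩
    · right; rw [div_le_iff₀ ok.V_pos]; nlinarith

lemma col_pl (ok : P.Ok) {m : ℕ} (H : ℝ) {c : Fin P.N} {r : Row P.N} (hn : isNode c r)
    (hr : r ≠ top) (x y : ℝ) :
    let C := P.child m H (.col c r)
    (C.pl x y) 0 = ((c.val : ℝ) + 1) * (H / P.K) + C.s * x ∧
    (C.pl x y) 1 = P.ht r + (1 - P.nu) * y / P.V * (P.ht (P.nxt c r) - P.ht r) ∧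
    tl (C.pl x y) = (1 - (1 - P.nu) * y / P.V) • lift r
      + ((1 - P.nu) * y / P.V) • lift (P.nxt c r) := by
  intro C
  obtain ⟨g0, g1, g2, -⟩ := gap_coords H c r
  obtain ⟨d1, d2, -, -⟩ := gap_norm ok H hn hr
  have hg : ‖P.gap H c r‖ ≠ 0 := by linarith
  have hpl : C.pl x y = P.vert H r (colk c) + (C.s * x) • e 0
      + ((1 - P.nu) * y / P.V) • P.gap H c r := by
    simp only [C, Ch.pl, Pm.child, smul_add, smul_smul, add_assoc]
    congr 2
    have := ok.V_pos.ne'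
    congr 1; field_simp
  rw [hpl]
  refine ⟨?_, ?_, ?_⟩
  · simp [vert_zero, xv_colk, g0]
  · simp [vert_one, yv_colk, g1, e_apply]
  · simp only [tl_add, tl_smul, tl_vert, amp_colk, one_smul, g2]
    rw [show tl (e 0) = 0 by simp [tl, e_apply]]
    module

lemma child_orth (ok : P.Ok) {m : ℕ} {H : ℝ} (hR : P.Rg m H) {i : Idx P.N}
    (hi : P.Valid m i) : (P.child m H i).Orth P.N := by
  cases i with
  | col c r => exact col_orth ok H hi.2.1 hi.2.2
  | fill r k l => exact fill_orth ok hR r hi.1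

lemma child_rg (ok : P.Ok) {m : ℕ} {H : ℝ} (hR : P.Rg m H) {i : Idx P.N}
    (hi : P.Valid m i) : P.Rg (P.child m H i).st (P.child m H i).Hc := by
  cases i with
  | fill r k l => exact P.rg_zero
  | col c r =>
    obtain ⟨hm, hn, hr⟩ := hi
    obtain ⟨s1, s2, -⟩ := col_s ok H hn hr (m := m)
    have s0 := (col_orth ok H hn hr (m := m)).s_pos
    have hρ := ok.rho_big hR
    have hV := ok.V_big
    have hK := ok.K_pos
    change P.Rg (m + 1) (H / P.K / (2 * (P.child m H (.col c r)).s))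
    refine ⟨hm, ?_, ?_⟩
    · have h1 : P.Hlo (m + 1) = P.Hlo m / (2 * P.K) := by
        simp only [Pm.Hlo, pow_succ]; rw [div_div]
      rw [h1, div_div, div_le_div_iff₀ (by positivity) (by positivity)]
      have := hR.2.1
      have := ok.H₀_pos
      have h0 : 0 ≤ P.Hlo m := div_nonneg this.le (by positivity)
      nlinarith [mul_nonneg h0 hK.le, mul_le_mul_of_nonneg_left s2 (mul_nonneg h0 hK.le)]
    · refine le_trans ?_ hR.2.2
      rw [div_le_iff₀ (by linarith), div_le_iff₀ hK]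
      have h2 : 150 ≤ (P.child m H (.col c r)).s * P.V := (div_le_iff₀ ok.V_pos).1 s1
      nlinarith [ok.H_pos hR, ok.V_le_K, mul_le_mul_of_nonneg_left ok.V_le_K s0.le]

lemma col_box (ok : P.Ok) {m : ℕ} {H : ℝ} (hR : P.Rg m H) {c : Fin P.N} {r : Row P.N}
    (hi : P.Valid m (.col c r)) {C : Ch} (hC : P.child m H (.col c r) = C)
    {x y : ℝ} (hb : P.Box C.Hc x y) :
    P.Box H ((C.pl x y) 0) ((C.pl x y) 1) ∧
    ((P.V / 4 ≤ P.dd H ((C.pl x y) 0) ((C.pl x y) 1) ∧ ‖tl (C.pl x y)‖ + 2 * C.s ≤ 2) ∨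
      (tl (C.pl x y) = 0 ∧ C.s ≤ 1 ∧
        C.s * P.dd C.Hc x y ≤ P.dd H ((C.pl x y) 0) ((C.pl x y) 1))) := by
  have hV := ok.V_big
  have hHV := ok.H_V hR
  have hρ := ok.rho_small hR
  obtain ⟨hx, hy0, hyV⟩ := hb
  obtain ⟨-, hn, hr⟩ := hi
  obtain ⟨p0, p1, p2⟩ := col_pl ok H hn hr x y (m := m)
  obtain ⟨s1, s2, s3⟩ := col_s ok H hn hr (m := m)
  obtain ⟨d1, -, -, d4⟩ := gap_norm ok H hn hr
  have s0 := (col_orth ok H hn hr (m := m)).s_pos
  have hH : C.Hc = H / P.K / (2 * C.s) := by rw [← hC]; rfl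
  have hs : C.s = (1 - P.nu) * ‖P.gap H c r‖ / P.V := by rw [← hC]; rfl
  rw [hC] at p0 p1 p2 s0 s1 s2 s3
  have hν0 := ok.hnu
  have hν1 := ok.hnu'
  set τ := (1 - P.nu) * y / P.V with hτ
  have τ0 : 0 ≤ τ := div_nonneg (mul_nonneg (by linarith) hy0) ok.V_pos.le
  have τ1 : τ ≤ 1 - P.nu := by
    rw [hτ, div_le_iff₀ ok.V_pos]; exact mul_le_mul_of_nonneg_left hyV (by linarith)
  have hsx : |C.s * x| ≤ H / P.K / 4 := by
    rw [abs_mul, abs_of_pos s0]
    calc C.s * |x| ≤ C.s * (C.Hc / 2) := mul_le_mul_of_nonneg_left hx s0.le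
      _ = H / P.K / 4 := by rw [hH]; field_simp; ring
  have hc : ((c.val : ℝ) + 1) ≤ P.N := by exact_mod_cast c.isLt
  have hxp : |(C.pl x y) 0| ≤ H / 16 := by
    rw [p0]
    have hρ0 : 0 ≤ H / P.K := div_nonneg (ok.H_pos hR).le ok.K_pos.le
    refine (abs_add_le _ _).trans ?_
    rw [abs_of_nonneg (mul_nonneg (by positivity) hρ0)]
    linarith [mul_le_mul_of_nonneg_right hc hρ0]
  have hm := (ht_mem ok (P.nxt c r)).2
  have hm' := (ht_mem ok r).1
  have t0 : 0 ≤ τ * (P.ht (P.nxt c r) - P.ht r) := mul_nonneg τ0 (by linarith)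
  have t1 : τ * (P.ht (P.nxt c r) - P.ht r) ≤ (1 - P.nu) * (P.ht (P.nxt c r) - P.ht r) :=
    mul_le_mul_of_nonneg_right τ1 (by linarith)
  have t2 : 0 ≤ P.nu * (P.ht (P.nxt c r) - P.ht r) := mul_nonneg hν0.le (by linarith)
  refine ⟨⟨by linarith, by linarith, by linarith⟩, ?_⟩
  rcases gap_cases ok c hr with ⟨a, b, -, -⟩ | ⟨-, hlo, hhi⟩
  · right
    have hse : C.s = (1 - P.nu) * (P.ht (P.nxt c r) - P.ht r) / P.V := by rw [hs, d4 a b]
    have dnn : 0 ≤ P.dd C.Hc x y := dd_nonneg ⟨hx, hy0, hyV⟩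
    refine ⟨by rw [p2, a, b]; simp, s2, le_min (le_min ?_ ?_) ?_⟩
    · calc C.s * P.dd C.Hc x y ≤ C.s * y :=
            mul_le_mul_of_nonneg_left ((min_le_left _ _).trans (min_le_left _ _)) s0.le
        _ = τ * (P.ht (P.nxt c r) - P.ht r) := by rw [hse, hτ]; ring
        _ ≤ _ := by linarith
    · calc C.s * P.dd C.Hc x y ≤ C.s * (P.V - y) :=
            mul_le_mul_of_nonneg_left ((min_le_left _ _).trans (min_le_right _ _)) s0.le
        _ = (1 - P.nu - τ) * (P.ht (P.nxt c r) - P.ht r) := by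
            rw [hse, hτ]
            have := ok.V_pos.ne'
            field_simp
        _ ≤ _ := by linarith
    · calc C.s * P.dd C.Hc x y ≤ 1 * P.V :=
            mul_le_mul s2 (dd_le_V _ _ _ hy0) dnn zero_le_one
        _ ≤ _ := by linarith
  · left
    refine ⟨le_min (le_min (by linarith) (by linarith)) (by linarith), ?_⟩
    have ht : ‖tl (C.pl x y)‖ ≤ 1 := by
      rw [p2]
      refine (norm_add_le _ _).trans ?_
      rw [norm_smul, norm_smul, Real.norm_of_nonneg τ0,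
        Real.norm_of_nonneg (show 0 ≤ 1 - τ by linarith)]
      linarith [mul_le_mul_of_nonneg_left (norm_lift_le r) (show 0 ≤ 1 - τ by linarith),
        mul_le_mul_of_nonneg_left (norm_lift_le (P.nxt c r)) τ0]
    rcases s3 with ⟨a, b⟩ | h
    · rw [p2, a, b]; simp; linarith
    · linarith

/-- Common facts about the fillers. -/
lemma fill_facts (ok : P.Ok) {m : ℕ} {H : ℝ} (hR : P.Rg m H) {r : Row P.N} {k l : ℕ}
    (hk : k < P.L) (hl : l < P.nf) {C : Ch} (hC : P.child m H (.fill r k l) = C)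
    {x y : ℝ} (hb : P.Box C.Hc x y) :
    0 < C.s ∧ C.s ≤ 1 / 1000 ∧ C.s * P.V ≤ P.mu / 100000 ∧ |x| ≤ P.H₀ / 2 ∧
    (0 ≤ C.s * y ∧ C.s * y ≤ C.s * P.V) ∧
    (0 ≤ C.s * P.dd C.Hc x y ∧ C.s * P.dd C.Hc x y ≤ C.s * y ∧
      C.s * P.dd C.Hc x y ≤ C.s * (P.V - y) ∧ C.s * P.dd C.Hc x y ≤ C.s * P.V) ∧
    (P.xv H k + 256 * P.mu * P.V ≤ (C.pl x y) 0 ∧
      (C.pl x y) 0 + 256 * P.mu * P.V ≤ P.xv H (k + 1)) := by
  have hH : C.Hc = P.H₀ := by rw [← hC]; rfl
  have hb' : P.Box P.H₀ x y := hH ▸ hb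
  have fx := fill_x ok hR r hk hl hb' (m := m)
  have s0 := (fill_orth ok hR r hk (l := l)).s_pos
  obtain ⟨-, hs1, hs2⟩ := fill_small ok hR r hk (l := l)
  rw [hC] at fx s0 hs1 hs2
  have hdd : P.dd C.Hc x y ≤ P.V := dd_le_V _ _ _ hb.2.1
  exact ⟨s0, hs2, hs1, hb'.1,
    ⟨mul_nonneg s0.le hb.2.1, mul_le_mul_of_nonneg_left hb.2.2 s0.le⟩,
    ⟨mul_nonneg s0.le (dd_nonneg hb),
      mul_le_mul_of_nonneg_left ((min_le_left _ _).trans (min_le_left _ _)) s0.le,
      mul_le_mul_of_nonneg_left ((min_le_left _ _).trans (min_le_right _ _)) s0.le,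
      mul_le_mul_of_nonneg_left hdd s0.le⟩, fx⟩

lemma fill_box_branch (ok : P.Ok) {m : ℕ} {H : ℝ} (hR : P.Rg m H) {r : Row P.N} {k l : ℕ}
    (hi : P.Valid m (.fill r k l)) (hbr : P.Branch k) {C : Ch}
    (hC : P.child m H (.fill r k l) = C) {x y : ℝ} (hb : P.Box C.Hc x y) :
    P.Box H ((C.pl x y) 0) ((C.pl x y) 1) ∧
    ((P.V / 4 ≤ P.dd H ((C.pl x y) 0) ((C.pl x y) 1) ∧ ‖tl (C.pl x y)‖ + 2 * C.s ≤ 2) ∨
      (tl (C.pl x y) = 0 ∧ C.s ≤ 1 ∧
        C.s * P.dd C.Hc x y ≤ P.dd H ((C.pl x y) 0) ((C.pl x y) 1))) := by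
  obtain ⟨hk, hl, -, -⟩ := hi
  obtain ⟨s0, hs2, hs1, hx, ⟨sy0, syV⟩, ⟨d0, dy, dVy, dV⟩, fx1, fx2⟩ :=
    fill_facts ok hR hk hl hC hb
  obtain ⟨-, p1, p2⟩ := fill_branch ok hR r hk hbr x y (m := m) (l := l)
  obtain ⟨t1, t2⟩ := theta_mem ok hl hx
  obtain ⟨hgx, -, hg⟩ := seg_norm ok hR r hk
  rw [hC] at p1 p2
  have hμ := ok.hmu
  have hμ' := ok.hmu'
  have hV := ok.V_big
  have hx0 : 0 < P.seg H r k 0 := by
    rw [seg_zero]; linarith [(xv_step ok hR hk).1, ok.rho_big hR]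
  set ux := P.seg H r k 0 / ‖P.seg H r k‖ with hux
  have ux0 : 0 ≤ ux := (div_pos hx0 hg).le
  have ux1 : ux ≤ 1 := by rw [hux, div_le_one hg, seg_zero]; exact hgx
  obtain ⟨φ, f1, f2, hyp⟩ : ∃ φ, P.mu ≤ φ ∧ φ ≤ 1 - P.mu ∧
      (C.pl x y) 1 = φ * P.ht r + C.s * y * ux := by
    have hN : P.L = 3 * P.N + 8 := rfl
    rcases hbr with rfl | hlast
    · refine ⟨P.theta l x, t1, t2, ?_⟩
      rw [p1, seg_one, yv_mid r (by omega : (0 + 1 : ℕ) ≠ 0) (by omega),
        show P.yv r 0 = 0 from if_pos (Or.inl rfl)]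
      ring
    · refine ⟨1 - P.theta l x, by linarith, by linarith, ?_⟩
      rw [p1, seg_one, yv_mid r (by omega) hk,
        show P.yv r (k + 1) = 0 from if_pos (Or.inr (by omega))]
      ring
  obtain ⟨hm, hm'⟩ := ht_mem ok r
  have e1 : C.s * y * ux ≤ C.s * P.V := (mul_le_of_le_one_right sy0 ux1).trans syV
  have e0 : 0 ≤ C.s * y * ux := mul_nonneg sy0 ux0
  have key : C.s * P.dd C.Hc x y ≤ (C.pl x y) 1 := by
    rcases ht_cases r with ⟨rfl, h⟩ | h'
    · have h1 : P.seg H (bot : Row P.N) k 1 = 0 := by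
        rw [seg_one, Pm.yv, Pm.yv]; simp [ht_bot]
      have hh : ‖P.seg H (bot : Row P.N) k‖ = |P.seg H (bot : Row P.N) k 0| := by
        rw [eq_of_coords (p := P.seg H bot k), tl_seg_branch H bot hbr, h1]
        simp [norm_smul]
      have : ux = 1 := by rw [hux, hh, abs_of_pos hx0, div_self hx0.ne']
      rw [hyp, h, this]; linarith
    · have h300 : 300 ≤ P.ht r := by
        have := ok.hV; have := ok.hD; have := ok.J_pos
        rcases h' with ⟨_, h⟩ | ⟨_, h⟩ | ⟨_, h⟩ | ⟨_, _, h, _⟩ <;> linarith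
      have := mul_le_mul f1 h300 (by norm_num) (by linarith : (0 : ℝ) ≤ φ)
      linarith
  have hφ : φ * P.ht r ≤ (1 - P.mu) * P.V := mul_le_mul f2 hm' hm (by linarith)
  have hφ0 : 0 ≤ φ * P.ht r := mul_nonneg (by linarith) hm
  have hμV : P.mu * 2 ≤ P.mu * P.V := mul_le_mul_of_nonneg_left (by linarith) hμ.le
  have a := xv_mono ok hR (Nat.zero_le k) hk.le
  have b := xv_mono ok hR (show k + 1 ≤ P.L by omega) le_rfl
  rw [xv_zero] at a
  rw [xv_end] at b
  have hx1 : |(C.pl x y) 0| + C.s * P.dd C.Hc x y ≤ H / 2 := by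
    rw [← le_sub_iff_add_le, abs_le]
    constructor <;> linarith
  refine ⟨⟨by linarith, by linarith, by linarith⟩, Or.inr ⟨p2, by linarith, ?_⟩⟩
  exact le_min (le_min key (by linarith)) (by linarith)

lemma fill_box_mid (ok : P.Ok) {m : ℕ} {H : ℝ} (hR : P.Rg m H) {r : Row P.N} {k l : ℕ}
    (hi : P.Valid m (.fill r k l)) (hbr : ¬ P.Branch k) {C : Ch}
    (hC : P.child m H (.fill r k l) = C) {x y : ℝ} (hb : P.Box C.Hc x y) :
    P.Box H ((C.pl x y) 0) ((C.pl x y) 1) ∧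
    ((P.V / 4 ≤ P.dd H ((C.pl x y) 0) ((C.pl x y) 1) ∧ ‖tl (C.pl x y)‖ + 2 * C.s ≤ 2) ∨
      (tl (C.pl x y) = 0 ∧ C.s ≤ 1 ∧
        C.s * P.dd C.Hc x y ≤ P.dd H ((C.pl x y) 0) ((C.pl x y) 1))) := by
  obtain ⟨hk, hl, -, -⟩ := hi
  obtain ⟨s0, hs2, hs1, hx, ⟨sy0, syV⟩, ⟨d0, dy, dVy, dV⟩, fx1, fx2⟩ :=
    fill_facts ok hR hk hl hC hb
  obtain ⟨-, ⟨p1t, p1⟩, p2⟩ := fill_mid ok hR r hk hbr x y (m := m) (l := l)
  rw [hC] at p1t p1 p2
  have hμ := ok.hmu
  have hμ' := ok.hmu'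
  have hV := ok.V_big
  have hHV := ok.H_V hR
  have hk1 : 1 ≤ k ∧ k + 1 ≤ 3 * P.N + 7 := by
    have hL : P.L = 3 * P.N + 8 := rfl
    unfold Pm.Branch at hbr; omega
  have a := xv_mono ok hR hk1.1 hk.le
  have b := xv_mono ok hR hk1.2 (show 3 * P.N + 7 ≤ P.L by unfold Pm.L; omega)
  rw [xv_one] at a
  rw [xv_b] at b
  have hμV : 0 ≤ P.mu * P.V := mul_nonneg hμ.le ok.V_pos.le
  have hxp : |(C.pl x y) 0| ≤ H / 4 := abs_le.2 ⟨by linarith, by linarith⟩
  obtain ⟨hm, hm'⟩ := ht_mem ok r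
  by_cases ht : r = top
  · have hy := p1t ht
    have hT : P.ht r = P.V := by rw [ht, ht_top]
    refine ⟨⟨by linarith, by linarith, by linarith⟩, Or.inr ⟨?_, by linarith, ?_⟩⟩
    · rw [p2, ht]; simp [lift, top]
    · exact le_min (le_min (by linarith) (by linarith)) (by linarith)
  · have hy := p1 ht
    have h3 := ht_lt_top ok ht
    refine ⟨⟨by linarith, by linarith, by linarith⟩, ?_⟩
    rcases r with i | p
    · refine Or.inr ⟨?_, by linarith, ?_⟩
      · rw [p2]; simp [lift]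
      · exact le_min (le_min (by linarith) (by linarith)) (by linarith)
    · left
      obtain ⟨hp, hp'⟩ := ht_slot (P := P) p
      have := ok.hV; have := ok.hD; have := ok.J_pos
      refine ⟨le_min (le_min (by linarith) (by linarith)) (by linarith), ?_⟩
      obtain ⟨A0, A1, -⟩ := mid_amp ok hk hbr hl hx
      rw [p2, norm_smul, Real.norm_of_nonneg (by linarith)]
      linarith [mul_le_mul A1 (norm_lift_le (Sum.inr p : Row P.N)) (norm_nonneg _) zero_le_one]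

/-- Where a child sits in the rectangle of its parent. -/
lemma child_box (ok : P.Ok) {m : ℕ} {H : ℝ} (hR : P.Rg m H) {i : Idx P.N}
    (hi : P.Valid m i) {C : Ch} (hC : P.child m H i = C)
    {x y : ℝ} (hb : P.Box C.Hc x y) :
    P.Box H ((C.pl x y) 0) ((C.pl x y) 1) ∧
    ((P.V / 4 ≤ P.dd H ((C.pl x y) 0) ((C.pl x y) 1) ∧ ‖tl (C.pl x y)‖ + 2 * C.s ≤ 2) ∨
      (tl (C.pl x y) = 0 ∧ C.s ≤ 1 ∧
        C.s * P.dd C.Hc x y ≤ P.dd H ((C.pl x y) 0) ((C.pl x y) 1))) := by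
  cases i with
  | col c r => exact col_box ok hR hi hC hb
  | fill r k l =>
    by_cases hbr : P.Branch k
    · exact fill_box_branch ok hR hi hbr hC hb
    · exact fill_box_mid ok hR hi hbr hC hb

/-- Every point is near the plane of its node, in proportion to the distance to the boundary. -/
theorem kite (ok : P.Ok) : ∀ (n m : ℕ) (H : ℝ), P.Rg m H → ∀ p ∈ P.pts n m H,
    P.Box H (p 0) (p 1) ∧ ‖tl p‖ ≤ P.pe H (p 0) (p 1) := by
  have hvert : ∀ (m : ℕ) (H : ℝ), P.Rg m H → ∀ p ∈ P.verts H,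
      P.Box H (p 0) (p 1) ∧ ‖tl p‖ ≤ P.pe H (p 0) (p 1) := by
    rintro m H hR p ⟨r, k, hk, rfl⟩
    rw [vert_zero, vert_one, tl_vert]
    have hV := ok.V_big
    have a := xv_mono ok hR (Nat.zero_le k) hk
    have b := xv_mono ok hR hk le_rfl
    rw [xv_zero] at a; rw [xv_end] at b
    have hm := ht_mem ok r
    have hbox : P.Box H (P.xv H k) (P.yv r k) := by
      refine ⟨abs_le.2 ⟨by linarith, by linarith⟩, ?_⟩
      unfold Pm.yv; split_ifs <;> constructor <;> linarith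
    refine ⟨hbox, ?_⟩
    have hd := dd_nonneg hbox
    have hpe : 0 ≤ P.pe H (P.xv H k) (P.yv r k) :=
      le_min (mul_nonneg (div_nonneg (by norm_num) ok.V_pos.le) hd) (by norm_num)
    rcases r with i | q
    · simpa [lift] using hpe
    by_cases h : 2 ≤ k ∧ k + 2 ≤ P.L
    · have hp := ht_slot (P := P) q
      have := ok.hV; have := ok.hD; have := ok.J_pos; have := ok.H_V hR
      have hL : P.L = 3 * P.N + 8 := rfl
      have a' := xv_mono ok hR h.1 hk
      have b' := xv_mono ok hR (show k ≤ 3 * P.N + 6 by omega) (by omega)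
      rw [xv_two] at a'; rw [xv_a] at b'
      have hρ := ok.rho_small hR
      have hρ0 : 0 ≤ H / P.K := div_nonneg (ok.H_pos hR).le ok.K_pos.le
      have hxa : |P.xv H k| ≤ H / 16 := abs_le.2 ⟨by nlinarith, by nlinarith⟩
      have hdd : P.V / 4 ≤ P.dd H (P.xv H k) (P.yv (Sum.inr q) k) := by
        rw [yv_mid _ (by omega) (by omega)]
        exact le_min (le_min (by linarith) (by linarith)) (by linarith)
      refine le_min ?_ ?_
      · calc ‖P.amp k • lift (Sum.inr q : Row P.N)‖ ≤ 1 := by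
              simp [amp_inner h.1 h.2, lift]
          _ ≤ 8 / P.V * (P.V / 4) := by
              have := ok.V_pos.ne'; field_simp; norm_num
          _ ≤ _ := by gcongr
      · simp [amp_inner h.1 h.2, lift]
    · simpa [Pm.amp, h] using hpe
  intro n
  induction n with
  | zero => exact hvert
  | succ n ih =>
    intro m H hR p hp
    rcases hp with hp | hp
    · exact hvert m H hR p hp
    obtain ⟨i, hi, q, hq, rfl⟩ := Set.mem_iUnion₂.1 hp
    obtain ⟨c, hc⟩ : ∃ c, P.child m H i = c := ⟨_, rfl⟩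
    have ho := child_orth ok hR hi
    have hrg := child_rg ok hR hi
    rw [hc] at hq ho hrg ⊢
    obtain ⟨hb, hpe⟩ := ih _ _ hrg q hq
    obtain ⟨hB, hcases⟩ := child_box ok hR hi hc hb
    have e0 : (c.emb P.N q) 0 = (c.pl (q 0) (q 1)) 0 := by simp [Ch.emb, shift_at]
    have e1 : (c.emb P.N q) 1 = (c.pl (q 0) (q 1)) 1 := by
      simp [Ch.emb, hi_shift P.N q 1 (by omega)]
    rw [e0, e1]
    refine ⟨hB, ?_⟩
    have ht : ‖tl (c.emb P.N q)‖ ≤ ‖tl (c.pl (q 0) (q 1))‖ + c.s * ‖tl q‖ := by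
      rw [Ch.emb, tl_add, tl_smul, tl_shift]
      refine (norm_add_le _ _).trans_eq ?_
      rw [norm_smul, norm_shift, Real.norm_of_nonneg ho.s_pos.le]
    have hV := ok.V_pos
    have s0 := ho.s_pos
    rcases hcases with ⟨hd, h2⟩ | ⟨h0, hs, hd⟩
    · have h8 : (2 : ℝ) ≤ 8 / P.V * P.dd H (c.pl (q 0) (q 1) 0) (c.pl (q 0) (q 1) 1) := by
        calc (2 : ℝ) = 8 / P.V * (P.V / 4) := by field_simp; norm_num
          _ ≤ _ := by gcongr
      rw [Pm.pe, min_eq_right h8]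
      have : c.s * ‖tl q‖ ≤ c.s * 2 :=
        mul_le_mul_of_nonneg_left (hpe.trans (min_le_right _ _)) s0.le
      linarith [ht, h2]
    · rw [h0, norm_zero, zero_add] at ht
      refine ht.trans (le_min ?_ ?_)
      · calc c.s * ‖tl q‖ ≤ c.s * (8 / P.V * P.dd c.Hc (q 0) (q 1)) :=
              mul_le_mul_of_nonneg_left (hpe.trans (min_le_left _ _)) s0.le
          _ = 8 / P.V * (c.s * P.dd c.Hc (q 0) (q 1)) := by ring
          _ ≤ _ := mul_le_mul_of_nonneg_left hd (by positivity)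
      · calc c.s * ‖tl q‖ ≤ 1 * 2 :=
              mul_le_mul hs (hpe.trans (min_le_right _ _)) (norm_nonneg _) zero_le_one
          _ = 2 := one_mul 2

end Vale.Agent.P208
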