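import Vale.Agent.P208.Geom

/-!
# Separation of the children
-/

noncomputable section

open scoped InnerProductSpace

namespace Vale.Agent.P208

variable {P : Pm}

lemma coord_dist (p q : E) (n : ℕ) : |p n - q n| ≤ ‖p - q‖ := by
  simpa using abs_at_le (p - q) n

lemma lift_at_own {N : ℕ} {a b : Fin N} (h : a ≠ b) :
    lift (Sum.inr ⟨(a, b), h⟩ : Row N) (2 + a.val) = 1 := by simp [lift]

lemma lift_at_other {N : ℕ} {c a : Fin N} (h : c ≠ a) {r : Row N} (hn : isNode c r) :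
    lift r (2 + a.val) = 0 := by
  rcases lift_node hn with g | g
  · simp [g]
  · rw [g]
    have : a.val ≠ c.val := fun hh => h (Fin.ext hh.symm)
    exact e_ne (by omega)

lemma tl_at_hi (p : E) (j : ℕ) : tl p (2 + j) = p (2 + j) := by
  rw [tl_at, if_neg (by omega)]

lemma not_host {m : ℕ} {c : Fin P.N} {r : Row P.N} (hm : m < P.M) (h : ¬ P.Host m c r) :
    r = top ∨ ∃ a b : Fin P.N, ∃ hab : a ≠ b, r = Sum.inr ⟨(a, b), hab⟩ ∧ c ≠ a := by
  by_cases ht : r = top
  · exact Or.inl ht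
  · right
    rcases r with i | ⟨⟨a, b⟩, hab⟩
    · exact absurd ⟨hm, trivial, ht⟩ h
    · exact ⟨a, b, hab, rfl, fun hc => h ⟨hm, hc.symm, ht⟩⟩

/-- Two fillers of the same segment. -/
lemma same_seg (ok : P.Ok) {m : ℕ} {H : ℝ} (hR : P.Rg m H) {r : Row P.N} {k l l' : ℕ}
    (hk : k < P.L) (hll : l ≠ l') {x y x' y' : ℝ} (hx' : |x'| ≤ P.H₀ / 2) :
    (P.child m H (.fill r k l)).s * (P.H₀ / 2 - |x|) ≤
      ‖(P.child m H (.fill r k l)).pl x y - (P.child m H (.fill r k l')).pl x' y'‖ := by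
  obtain ⟨-, -, hg⟩ := seg_norm ok hR r hk
  have ho := fill_orth ok hR r hk (l := l)
  obtain ⟨C, hC⟩ : ∃ C, P.child m H (.fill r k l) = C := ⟨_, rfl⟩
  have hs : C.s = (1 - 2 * P.mu) * ‖P.seg H r k‖ / (P.nf * P.H₀) := by rw [← hC]; rfl
  have hs' : (P.child m H (.fill r k l')).s = C.s := by rw [← hC]; rfl
  have hU : C.U = ‖P.seg H r k‖⁻¹ • P.seg H r k := by rw [← hC]; rfl
  have hW : C.W = P.nrm H r k := by rw [← hC]; rfl
  rw [hC] at ho
  have hnf : (0 : ℝ) < P.nf := by exact_mod_cast ok.hnf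
  have h0 := ok.H₀_pos
  set t : ℝ := x - x' + ((l : ℝ) - l') * P.H₀ with ht
  have key : (P.child m H (.fill r k l)).pl x y - (P.child m H (.fill r k l')).pl x' y'
      = (C.s * t) • C.U + (C.s * (y - y')) • C.W := by
    rw [fill_pl ok hR r hk, fill_pl ok hR r hk, hC, hs', hU, hW, smul_smul]
    have e1 : C.s * t * ‖P.seg H r k‖⁻¹ = P.theta l x - P.theta l' x' := by
      rw [hs, ht, Pm.theta, Pm.theta]; field_simp; ring
    rw [e1]; module
  rw [key, hC]
  have hperp : ⟪(C.s * t) • C.U, (C.s * (y - y')) • C.W⟫_ℝ = 0 := by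
    rw [real_inner_smul_left, real_inner_smul_right, ho.perpUW]; ring
  have h2 := norm_add_sq_real ((C.s * t) • C.U) ((C.s * (y - y')) • C.W)
  rw [hperp] at h2
  have h3 : ‖(C.s * t) • C.U‖ ≤ ‖(C.s * t) • C.U + (C.s * (y - y')) • C.W‖ := by
    apply (sq_le_sq₀ (norm_nonneg _) (norm_nonneg _)).1
    linarith [sq_nonneg ‖(C.s * (y - y')) • C.W‖]
  refine le_trans ?_ h3
  rw [norm_smul, ho.nU, mul_one, Real.norm_eq_abs, abs_mul, abs_of_pos ho.s_pos]
  refine mul_le_mul_of_nonneg_left ?_ ho.s_pos.le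
  have hl : (1 : ℝ) ≤ |(l : ℝ) - l'| := by
    rcases Nat.lt_or_gt_of_ne hll with h | h
    · have : (l : ℝ) + 1 ≤ l' := by exact_mod_cast h
      rw [abs_of_neg (by linarith)]; linarith
    · have : (l' : ℝ) + 1 ≤ l := by exact_mod_cast h
      rw [abs_of_pos (by linarith)]; linarith
  have h4 : P.H₀ ≤ |((l : ℝ) - l') * P.H₀| := by
    rw [abs_mul, abs_of_pos h0]; exact le_mul_of_one_le_left h0.le hl
  have h5 := abs_sub_abs_le_abs_sub (((l : ℝ) - l') * P.H₀) (x' - x)
  have h6 : ((l : ℝ) - l') * P.H₀ - (x' - x) = t := by rw [ht]; ring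
  rw [h6] at h5
  linarith [abs_sub x' x]

/-- Two fillers on end segments of different rows. -/
lemma branch_sep (ok : P.Ok) {m : ℕ} {H : ℝ} (hR : P.Rg m H) {r r' : Row P.N} {k l l' : ℕ}
    (hk : k < P.L) (hb : P.Branch k) (hd : 300 ≤ |P.ht r - P.ht r'|)
    (hl : l < P.nf) (hl' : l' < P.nf)
    {x y x' y' : ℝ} (hB : P.Box P.H₀ x y) (hB' : P.Box P.H₀ x' y') :
    P.mu ≤ ‖(P.child m H (.fill r k l)).pl x y - (P.child m H (.fill r' k l')).pl x' y'‖ := by
  obtain ⟨p0, p1, -⟩ := fill_branch ok hR r hk hb x y (m := m) (l := l)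
  obtain ⟨q0, q1, -⟩ := fill_branch ok hR r' hk hb x' y' (m := m) (l := l')
  obtain ⟨C, hC⟩ : ∃ C, P.child m H (.fill r k l) = C := ⟨_, rfl⟩
  obtain ⟨C', hC'⟩ : ∃ C, P.child m H (.fill r' k l') = C := ⟨_, rfl⟩
  obtain ⟨-, hsV, -⟩ := fill_small ok hR r hk (l := l)
  obtain ⟨-, hsV', -⟩ := fill_small ok hR r' hk (l := l')
  have s0 := (fill_orth ok hR r hk (l := l)).s_pos
  have s0' := (fill_orth ok hR r' hk (l := l')).s_pos
  obtain ⟨t1, t2⟩ := theta_mem ok hl hB.1
  obtain ⟨t1', t2'⟩ := theta_mem ok hl' hB'.1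
  rw [hC] at p0 p1 hsV s0
  rw [hC'] at q0 q1 hsV' s0'
  rw [hC, hC']
  have d0 := coord_dist (C.pl x y) (C'.pl x' y') 0
  have d1 := coord_dist (C.pl x y) (C'.pl x' y') 1
  by_contra hcon
  push Not at hcon
  set D := ‖C.pl x y - C'.pl x' y'‖
  rw [abs_le] at d0 d1
  have hu : ∀ (q : Row P.N) (n : ℕ), |P.seg H q k n / ‖P.seg H q k‖| ≤ 1 := by
    intro q n
    rw [abs_div, abs_norm, div_le_one (seg_norm ok hR q hk).2.2]
    exact abs_at_le _ _
  have eb : ∀ (s w u : ℝ), 0 < s → 0 ≤ w → w ≤ P.V → s * P.V ≤ P.mu / 100000 → |u| ≤ 1 →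
      |s * w * u| ≤ P.mu / 100000 := by
    intro s w u hs hw hwV hsV hu
    rw [abs_mul, abs_of_nonneg (mul_nonneg hs.le hw)]
    exact ((mul_le_of_le_one_right (mul_nonneg hs.le hw) hu).trans
      (mul_le_mul_of_nonneg_left hwV hs.le)).trans hsV
  have e1 := abs_le.1 (eb _ _ _ s0 hB.2.1 hB.2.2 hsV (hu r 1))
  have e2 := abs_le.1 (eb _ _ _ s0' hB'.2.1 hB'.2.2 hsV' (hu r' 1))
  have e3 := abs_le.1 (eb _ _ _ s0 hB.2.1 hB.2.2 hsV (hu r 0))
  have e4 := abs_le.1 (eb _ _ _ s0' hB'.2.1 hB'.2.2 hsV' (hu r' 0))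
  obtain ⟨dx, -⟩ := xv_step ok hR hk
  have hρ := ok.rho_big hR
  have hV := ok.V_big
  have hμ := ok.hmu
  set Δ := P.xv H (k + 1) - P.xv H k
  have hΔ : 1024 * P.V ≤ Δ := by linarith
  have hθ : |P.theta l x - P.theta l' x'| * Δ ≤ 2 * P.mu := by
    rw [← abs_of_pos (show 0 < Δ by linarith), ← abs_mul, abs_le]
    constructor <;> nlinarith
  obtain ⟨hm, hm'⟩ := ht_mem ok r'
  obtain ⟨φ, φ', hφ, hΔφ, hy⟩ : ∃ φ φ' : ℝ, P.mu ≤ φ ∧
      |φ - φ'| = |P.theta l x - P.theta l' x'| ∧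
      |φ * P.ht r - φ' * P.ht r'| ≤ 2 * P.mu := by
    have hN : P.L = 3 * P.N + 8 := rfl
    rcases hb with rfl | hlast
    · refine ⟨_, _, t1, rfl, ?_⟩
      rw [seg_one, yv_mid r (by omega : (0 + 1 : ℕ) ≠ 0) (by omega),
        show P.yv r 0 = 0 from if_pos (Or.inl rfl)] at p1
      rw [seg_one, yv_mid r' (by omega : (0 + 1 : ℕ) ≠ 0) (by omega),
        show P.yv r' 0 = 0 from if_pos (Or.inl rfl)] at q1
      rw [abs_le]; constructor <;> linarith
    · refine ⟨1 - P.theta l x, 1 - P.theta l' x', by linarith, ?_, ?_⟩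
      · rw [← abs_neg]; congr 1; ring
      rw [seg_one, yv_mid r (by omega) hk,
        show P.yv r (k + 1) = 0 from if_pos (Or.inr (by omega))] at p1
      rw [seg_one, yv_mid r' (by omega) hk,
        show P.yv r' (k + 1) = 0 from if_pos (Or.inr (by omega))] at q1
      rw [abs_le]; constructor <;> linarith
  have h1 : φ * (P.ht r - P.ht r') = (φ * P.ht r - φ' * P.ht r') - (φ - φ') * P.ht r' := by
    ring
  have h2 : φ * |P.ht r - P.ht r'| ≤ 2 * P.mu + |φ - φ'| * P.V := by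
    calc φ * |P.ht r - P.ht r'| = |φ * (P.ht r - P.ht r')| := by
          rw [abs_mul, abs_of_pos (by linarith : 0 < φ)]
      _ ≤ |φ * P.ht r - φ' * P.ht r'| + |(φ - φ') * P.ht r'| := by rw [h1]; exact abs_sub _ _
      _ ≤ _ := by
          rw [abs_mul, abs_of_nonneg hm]
          exact add_le_add hy (mul_le_mul_of_nonneg_left hm' (abs_nonneg _))
  rw [hΔφ] at h2
  have h3 : P.mu * 300 ≤ φ * |P.ht r - P.ht r'| := mul_le_mul hφ hd (by norm_num) (by linarith)
  have h4 : |P.theta l x - P.theta l' x'| * P.V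
      ≤ |P.theta l x - P.theta l' x'| * Δ :=
    mul_le_mul_of_nonneg_left (by linarith) (abs_nonneg _)
  linarith

/-- A filler versus a centred child. -/
lemma fill_col_sep (ok : P.Ok) {m : ℕ} {H : ℝ} (hR : P.Rg m H) {r r' : Row P.N} {c : Fin P.N}
    {k l : ℕ} (hi : P.Valid m (.fill r k l)) (hj : P.Valid m (.col c r'))
    (hk : k + 1 = colk c ∨ k = colk c) {x y x' y' : ℝ}
    (hB : P.Box P.H₀ x y) (hB' : 0 ≤ y' ∧ y' ≤ P.V) :
    P.mu * P.nu ≤ ‖(P.child m H (.fill r k l)).pl x y - (P.child m H (.col c r')).pl x' y'‖ := by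
  obtain ⟨hkL, hl, -, hhost⟩ := hi
  obtain ⟨hm, hn, hr⟩ := hj
  have hck := colk_lt (P := P) c
  have hck' : 7 ≤ colk c := by unfold colk; omega
  have hck'' : colk c + 4 ≤ P.L := by have := c.isLt; unfold colk Pm.L; omega
  have hbr : ¬ P.Branch k := by unfold Pm.Branch; omega
  obtain ⟨-, ⟨p1t, p1⟩, p2⟩ := fill_mid ok hR r hkL hbr x y (m := m) (l := l)
  obtain ⟨-, q1, q2⟩ := col_pl ok H hn hr x' y' (m := m)
  obtain ⟨n1, n2, -⟩ := nxt_spec ok c hr
  obtain ⟨d1, -, -, -⟩ := gap_norm ok H hn hr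
  obtain ⟨C, hC⟩ : ∃ C, P.child m H (.fill r k l) = C := ⟨_, rfl⟩
  obtain ⟨C', hC'⟩ : ∃ C, P.child m H (.col c r') = C := ⟨_, rfl⟩
  obtain ⟨hs, -, -⟩ := fill_small ok hR r hkL (l := l)
  have s0 := (fill_orth ok hR r hkL (l := l)).s_pos
  rw [hC] at p1t p1 p2 hs s0
  rw [hC'] at q1 q2
  rw [hC, hC']
  have hν := ok.hnu
  have hν' := ok.hnu'
  have hμ := ok.hmu
  have hμ' := ok.hmu'
  have hμν : P.mu * P.nu ≤ P.nu := mul_le_of_le_one_left hν.le (by linarith)
  have hnot : ¬ P.Host m c r := fun h => by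
    obtain ⟨g1, g2⟩ := hhost c h
    omega
  rcases not_host hm hnot with ht | ⟨a, b, hab, rfl, hca⟩
  · have hy := p1t ht
    have hT : P.ht r = P.V := by rw [ht, ht_top]
    set τ := (1 - P.nu) * y' / P.V with hτ
    have τ1 : τ ≤ 1 - P.nu := by
      rw [hτ, div_le_iff₀ ok.V_pos]; exact mul_le_mul_of_nonneg_left hB'.2 (by linarith)
    have h1 : τ * (P.ht (P.nxt c r') - P.ht r') ≤ (1 - P.nu) * (P.ht (P.nxt c r') - P.ht r') :=
      mul_le_mul_of_nonneg_right τ1 (by linarith)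
    have h2 : P.nu * 300 ≤ P.nu * (P.ht (P.nxt c r') - P.ht r') :=
      mul_le_mul_of_nonneg_left d1 hν.le
    have h3 : C.s * y ≤ C.s * P.V := mul_le_mul_of_nonneg_left hB.2.2 s0.le
    have := (ht_mem ok (P.nxt c r')).2
    have := (le_abs_self _).trans (coord_dist (C.pl x y) (C'.pl x' y') 1)
    linarith
  · obtain ⟨-, -, A1⟩ := mid_amp ok hkL hbr hl hB.1
    have hA := A1 (by omega) (by omega)
    have := (le_abs_self _).trans (coord_dist (C.pl x y) (C'.pl x' y') (2 + a.val))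
    rw [← tl_at_hi, ← tl_at_hi (C'.pl x' y'), p2, q2, hA] at this
    rw [one_smul, add_at, smul_at, smul_at, lift_at_other hca hn, lift_at_other hca n1,
      lift_at_own hab] at this
    linarith

/-- Possible other points near a child. -/
def Pm.Other (P : Pm) (m : ℕ) (H : ℝ) (i : Idx P.N) (z : E) : Prop :=
  z ∈ P.verts H ∨ ∃ j, P.Valid m j ∧ j ≠ i ∧ ∃ x y, P.Box (P.child m H j).Hc x y ∧
    z = (P.child m H j).pl x y

lemma colk_x (H : ℝ) (c : Fin P.N) :
    P.xv H (colk c - 1) = ((c.val : ℝ) + 1) * (H / P.K) - H / P.K / 4 ∧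
    P.xv H (colk c + 1) = ((c.val : ℝ) + 1) * (H / P.K) + H / P.K / 4 := by
  have := c.isLt
  constructor
  · rw [show colk c - 1 = 3 + 3 * (c.val + 1) by unfold colk; omega, xv_left H (by omega)]
    push_cast; ring
  · rw [show colk c + 1 = 5 + 3 * (c.val + 1) by unfold colk; omega, xv_right H (by omega)]
    push_cast; ring

lemma col_x (ok : P.Ok) {m : ℕ} {H : ℝ} {c : Fin P.N} {r : Row P.N} (hn : isNode c r)
    (hr : r ≠ top) {x y : ℝ} (hx : |x| ≤ (P.child m H (.col c r)).Hc / 2) :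
    P.xv H (colk c - 1) ≤ ((P.child m H (.col c r)).pl x y) 0 ∧
      ((P.child m H (.col c r)).pl x y) 0 ≤ P.xv H (colk c + 1) := by
  obtain ⟨p0, -, -⟩ := col_pl ok H hn hr x y (m := m)
  have s0 := (col_orth ok H hn hr (m := m)).s_pos
  obtain ⟨C, hC⟩ : ∃ C, P.child m H (.col c r) = C := ⟨_, rfl⟩
  have hH : C.Hc = H / P.K / (2 * C.s) := by rw [← hC]; rfl
  rw [hC] at p0 s0 hx ⊢
  obtain ⟨e1, e2⟩ := colk_x (P := P) H c
  rw [e1, e2, p0]
  have h : |C.s * x| ≤ H / P.K / 4 := by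
    rw [abs_mul, abs_of_pos s0]
    calc C.s * |x| ≤ C.s * (C.Hc / 2) := mul_le_mul_of_nonneg_left hx s0.le
      _ = H / P.K / 4 := by rw [hH]; field_simp; ring
  rw [abs_le] at h
  constructor <;> linarith

lemma fill_sep (ok : P.Ok) {m : ℕ} {H : ℝ} (hR : P.Rg m H) {r : Row P.N} {k l : ℕ}
    (hi : P.Valid m (.fill r k l)) {x y : ℝ} (hb : P.Box P.H₀ x y) {z : E}
    (hz : P.Other m H (.fill r k l) z) :
    64 * ((P.child m H (.fill r k l)).s * P.pe P.H₀ x y) ≤
      ‖(P.child m H (.fill r k l)).pl x y - z‖ := by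
  have hi' := hi
  obtain ⟨hk, hl, hcan, hhost⟩ := hi
  obtain ⟨fx1, fx2⟩ := fill_x ok hR r hk hl hb (m := m)
  obtain ⟨hs, -, -⟩ := fill_small ok hR r hk (l := l)
  have s0 := (fill_orth ok hR r hk (l := l)).s_pos
  have hsame := fun (l' : ℕ) (h : l ≠ l') (x' y' : ℝ) (hx' : |x'| ≤ P.H₀ / 2) =>
    same_seg ok hR (r := r) (m := m) hk h (x := x) (y := y) (y' := y') hx'
  have hbranch := fun (r' : Row P.N) (l' : ℕ) (hb' : P.Branch k) (h : 300 ≤ |P.ht r - P.ht r'|)
      (h' : l' < P.nf) (x' y' : ℝ) (hB' : P.Box P.H₀ x' y') =>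
    branch_sep ok hR (m := m) hk hb' h hl h' hb hB'
  have hcol := fun (c : Fin P.N) (r' : Row P.N) (hj : P.Valid m (.col c r'))
      (hk' : k + 1 = colk c ∨ k = colk c) (x' y' : ℝ) (hy' : 0 ≤ y' ∧ y' ≤ P.V) =>
    fill_col_sep ok hR hi' hj hk' hb (x' := x') hy'
  have hμ := ok.hmu
  have hν := ok.hnu
  have hν' := ok.hnu'
  have hV := ok.V_big
  have hμν : P.mu * P.nu ≤ P.mu := mul_le_of_le_one_right hμ.le (by linarith)
  have hμV : P.mu * 1 ≤ P.mu * P.V := mul_le_mul_of_nonneg_left (by linarith) hμ.le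
  obtain ⟨C, hC⟩ : ∃ C, P.child m H (.fill r k l) = C := ⟨_, rfl⟩
  rw [hC] at fx1 fx2 hs s0 hsame hbranch hcol ⊢
  have hsmall : 64 * (C.s * P.pe P.H₀ x y) ≤ P.mu * P.nu := by
    have h1 : C.s * P.pe P.H₀ x y ≤ C.s * 2 :=
      mul_le_mul_of_nonneg_left (min_le_right _ _) s0.le
    have h2 : C.s * 1 ≤ C.s * P.V := mul_le_mul_of_nonneg_left (by linarith) s0.le
    linarith [mul_nonneg hμ.le hν.le]
  rcases hz with ⟨r', k', hk', rfl⟩ | ⟨j, hj, hji, x', y', hb', rfl⟩
  · refine hsmall.trans ?_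
    have := coord_dist (C.pl x y) (P.vert H r' k') 0
    rw [vert_zero, abs_le] at this
    rcases xv_outside ok hR hk hk' with h | h <;> linarith
  cases j with
  | col c r' =>
    refine hsmall.trans ?_
    obtain ⟨hm, hn, hr⟩ := hj
    obtain ⟨cx1, cx2⟩ := col_x ok hn hr hb'.1 (H := H) (m := m) (y := y')
    have hck := colk_lt (P := P) c
    by_cases hk2 : k + 1 = colk c ∨ k = colk c
    · exact hcol c r' ⟨hm, hn, hr⟩ hk2 x' y' hb'.2
    · have := coord_dist (C.pl x y) ((P.child m H (.col c r')).pl x' y') 0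
      rw [abs_le] at this
      rcases Nat.lt_or_ge k (colk c) with g | g
      · have := xv_mono ok hR (show k + 1 ≤ colk c - 1 by omega) (by omega)
        linarith
      · have := xv_mono ok hR (show colk c + 1 ≤ k by omega) (by omega)
        linarith
  | fill r' k' l' =>
    obtain ⟨hk', hl', hcan', -⟩ := hj
    have hB' : P.Box P.H₀ x' y' := hb'
    obtain ⟨gx1, gx2⟩ := fill_x ok hR r' hk' hl' hB' (m := m)
    by_cases hkk : k = k'
    swap
    · refine hsmall.trans ?_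
      have := coord_dist (C.pl x y) ((P.child m H (.fill r' k' l')).pl x' y') 0
      rw [abs_le] at this
      rcases Nat.lt_or_gt_of_ne hkk with g | g
      · have := xv_mono ok hR (show k + 1 ≤ k' from g) hk'.le
        linarith
      · have := xv_mono ok hR (show k' + 1 ≤ k from g) hk.le
        linarith
    subst hkk
    by_cases hrr : r = r'
    · subst hrr
      have hll : l ≠ l' := fun h => hji (by rw [h])
      refine le_trans ?_ (hsame l' hll x' y' hB'.1)
      have hdd : P.dd P.H₀ x y ≤ P.H₀ / 2 - |x| := min_le_right _ _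
      have h8 : 64 * (8 / P.V) ≤ 1 := by
        rw [← mul_div_assoc, div_le_one ok.V_pos]; linarith
      calc 64 * (C.s * P.pe P.H₀ x y) ≤ 64 * (C.s * (8 / P.V * P.dd P.H₀ x y)) := by
            gcongr; exact min_le_left _ _
        _ = 64 * (8 / P.V) * (C.s * P.dd P.H₀ x y) := by ring
        _ ≤ 1 * (C.s * P.dd P.H₀ x y) :=
            mul_le_mul_of_nonneg_right h8 (mul_nonneg s0.le (dd_nonneg hb))
        _ ≤ _ := by rw [one_mul]; exact mul_le_mul_of_nonneg_left hdd s0.le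
    refine hsmall.trans ?_
    by_cases hbr : P.Branch k
    · exact hμν.trans
        (hbranch r' l' hbr (canon_sep ok (hcan hbr) (hcan' hbr) hrr) hl' x' y' hB')
    · obtain ⟨-, ⟨p1t, p1⟩, p2⟩ := fill_mid ok hR r hk hbr x y (m := m) (l := l)
      obtain ⟨-, ⟨q1t, q1⟩, q2⟩ := fill_mid ok hR r' hk' hbr x' y' (m := m) (l := l')
      obtain ⟨-, hs', hs2'⟩ := fill_small ok hR r' hk' (l := l')
      have s0' := (fill_orth ok hR r' hk' (l := l')).s_pos
      obtain ⟨C', hC'⟩ : ∃ C', P.child m H (.fill r' k l') = C' := ⟨_, rfl⟩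
      rw [hC'] at q1t q1 q2 hs' s0' ⊢
      rw [hC] at p1t p1 p2
      rcases ht_sep ok r r' with g | ⟨a, b, hab, hba, rfl, rfl⟩ | g
      · exact absurd g hrr
      · have := (le_abs_self _).trans (coord_dist (C.pl x y) (C'.pl x' y') (2 + a.val))
        rw [← tl_at_hi, ← tl_at_hi (C'.pl x' y'), p2, q2, smul_at, smul_at, lift_at_own hab,
          lift_at_other hba (show isNode b (Sum.inr ⟨(b, a), hba⟩ : Row P.N) from rfl)] at this
        obtain ⟨A0, -, -⟩ := mid_amp ok hk hbr hl hb.1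
        linarith
      · have d := abs_le.1 (coord_dist (C.pl x y) (C'.pl x' y') 1)
        have a1 : 0 ≤ C.s * y := mul_nonneg s0.le hb.2.1
        have a2 : C.s * y ≤ C.s * P.V := mul_le_mul_of_nonneg_left hb.2.2 s0.le
        have a3 : 0 ≤ C'.s * y' := mul_nonneg s0'.le hB'.2.1
        have a4 : C'.s * y' ≤ C'.s * P.V := mul_le_mul_of_nonneg_left hB'.2.2 s0'.le
        have hμ' := ok.hmu'
        have e1 : |(C.pl x y) 1 - P.ht r| ≤ 1 := by
          by_cases ht : r = top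
          · rw [p1t ht, abs_le]; constructor <;> linarith
          · rw [p1 ht, abs_le]; constructor <;> linarith
        have e2 : |(C'.pl x' y') 1 - P.ht r'| ≤ 1 := by
          by_cases ht : r' = top
          · rw [q1t ht, abs_le]; constructor <;> linarith
          · rw [q1 ht, abs_le]; constructor <;> linarith
        rw [abs_le] at e1 e2
        rcases le_abs.1 g with g | g <;> linarith

lemma col_sep (ok : P.Ok) {m : ℕ} {H : ℝ} (hR : P.Rg m H) {c : Fin P.N} {r : Row P.N}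
    (hi : P.Valid m (.col c r)) {x y : ℝ} (hb : P.Box (P.child m H (.col c r)).Hc x y) {z : E}
    (hz : P.Other m H (.col c r) z) :
    64 * ((P.child m H (.col c r)).s * P.pe (P.child m H (.col c r)).Hc x y) ≤
      ‖(P.child m H (.col c r)).pl x y - z‖ := by
  obtain ⟨hm, hn, hr⟩ := hi
  obtain ⟨p0, p1, p2⟩ := col_pl ok H hn hr x y (m := m)
  have s0 := (col_orth ok H hn hr (m := m)).s_pos
  obtain ⟨d1, d2, d3, d4⟩ := gap_norm ok H hn hr
  obtain ⟨-, -, s3⟩ := col_s ok H hn hr (m := m)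
  obtain ⟨n1, n2, n3⟩ := nxt_spec ok c hr
  obtain ⟨C, hC⟩ : ∃ C, P.child m H (.col c r) = C := ⟨_, rfl⟩
  have hH : C.Hc = H / P.K / (2 * C.s) := by rw [← hC]; rfl
  have hs : C.s = (1 - P.nu) * ‖P.gap H c r‖ / P.V := by rw [← hC]; rfl
  rw [hC] at hb p0 p1 p2 s0 s3 ⊢
  obtain ⟨hx, hy0, hyV⟩ := hb
  have hV := ok.V_big
  have hν := ok.hnu
  have hν' := ok.hnu'
  have hdd0 : 0 ≤ C.s * P.dd C.Hc x y := mul_nonneg s0.le (dd_nonneg ⟨hx, hy0, hyV⟩)
  set τ := (1 - P.nu) * y / P.V with hτ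
  set Δ := P.ht (P.nxt c r) - P.ht r with hΔ
  have hpe1 : 64 * (C.s * P.pe C.Hc x y) ≤ C.s * P.dd C.Hc x y / 2 := by
    have h8 : 64 * (8 / P.V) ≤ 1 / 2 := by
      rw [← mul_div_assoc, div_le_iff₀ ok.V_pos]; linarith
    calc 64 * (C.s * P.pe C.Hc x y) ≤ 64 * (C.s * (8 / P.V * P.dd C.Hc x y)) := by
          gcongr; exact min_le_left _ _
      _ = 64 * (8 / P.V) * (C.s * P.dd C.Hc x y) := by ring
      _ ≤ 1 / 2 * (C.s * P.dd C.Hc x y) := mul_le_mul_of_nonneg_right h8 hdd0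
      _ = _ := by ring
  -- outside in the first coordinate
  have caseX : z 0 ≤ P.xv H (colk c - 1) ∨ P.xv H (colk c + 1) ≤ z 0 →
      64 * (C.s * P.pe C.Hc x y) ≤ ‖C.pl x y - z‖ := by
    intro h
    obtain ⟨e1, e2⟩ := colk_x (P := P) H c
    rw [e1, e2] at h
    have d := coord_dist (C.pl x y) z 0
    rw [p0, abs_le] at d
    have h1 : C.s * P.dd C.Hc x y ≤ C.s * (C.Hc / 2 - |x|) :=
      mul_le_mul_of_nonneg_left (min_le_right _ _) s0.le
    have h2 : C.s * (C.Hc / 2) = H / P.K / 4 := by rw [hH]; field_simp; ring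
    have h3 : C.s * x ≤ C.s * |x| ∧ -(C.s * |x|) ≤ C.s * x :=
      ⟨mul_le_mul_of_nonneg_left (le_abs_self _) s0.le, by
        rw [← mul_neg]; exact mul_le_mul_of_nonneg_left (neg_abs_le _) s0.le⟩
    rw [mul_sub, h2] at h1
    rcases h with h | h <;> linarith
  -- outside in the second coordinate
  have caseY : z 1 ≤ P.ht r ∨ P.ht r + (1 - P.nu) * Δ ≤ z 1 →
      64 * (C.s * P.pe C.Hc x y) ≤ ‖C.pl x y - z‖ := by
    intro h
    have d := coord_dist (C.pl x y) z 1
    rw [p1, abs_le] at d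
    have hg : ‖P.gap H c r‖ ≤ 2 * Δ := by linarith
    have h1 : C.s * y ≤ 2 * (τ * Δ) := by
      calc C.s * y = (1 - P.nu) * y / P.V * ‖P.gap H c r‖ := by rw [hs]; ring
        _ ≤ τ * (2 * Δ) := mul_le_mul_of_nonneg_left hg
            (div_nonneg (mul_nonneg (by linarith) hy0) ok.V_pos.le)
        _ = _ := by ring
    have h2 : C.s * (P.V - y) ≤ 2 * ((1 - P.nu - τ) * Δ) := by
      calc C.s * (P.V - y) = (1 - P.nu) * (P.V - y) / P.V * ‖P.gap H c r‖ := by rw [hs]; ring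
        _ ≤ (1 - P.nu) * (P.V - y) / P.V * (2 * Δ) := mul_le_mul_of_nonneg_left hg
            (div_nonneg (mul_nonneg (by linarith) (by linarith)) ok.V_pos.le)
        _ = _ := by
            rw [hτ]
            have := ok.V_pos.ne'
            field_simp
    have h3 : C.s * P.dd C.Hc x y ≤ C.s * y :=
      mul_le_mul_of_nonneg_left ((min_le_left _ _).trans (min_le_left _ _)) s0.le
    have h4 : C.s * P.dd C.Hc x y ≤ C.s * (P.V - y) :=
      mul_le_mul_of_nonneg_left ((min_le_left _ _).trans (min_le_right _ _)) s0.le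
    rcases h with h | h <;> linarith
  -- a crossing row
  have caseL : ∀ (a b : Fin P.N) (hab : a ≠ b), c ≠ a → tl z (2 + a.val) = 1 →
      |z 1 - P.ht (Sum.inr ⟨(a, b), hab⟩ : Row P.N)| ≤ 1 →
      64 * (C.s * P.pe C.Hc x y) ≤ ‖C.pl x y - z‖ := by
    intro a b hab hca hz1 hzy
    rcases gap_cases ok c hr with ⟨la, lb, -, h⟩ | ⟨h, -, -⟩
    · rw [abs_le] at hzy
      have hνΔ : 0 ≤ P.nu * Δ := mul_nonneg hν.le (by linarith)
      rcases h ⟨(a, b), hab⟩ with g | g
      · exact caseY (Or.inl (by linarith))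
      · exact caseY (Or.inr (by linarith))
    · have hs' : C.s ≤ 1 / 256 := by
        rw [hs, div_le_iff₀ ok.V_pos]
        have : (1 - P.nu) * ‖P.gap H c r‖ ≤ ‖P.gap H c r‖ :=
          mul_le_of_le_one_left (norm_nonneg _) (by linarith)
        linarith
      have hd := (neg_le_abs _).trans (coord_dist (C.pl x y) z (2 + a.val))
      rw [← tl_at_hi, ← tl_at_hi z, hz1, p2, add_at, smul_at, smul_at,
        lift_at_other hca hn, lift_at_other hca n1] at hd
      have : C.s * P.pe C.Hc x y ≤ C.s * 2 :=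
        mul_le_mul_of_nonneg_left (min_le_right _ _) s0.le
      linarith
  -- rows that are nodes of this column
  have caseN : ∀ q : Row P.N, isNode c q → z 1 = P.ht q →
      64 * (C.s * P.pe C.Hc x y) ≤ ‖C.pl x y - z‖ := by
    intro q hq hzq
    rcases le_or_gt (P.ht q) (P.ht r) with g | g
    · exact caseY (Or.inl (by rw [hzq]; exact g))
    · have := n3 q hq g
      have hνΔ : 0 ≤ P.nu * Δ := mul_nonneg hν.le (by linarith)
      exact caseY (Or.inr (by linarith))
  have hck := colk_lt (P := P) c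
  have hck' : 7 ≤ colk c := by unfold colk; omega
  have hck'' : colk c + 4 ≤ P.L := by have := c.isLt; unfold colk Pm.L; omega
  rcases hz with ⟨r', k', hk', rfl⟩ | ⟨j, hj, hji, x', y', hb', rfl⟩
  · rcases Nat.lt_trichotomy k' (colk c) with g | g | g
    · exact caseX (Or.inl (by rw [vert_zero]; exact xv_mono ok hR (by omega) (by omega)))
    · subst g
      by_cases hq : isNode c r'
      · exact caseN r' hq (by rw [vert_one, yv_colk])
      · rcases r' with i | ⟨⟨a, b⟩, hab⟩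
        · exact absurd trivial hq
        · refine caseL a b hab (fun h => hq h.symm) ?_ ?_
          · rw [tl_vert, amp_colk, one_smul, lift_at_own hab]
          · rw [vert_one, yv_colk, sub_self, abs_zero]; norm_num
    · exact caseX (Or.inr (by rw [vert_zero]; exact xv_mono ok hR (by omega) hk'))
  cases j with
  | col c' r' =>
    obtain ⟨-, hn', hr'⟩ := hj
    by_cases hcc : c' = c
    · subst hcc
      have hne : r' ≠ r := fun h => hji (by rw [h])
      obtain ⟨-, q1, -⟩ := col_pl ok H hn' hr' x' y' (m := m)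
      obtain ⟨m1, m2, m3⟩ := nxt_spec ok c' hr'
      obtain ⟨e1, -, -, -⟩ := gap_norm ok H hn' hr'
      have τ0 : 0 ≤ (1 - P.nu) * y' / P.V :=
        div_nonneg (mul_nonneg (by linarith) hb'.2.1) ok.V_pos.le
      have τ1 : (1 - P.nu) * y' / P.V ≤ 1 := by
        rw [div_le_one ok.V_pos]
        exact (mul_le_of_le_one_left hb'.2.1 (by linarith)).trans hb'.2.2
      have a0 := mul_nonneg τ0 (show 0 ≤ P.ht (P.nxt c' r') - P.ht r' by linarith)
      have a1 : (1 - P.nu) * y' / P.V * (P.ht (P.nxt c' r') - P.ht r')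
          ≤ 1 * (P.ht (P.nxt c' r') - P.ht r') := mul_le_mul_of_nonneg_right τ1 (by linarith)
      have hνΔ : 0 ≤ P.nu * Δ := mul_nonneg hν.le (by linarith)
      rcases le_abs.1 (node_sep ok hn' hn hne) with g | g
      · have := n3 r' hn' (by linarith)
        exact caseY (Or.inr (by rw [q1]; linarith))
      · have := m3 r hn (by linarith)
        exact caseY (Or.inl (by rw [q1]; linarith))
    · obtain ⟨cx1, cx2⟩ := col_x ok hn' hr' hb'.1 (H := H) (m := m) (y := y')
      have hck2 := colk_lt (P := P) c'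
      have hne : c'.val ≠ c.val := fun h => hcc (Fin.ext h)
      rcases Nat.lt_or_gt_of_ne hne with g | g
      · have := xv_mono ok hR (show colk c' + 1 ≤ colk c - 1 by unfold colk; omega) (by omega)
        exact caseX (Or.inl (by linarith))
      · have := xv_mono ok hR (show colk c + 1 ≤ colk c' - 1 by unfold colk; omega) (by omega)
        exact caseX (Or.inr (by linarith))
  | fill r' k' l' =>
    obtain ⟨hk', hl', -, hhost⟩ := hj
    have hB' : P.Box P.H₀ x' y' := hb'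
    obtain ⟨gx1, gx2⟩ := fill_x ok hR r' hk' hl' hB' (m := m)
    have hμV : 0 ≤ P.mu * P.V := mul_nonneg ok.hmu.le ok.V_pos.le
    by_cases hk2 : k' + 1 = colk c ∨ k' = colk c
    · have hbr : ¬ P.Branch k' := by unfold Pm.Branch; omega
      obtain ⟨-, ⟨q1t, q1⟩, q2⟩ := fill_mid ok hR r' hk' hbr x' y' (m := m) (l := l')
      obtain ⟨hsn, -, -⟩ := fill_small ok hR r' hk' (l := l')
      have s0' := (fill_orth ok hR r' hk' (l := l')).s_pos
      obtain ⟨C', hC'⟩ : ∃ C', P.child m H (.fill r' k' l') = C' := ⟨_, rfl⟩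
      rw [hC'] at q1t q1 q2 hsn s0' caseX caseY caseL caseN ⊢
      have a1 : 0 ≤ C'.s * y' := mul_nonneg s0'.le hB'.2.1
      have a2 : C'.s * y' ≤ C'.s * P.V := mul_le_mul_of_nonneg_left hB'.2.2 s0'.le
      have hμν : P.mu * P.nu ≤ 1 * P.nu :=
        mul_le_mul_of_nonneg_right (by linarith [ok.hmu']) hν.le
      have hnot : ¬ P.Host m c r' := fun h => by
        obtain ⟨g1, g2⟩ := hhost c h
        omega
      rcases not_host hm hnot with ht | ⟨a, b, hab, rfl, hca⟩
      · refine caseY (Or.inr ?_)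
        rw [q1t ht, show P.ht r' = P.V by rw [ht, ht_top]]
        have : P.nu * 300 ≤ P.nu * Δ := mul_le_mul_of_nonneg_left d1 hν.le
        have := (ht_mem ok (P.nxt c r)).2
        linarith
      · have hnt : (Sum.inr ⟨(a, b), hab⟩ : Row P.N) ≠ top := by simp [top]
        obtain ⟨-, -, A1⟩ := mid_amp ok hk' hbr hl' hB'.1
        refine caseL a b hab hca ?_ ?_
        · rw [q2, A1 (by omega) (by omega), one_smul, lift_at_own hab]
        · rw [q1 hnt, abs_le]; constructor <;> linarith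
    · rcases Nat.lt_or_ge k' (colk c) with g | g
      · have := xv_mono ok hR (show k' + 1 ≤ colk c - 1 by omega) (by omega)
        exact caseX (Or.inl (by linarith))
      · have := xv_mono ok hR (show colk c + 1 ≤ k' by omega) (by omega)
        exact caseX (Or.inr (by linarith))

/-- A point far from its plane is far from everything outside its child. -/
theorem sep (ok : P.Ok) {m : ℕ} {H : ℝ} (hR : P.Rg m H) {i : Idx P.N} (hi : P.Valid m i)
    {x y : ℝ} (hb : P.Box (P.child m H i).Hc x y) {z : E} (hz : P.Other m H i z) :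
    64 * ((P.child m H i).s * P.pe (P.child m H i).Hc x y) ≤
      ‖(P.child m H i).pl x y - z‖ := by
  cases i with
  | col c r => exact col_sep ok hR hi hb hz
  | fill r k l => exact fill_sep ok hR hi hb hz

end Vale.Agent.P208
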