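import Vale.Agent.P208.Climb
import Vale.Agent.P208.Doubling

/-!
# One doubling subset of `ℓ2` without a bi-Lipschitz image in any `ℝ^k`
-/

noncomputable section

open Metric

namespace Vale.Agent.P208

/-- The parameters of the `j`-th piece, with its depth. -/
lemma exists_piece (j : ℕ) : ∃ P : Pm, P.Ok ∧ ∃ n : ℕ,
    ∀ f : E → EuclideanSpace ℝ (Fin (Nat.unpair j).1),
      ¬ Bi (max 1 ((Nat.unpair j).2 : ℝ)) (P.pts n 0 P.H₀) f :=
  exists_node _ _ (le_max_left _ _)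

/-- Parameters of the `j`-th piece. -/
def par (j : ℕ) : Pm := (exists_piece j).choose

lemma par_ok (j : ℕ) : (par j).Ok := (exists_piece j).choose_spec.1

/-- Depth of the `j`-th piece. -/
def dep (j : ℕ) : ℕ := (exists_piece j).choose_spec.2.choose

lemma par_no (j : ℕ) : ∀ f : E → EuclideanSpace ℝ (Fin (Nat.unpair j).1),
    ¬ Bi (max 1 ((Nat.unpair j).2 : ℝ)) ((par j).pts (dep j) 0 (par j).H₀) f :=
  (exists_piece j).choose_spec.2.choose_spec

/-- The scale of the `j`-th piece. -/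
def rad (j : ℕ) : ℝ := (64 : ℝ)⁻¹ ^ j

lemma rad_pos (j : ℕ) : 0 < rad j := by unfold rad; positivity

/-- The placement of the `j`-th piece. -/
def plc (j : ℕ) (p : E) : E := rad j • (e 0 + (8 * (par j).H₀)⁻¹ • p)

/-- The `j`-th piece. -/
def piece (j : ℕ) : Set E := plc j '' (par j).pts (dep j) 0 (par j).H₀

/-- The counterexample. -/
def bad : Set E := ⋃ j, piece j

lemma plc_dist (j : ℕ) (p q : E) :
    ‖plc j p - plc j q‖ = rad j / (8 * (par j).H₀) * ‖p - q‖ := by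
  have h0 := (par_ok j).H₀_pos
  have : plc j p - plc j q = (rad j / (8 * (par j).H₀)) • (p - q) := by
    simp only [plc, div_eq_mul_inv]; module
  rw [this, norm_smul, Real.norm_of_nonneg (div_nonneg (rad_pos j).le (by positivity))]

lemma piece_norm {j : ℕ} {p : E} (hp : p ∈ piece j) :
    7 / 8 * rad j ≤ ‖p‖ ∧ ‖p‖ ≤ 9 / 8 * rad j := by
  obtain ⟨q, hq, rfl⟩ := hp
  have ok := par_ok j
  obtain ⟨⟨hx, hy0, hyV⟩, ht⟩ := kite ok _ 0 _ ((par j).rg_zero) q hq
  have hH := ok.H₀_pos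
  have ht2 : ‖tl q‖ ≤ 2 := ht.trans (min_le_right _ _)
  have hq' : ‖q‖ ≤ (par j).H₀ := by
    rw [eq_of_coords (p := q)]
    refine le_trans (norm_add_le_of_le (norm_add_le_of_le (r₁ := (par j).H₀ / 2) (r₂ := (par j).V)
      ?_ ?_) ht2) ?_
    · simpa [norm_smul] using hx
    · simpa [norm_smul, abs_of_nonneg hy0] using hyV
    · linarith [ok.H_V ((par j).rg_zero), ok.V_big]
  have hs : ‖(8 * (par j).H₀)⁻¹ • q‖ ≤ 1 / 8 := by
    rw [norm_smul, norm_inv, Real.norm_of_nonneg (by positivity), inv_mul_eq_div,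
      div_le_iff₀ (by positivity)]
    linarith
  have h1 := norm_add_le (e 0) ((8 * (par j).H₀)⁻¹ • q)
  have h2 := norm_sub_norm_le (e 0) (-((8 * (par j).H₀)⁻¹ • q))
  rw [sub_neg_eq_add, norm_neg] at h2
  rw [norm_e] at h1 h2
  rw [plc, norm_smul, Real.norm_of_nonneg (rad_pos j).le]
  constructor
  · rw [mul_comm]; exact mul_le_mul_of_nonneg_left (by linarith) (rad_pos j).le
  · rw [mul_comm (9 / 8 : ℝ)]; exact mul_le_mul_of_nonneg_left (by linarith) (rad_pos j).le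

lemma piece_cov (j : ℕ) {x : E} (hx : x ∈ piece j) {R : ℝ} (hR : 0 < R) :
    Cov C₁ (piece j ∩ ball x R) (R / 8) := by
  classical
  obtain ⟨q, hq, rfl⟩ := hx
  set c := rad j / (8 * (par j).H₀) with hc
  have hc0 : 0 < c := div_pos (rad_pos j) (by linarith [(par_ok j).H₀_pos])
  obtain ⟨Cs, hcard, hcov⟩ :=
    pts_cov (par_ok j) (dep j) 0 _ ((par j).rg_zero) q hq (R / c) (div_pos hR hc0)
  refine ⟨Cs.image (plc j), Finset.card_image_le.trans hcard, ?_⟩
  rintro _ ⟨⟨p, hp, rfl⟩, hd⟩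
  rw [mem_ball, dist_eq_norm, plc_dist] at hd
  have : p ∈ (par j).pts (dep j) 0 (par j).H₀ ∩ ball q (R / c) := by
    refine ⟨hp, ?_⟩
    rw [mem_ball, dist_eq_norm, lt_div_iff₀ hc0]; linarith
  obtain ⟨y, hy, hyp⟩ := Set.mem_iUnion₂.1 (hcov this)
  refine Set.mem_biUnion (Finset.mem_image_of_mem _ hy) ?_
  rw [mem_ball, dist_eq_norm, plc_dist]
  rw [mem_ball, dist_eq_norm, div_div, lt_div_iff₀ (by positivity)] at hyp
  linarith

lemma rad_step {i j : ℕ} (h : i < j) : 64 * rad j ≤ rad i := by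
  have h1 : rad j ≤ rad (i + 1) := pow_le_pow_of_le_one (by norm_num) (by norm_num) h
  have h2 : rad (i + 1) = rad i * (64 : ℝ)⁻¹ := pow_succ _ _
  rw [h2] at h1
  linarith

/-- At most one large piece meets a ball. -/
lemma one_big {i j : ℕ} {x p q : E} {r : ℝ} (hp : p ∈ piece i) (hq : q ∈ piece j)
    (hpx : ‖p - x‖ < r) (hqx : ‖q - x‖ < r) (hi : r / 16 < rad i) (hj : r / 16 < rad j) :
    i = j := by
  by_contra hne
  wlog hij : i < j generalizing i j p q with hw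
  · exact hw hq hp hqx hpx hj hi (Ne.symm hne) (by omega)
  have h := rad_step hij
  have h1 := (piece_norm hp).1
  have h2 := (piece_norm hq).2
  have h3 := norm_sub_norm_le p q
  have h4 := norm_sub_le_norm_sub_add_norm_sub p x q
  rw [norm_sub_rev x q] at h4
  linarith

theorem bad_doubling : ∃ lam : ℕ, ∀ x ∈ bad, ∀ r > 0, ∃ C : Finset E,
    ↑C ⊆ bad ∧ C.card ≤ lam ∧ bad ∩ ball x r ⊆ ⋃ y ∈ C, ball y (r / 2) := by
  classical
  refine ⟨C₁ + 1, fun x _ r hr => ?_⟩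
  obtain ⟨Cs, hcard, hcov⟩ : Cov (C₁ + 1) (bad ∩ ball x r) (r / 4) := by
    by_cases hbig : ∃ j, r / 16 < rad j ∧ (piece j ∩ ball x r).Nonempty
    · obtain ⟨j, hj, y, hy, hyx⟩ := hbig
      obtain ⟨Cs, hcard, hcov⟩ := piece_cov j hy (show 0 < 2 * r by linarith)
      refine ⟨insert 0 Cs, (Finset.card_insert_le _ _).trans (by omega), ?_⟩
      rintro p ⟨hp, hpx⟩
      obtain ⟨i, hi⟩ := Set.mem_iUnion.1 hp
      rw [mem_ball, dist_eq_norm] at hpx hyx
      by_cases hb : r / 16 < rad i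
      · obtain rfl := one_big hi hy hpx hyx hb hj
        have : p ∈ piece i ∩ ball y (2 * r) := by
          refine ⟨hi, ?_⟩
          rw [mem_ball, dist_eq_norm]
          have := norm_sub_le_norm_sub_add_norm_sub p x y
          rw [norm_sub_rev x y] at this
          linarith
        obtain ⟨z, hz, hzp⟩ := Set.mem_iUnion₂.1 (hcov this)
        refine Set.mem_biUnion (Finset.mem_insert_of_mem hz) ?_
        rw [mem_ball] at hzp ⊢; linarith
      · refine Set.mem_biUnion (Finset.mem_insert_self _ _) ?_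
        rw [mem_ball, dist_eq_norm, sub_zero]
        linarith [(piece_norm hi).2, not_lt.1 hb]
    · refine ⟨{0}, by simp, ?_⟩
      rintro p ⟨hp, hpx⟩
      obtain ⟨i, hi⟩ := Set.mem_iUnion.1 hp
      refine Set.mem_biUnion (Finset.mem_singleton_self _) ?_
      rw [mem_ball, dist_eq_norm, sub_zero]
      have : rad i ≤ r / 16 := not_lt.1 fun h => hbig ⟨i, h, p, hi, hpx⟩
      linarith [(piece_norm hi).2]
  let pick : E → E := fun c => if h : (bad ∩ ball c (r / 4)).Nonempty then h.choose else c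
  refine ⟨(Cs.filter fun c => (bad ∩ ball c (r / 4)).Nonempty).image pick, ?_, ?_, ?_⟩
  · intro z hz
    simp only [Finset.coe_image, Set.mem_image, Finset.mem_coe, Finset.mem_filter] at hz
    obtain ⟨c, ⟨-, hc⟩, rfl⟩ := hz
    simp only [pick, dif_pos hc]
    exact hc.choose_spec.1
  · exact Finset.card_image_le.trans ((Finset.card_filter_le _ _).trans hcard)
  · rintro p hp
    obtain ⟨c, hc, hpc⟩ := Set.mem_iUnion₂.1 (hcov hp)
    have hne : (bad ∩ ball c (r / 4)).Nonempty := ⟨p, hp.1, hpc⟩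
    refine Set.mem_biUnion (Finset.mem_image_of_mem pick (Finset.mem_filter.2 ⟨hc, hne⟩)) ?_
    simp only [pick, dif_pos hne]
    have := hne.choose_spec.2
    rw [mem_ball] at this hpc ⊢
    linarith [dist_triangle_right p hne.choose c]

theorem bad_no_embedding (k : ℕ) : ¬ ∃ f : bad → EuclideanSpace ℝ (Fin k),
    ∃ a > 0, ∃ D : ℝ, ∀ x y, a * dist x y ≤ dist (f x) (f y) ∧
      dist (f x) (f y) ≤ D * a * dist x y := by
  classical
  rintro ⟨f, a, ha, D, hf⟩
  obtain ⟨d, hd⟩ := exists_nat_ge D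
  obtain ⟨j, hj⟩ : ∃ j, Nat.unpair j = (k, d) := ⟨Nat.pair k d, Nat.unpair_pair k d⟩
  have hno := par_no j
  rw [hj] at hno
  set c := rad j / (8 * (par j).H₀) with hc
  have hc0 : 0 < c := div_pos (rad_pos j) (by linarith [(par_ok j).H₀_pos])
  let g : E → EuclideanSpace ℝ (Fin k) := fun p =>
    if h : plc j p ∈ bad then (a * c)⁻¹ • f ⟨plc j p, h⟩ else 0
  refine hno g fun p hp q hq => ?_
  have hp' : plc j p ∈ bad := Set.mem_iUnion.2 ⟨j, p, hp, rfl⟩
  have hq' : plc j q ∈ bad := Set.mem_iUnion.2 ⟨j, q, hq, rfl⟩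
  obtain ⟨l1, l2⟩ := hf ⟨plc j p, hp'⟩ ⟨plc j q, hq'⟩
  have hd' : dist (⟨plc j p, hp'⟩ : bad) ⟨plc j q, hq'⟩ = c * ‖p - q‖ := by
    rw [Subtype.dist_eq, dist_eq_norm, plc_dist]
  rw [hd', dist_eq_norm] at l1 l2
  have hg : ‖g p - g q‖ = ‖f ⟨plc j p, hp'⟩ - f ⟨plc j q, hq'⟩‖ / (a * c) := by
    simp only [g, dif_pos hp', dif_pos hq']
    rw [← smul_sub, norm_smul, norm_inv, Real.norm_of_nonneg (by positivity), inv_mul_eq_div]
  rw [hg]
  have hac : 0 < a * c := mul_pos ha hc0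
  constructor
  · rw [le_div_iff₀ hac]; linarith
  · rw [div_le_iff₀ hac]
    calc ‖f ⟨plc j p, hp'⟩ - f ⟨plc j q, hq'⟩‖ ≤ D * a * (c * ‖p - q‖) := l2
      _ ≤ max 1 (d : ℝ) * a * (c * ‖p - q‖) := by
          gcongr
          exact hd.trans (le_max_right _ _)
      _ = _ := by ring

end Vale.Agent.P208
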