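import Mathlib

/-!
# Vectors in `ℓ2`, child maps and grid covers for P208
-/

noncomputable section

open scoped InnerProductSpace ENNReal

namespace Vale.Agent.P208

/-- Real `ℓ2`. -/
abbrev E := lp (fun _ : ℕ => ℝ) 2

/-- The `n`-th unit vector. -/
def e (n : ℕ) : E := lp.single 2 n (1 : ℝ)

lemma e_apply (n m : ℕ) : e n m = if m = n then 1 else 0 := by
  unfold e
  rw [lp.single_apply, Pi.single_apply]

@[simp] lemma e_self (n : ℕ) : e n n = 1 := by simp [e_apply]

lemma e_ne {n m : ℕ} (h : m ≠ n) : e n m = 0 := by simp [e_apply, h]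

@[simp] lemma norm_e (n : ℕ) : ‖e n‖ = 1 := by
  unfold e
  rw [lp.norm_single (by norm_num : (0 : ℝ≥0∞) < 2)]
  simp

lemma inner_e (n : ℕ) (p : E) : ⟪e n, p⟫_ℝ = p n := by
  unfold e
  rw [lp.inner_single_left]
  simp

@[simp] lemma add_at (p q : E) (n : ℕ) : (p + q) n = p n + q n := by
  rw [lp.coeFn_add]; rfl

@[simp] lemma sub_at (p q : E) (n : ℕ) : (p - q) n = p n - q n := by
  rw [lp.coeFn_sub]; rfl

@[simp] lemma neg_at (p : E) (n : ℕ) : (-p) n = -(p n) := by
  rw [lp.coeFn_neg]; rfl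

@[simp] lemma smul_at (a : ℝ) (p : E) (n : ℕ) : (a • p) n = a * p n := by
  rw [lp.coeFn_smul]; rfl

@[simp] lemma zero_at (n : ℕ) : (0 : E) n = 0 := by rw [lp.coeFn_zero]; rfl

lemma abs_at_le (p : E) (n : ℕ) : |p n| ≤ ‖p‖ :=
  lp.norm_apply_le_norm (by norm_num) p n

lemma inner_def (p q : E) : ⟪p, q⟫_ℝ = ∑' n, p n * q n := by
  rw [lp.inner_eq_tsum]
  exact tsum_congr fun n => by simp [mul_comm]

lemma norm_sq_tsum (p : E) : ‖p‖ ^ 2 = ∑' n, p n ^ 2 := by
  rw [← real_inner_self_eq_norm_sq, inner_def]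
  exact tsum_congr fun n => by ring

lemma summable_sq (p : E) : Summable fun n => p n ^ 2 := by
  have h := (lp.memℓp p).summable (by norm_num : 0 < (2 : ℝ≥0∞).toReal)
  simpa [Real.norm_eq_abs, sq_abs] using h

/-- Vanishes in all coordinates `≥ 2 + N`. -/
def Lo (N : ℕ) (p : E) : Prop := ∀ n, 2 + N ≤ n → p n = 0

/-- Vanishes in all coordinates `< 2 + N`. -/
def Hi (N : ℕ) (p : E) : Prop := ∀ n, n < 2 + N → p n = 0

lemma Lo.add {N : ℕ} {p q : E} (hp : Lo N p) (hq : Lo N q) : Lo N (p + q) := fun n hn => by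
  simp [hp n hn, hq n hn]

lemma Lo.sub {N : ℕ} {p q : E} (hp : Lo N p) (hq : Lo N q) : Lo N (p - q) := fun n hn => by
  simp [hp n hn, hq n hn]

lemma Lo.smul {N : ℕ} {p : E} (a : ℝ) (hp : Lo N p) : Lo N (a • p) := fun n hn => by
  simp [hp n hn]

lemma Lo.e {N : ℕ} {m : ℕ} (hm : m < 2 + N) : Lo N (e m) := fun n hn =>
  e_ne (by omega)

lemma lo_zero (N : ℕ) : Lo N 0 := fun n _ => zero_at n

lemma Hi.sub {N : ℕ} {p q : E} (hp : Hi N p) (hq : Hi N q) : Hi N (p - q) := fun n hn => by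
  simp [hp n hn, hq n hn]

lemma Hi.smul {N : ℕ} {p : E} (a : ℝ) (hp : Hi N p) : Hi N (a • p) := fun n hn => by
  simp [hp n hn]

lemma hi_zero (N : ℕ) : Hi N 0 := fun n _ => zero_at n

lemma inner_lo_hi {N : ℕ} {p q : E} (hp : Lo N p) (hq : Hi N q) : ⟪p, q⟫_ℝ = 0 := by
  rw [inner_def]
  convert tsum_zero with n
  by_cases h : n < 2 + N
  · simp [hq n h]
  · simp [hp n (by omega)]

lemma norm_lo_le {N : ℕ} {p q : E} (hp : Lo N p) (hq : Hi N q) : ‖p‖ ≤ ‖p + q‖ := by
  have h := norm_add_sq_real p q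
  rw [inner_lo_hi hp hq] at h
  nlinarith [norm_nonneg (p + q), norm_nonneg p, sq_nonneg ‖q‖]

/-- The part of a point orthogonal to the first two axes. -/
def tl (p : E) : E := p - p 0 • e 0 - p 1 • e 1

lemma tl_at (p : E) (n : ℕ) : tl p n = if n < 2 then 0 else p n := by
  unfold tl
  rcases n with _ | _ | n <;> simp [e_apply]

lemma tl_add (p q : E) : tl (p + q) = tl p + tl q := by
  apply lp.ext; funext n
  simp only [tl_at, add_at]; split_ifs <;> simp

lemma tl_sub (p q : E) : tl (p - q) = tl p - tl q := by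
  apply lp.ext; funext n
  simp only [tl_at, sub_at]; split_ifs <;> simp

lemma tl_smul (a : ℝ) (p : E) : tl (a • p) = a • tl p := by
  apply lp.ext; funext n
  simp only [tl_at, smul_at]; split_ifs <;> simp

lemma norm_sq_split (p : E) : ‖p‖ ^ 2 = p 0 ^ 2 + p 1 ^ 2 + ‖tl p‖ ^ 2 := by
  have h : p = (p 0 • e 0 + p 1 • e 1) + tl p := by simp [tl]
  have h01 : ⟪p 0 • e 0, p 1 • e 1⟫_ℝ = 0 := by
    rw [real_inner_smul_left, inner_e]; simp [e_apply]
  have ht : ⟪p 0 • e 0 + p 1 • e 1, tl p⟫_ℝ = 0 := by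
    rw [inner_add_left, real_inner_smul_left, real_inner_smul_left, inner_e, inner_e]
    simp [tl_at]
  conv_lhs => rw [h, norm_add_sq_real, ht, norm_add_sq_real, h01]
  simp [norm_smul, sq_abs]

/-- Moves the coordinates `≥ 2` up by `N`, forgetting the first two. -/
def shiftFun (N : ℕ) (p : E) : ℕ → ℝ := fun n => if n < 2 + N then 0 else p (n - N)

lemma hasSum_shiftFun (N : ℕ) (p : E) :
    HasSum (fun n => shiftFun N p n ^ 2) (‖tl p‖ ^ 2) := by
  have inj : Function.Injective fun n : ℕ => n + N := fun a b h => by simpa using h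
  have h0 : ∀ x, x ∉ Set.range (fun n : ℕ => n + N) → shiftFun N p x ^ 2 = 0 := by
    intro x hx
    have : x < N := by
      by_contra h
      exact hx ⟨x - N, by show x - N + N = x; omega⟩
    simp [shiftFun, show x < 2 + N by omega]
  rw [← inj.hasSum_iff h0]
  have : ((fun n => shiftFun N p n ^ 2) ∘ fun n => n + N) = fun n => tl p n ^ 2 := by
    funext n
    simp only [Function.comp, shiftFun, tl_at, Nat.add_sub_cancel]
    split_ifs <;> first | rfl | omega
  rw [this, norm_sq_tsum]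
  exact (summable_sq _).hasSum

/-- Moves the coordinates `≥ 2` up by `N`, forgetting the first two. -/
def shift (N : ℕ) (p : E) : E :=
  ⟨shiftFun N p, memℓp_gen (by
    simpa [Real.norm_eq_abs, sq_abs] using (hasSum_shiftFun N p).summable)⟩

lemma shift_at (N : ℕ) (p : E) (n : ℕ) :
    shift N p n = if n < 2 + N then 0 else p (n - N) := rfl

lemma hi_shift (N : ℕ) (p : E) : Hi N (shift N p) := fun n hn => by simp [shift_at, hn]

lemma norm_shift (N : ℕ) (p : E) : ‖shift N p‖ = ‖tl p‖ := by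
  have h : ‖shift N p‖ ^ 2 = ‖tl p‖ ^ 2 := by
    rw [norm_sq_tsum]; exact (hasSum_shiftFun N p).tsum_eq
  exact (pow_left_inj₀ (norm_nonneg _) (norm_nonneg _) (by norm_num)).1 h

lemma shift_sub (N : ℕ) (p q : E) : shift N (p - q) = shift N p - shift N q := by
  apply lp.ext; funext n
  simp only [sub_at, shift_at]; split_ifs <;> simp

lemma tl_shift (N : ℕ) (p : E) : tl (shift N p) = shift N p := by
  apply lp.ext; funext n
  simp only [tl_at, shift_at]; split_ifs <;> first | rfl | omega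

/-- A child of a node: where it sits and its shape. -/
structure Ch where
  o : E
  U : E
  W : E
  s : ℝ
  st : ℕ
  Hc : ℝ

/-- The planar part of a child's placement. -/
def Ch.pl (c : Ch) (x y : ℝ) : E := c.o + c.s • (x • c.U + y • c.W)

/-- The placement of a child. -/
def Ch.emb (c : Ch) (N : ℕ) (p : E) : E := c.pl (p 0) (p 1) + c.s • shift N p

/-- The frame of a child is orthonormal and lives in the low coordinates. -/
structure Ch.Orth (c : Ch) (N : ℕ) : Prop where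
  s_pos : 0 < c.s
  nU : ‖c.U‖ = 1
  nW : ‖c.W‖ = 1
  perpUW : ⟪c.U, c.W⟫_ℝ = 0
  loo : Lo N c.o
  loU : Lo N c.U
  loW : Lo N c.W

lemma Ch.Orth.lo_pl {c : Ch} {N : ℕ} (h : c.Orth N) (x y : ℝ) : Lo N (c.pl x y) :=
  h.loo.add (((h.loU.smul x).add (h.loW.smul y)).smul c.s)

lemma Ch.emb_planar (c : Ch) (N : ℕ) (x y : ℝ) :
    c.emb N (x • e 0 + y • e 1) = c.pl x y := by
  have : shift N (x • e 0 + y • e 1) = 0 := by
    apply lp.ext; funext n
    simp only [shift_at, zero_at, add_at, smul_at]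
    split_ifs with h
    · rfl
    · rw [e_ne (by omega), e_ne (by omega)]; simp
  simp [Ch.emb, this, e_apply]

lemma Ch.norm_emb_sub (c : Ch) {N : ℕ} (h : c.Orth N) (p q : E) :
    ‖c.emb N p - c.emb N q‖ = c.s * ‖p - q‖ := by
  have hd : c.emb N p - c.emb N q
      = c.s • (((p 0 - q 0) • c.U + (p 1 - q 1) • c.W) + shift N (p - q)) := by
    rw [shift_sub]; simp only [Ch.emb, Ch.pl]; module
  rw [hd, norm_smul, Real.norm_of_nonneg h.s_pos.le]
  congr 1
  have e1 : ‖((p 0 - q 0) • c.U + (p 1 - q 1) • c.W) + shift N (p - q)‖ ^ 2 = ‖p - q‖ ^ 2 := by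
    rw [norm_add_sq_real, inner_lo_hi ((h.loU.smul _).add (h.loW.smul _)) (hi_shift N _),
      norm_shift, norm_add_sq_real, real_inner_smul_left, real_inner_smul_right, h.perpUW,
      norm_smul, norm_smul, h.nU, h.nW, norm_sq_split (p - q)]
    simp [sq_abs]
  exact (pow_left_inj₀ (norm_nonneg _) (norm_nonneg _) (by norm_num)).1 e1

lemma Ch.norm_emb_sub_pl (c : Ch) {N : ℕ} (h : c.Orth N) (p : E) :
    ‖c.emb N p - c.pl (p 0) (p 1)‖ = c.s * ‖tl p‖ := by
  simp [Ch.emb, norm_smul, norm_shift, abs_of_pos h.s_pos]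

/-- Coverable by `C` balls of radius `r`. -/
def Cov (C : ℕ) (S : Set E) (r : ℝ) : Prop :=
  ∃ Cs : Finset E, Cs.card ≤ C ∧ S ⊆ ⋃ y ∈ Cs, Metric.ball y r

/-- The size of the grid cover. -/
def C₁ : ℕ := 3 * (515 * (515 * 515))

/-- A set near few three-dimensional coordinate spaces is covered by boundedly many balls. -/
lemma cov_grid {S : Set E} {r : ℝ} (hr : 0 < r) (J : Finset ℕ) (hJ : J.card ≤ 3)
    (a₀ b₀ : ℝ) (c₀ : ℕ → ℝ)
    (hS : ∀ p ∈ S, ∃ j ∈ J, ∃ a b c : ℝ, |a - a₀| ≤ 2 * r ∧ |b - b₀| ≤ 2 * r ∧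
      |c - c₀ j| ≤ 2 * r ∧ ‖p - (a • e 0 + b • e 1 + c • e j)‖ ≤ r / 32) :
    Cov C₁ S (r / 16) := by
  classical
  set st : ℝ := r / 128 with hst
  have hst0 : 0 < st := by positivity
  let I : Finset ℤ := Finset.Icc (-257) 257
  let G : Finset E := (J ×ˢ (I ×ˢ (I ×ˢ I))).image fun t =>
    (a₀ + t.2.1 * st) • e 0 + (b₀ + t.2.2.1 * st) • e 1 + (c₀ t.1 + t.2.2.2 * st) • e t.1
  refine ⟨G, ?_, ?_⟩
  · refine Finset.card_image_le.trans ?_
    simp only [Finset.card_product]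
    have hI : I.card = 515 := by simp [I]
    rw [hI, C₁]
    exact Nat.mul_le_mul_right _ hJ
  · intro p hp
    obtain ⟨j, hj, a, b, c, ha, hb, hc, hd⟩ := hS p hp
    have key : ∀ u u₀ : ℝ, |u - u₀| ≤ 2 * r →
        ⌊(u - u₀) / st⌋ ∈ I ∧ |u - (u₀ + ⌊(u - u₀) / st⌋ * st)| ≤ st := by
      intro u u₀ hu
      have h1 := Int.floor_le ((u - u₀) / st)
      have h2 := Int.lt_floor_add_one ((u - u₀) / st)
      rw [le_div_iff₀ hst0] at h1
      rw [div_lt_iff₀ hst0] at h2
      rw [abs_le] at hu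
      refine ⟨Finset.mem_Icc.2 ⟨?_, ?_⟩, ?_⟩
      · have : ((-257 : ℤ) : ℝ) ≤ (⌊(u - u₀) / st⌋ : ℝ) := by push_cast; nlinarith
        exact_mod_cast this
      · have : (⌊(u - u₀) / st⌋ : ℝ) ≤ ((257 : ℤ) : ℝ) := by push_cast; nlinarith
        exact_mod_cast this
      · rw [abs_le]; constructor <;> nlinarith
    obtain ⟨hia, ea⟩ := key a a₀ ha
    obtain ⟨hib, eb⟩ := key b b₀ hb
    obtain ⟨hic, ec⟩ := key c (c₀ j) hc
    set A := a₀ + ⌊(a - a₀) / st⌋ * st
    set B := b₀ + ⌊(b - b₀) / st⌋ * st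
    set C := c₀ j + ⌊(c - c₀ j) / st⌋ * st
    refine Set.mem_biUnion (x := A • e 0 + B • e 1 + C • e j) ?_ ?_
    · exact Finset.mem_image.2 ⟨(j, _, _, _),
        by simp [Finset.mem_product, hj, hia, hib, hic], rfl⟩
    · rw [Metric.mem_ball, dist_eq_norm]
      have hq : p - (A • e 0 + B • e 1 + C • e j)
          = (p - (a • e 0 + b • e 1 + c • e j))
            + ((a - A) • e 0 + (b - B) • e 1 + (c - C) • e j) := by module
      rw [hq]
      calc _ ≤ ‖p - (a • e 0 + b • e 1 + c • e j)‖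
            + ((|a - A| + |b - B|) + |c - C|) := by
              refine norm_add_le_of_le le_rfl (norm_add_le_of_le (norm_add_le_of_le ?_ ?_) ?_)
              all_goals simp [norm_smul]
        _ < r / 16 := by linarith

end Vale.Agent.P208
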